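import Crest.Agent.R237.BHyp

/-!
# Row 237: the cone of part B
-/

set_option autoImplicit false
set_option linter.unusedSectionVars false

noncomputable section

namespace Crest.Agent.R237

open MvPolynomial Matrix

namespace BConeAux

open BHypAux

theorem eval_xs (v : Fin 23 → ℝ) (s : Fin 2) :
    eval v (xs (X : Fin 23 → MvPolynomial (Fin 23) ℝ) s) = xs v s := by
  rw [map_xs (eval v)]; simp only [eval_X]

theorem eval_F0 (κ : ℝ) (v : Fin 23 → ℝ) :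
    eval v (F0 κ (X : Fin 23 → MvPolynomial (Fin 23) ℝ)) = F0 κ v := by
  rw [← aeval_eq_eval, map_F0]; simp only [aeval_X]

theorem eval_F1 (κ : ℝ) (v : Fin 23 → ℝ) :
    eval v (F1 κ (X : Fin 23 → MvPolynomial (Fin 23) ℝ)) = F1 κ v := by
  rw [← aeval_eq_eval, map_F1]; simp only [aeval_X]

theorem eval_P6 (κ : ℝ) (v : Fin 23 → ℝ) :
    eval v (P6 κ (X : Fin 23 → MvPolynomial (Fin 23) ℝ)) = P6 κ v := by
  rw [← aeval_eq_eval, map_P6]; simp only [aeval_X]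

theorem xs_eB (s : Fin 2) : xs eB s = 1 := by fin_cases s <;> rfl
theorem al_eB (s : Fin 2) : al eB s = 1 := by fin_cases s <;> rfl
theorem av_eB (s : Fin 2) : av eB s = 0 := by
  funext j; fin_cases s <;> fin_cases j <;> rfl
theorem yy_eB : yy eB = 0 := by funext j; fin_cases j <;> rfl
theorem xs_eB0 (s : Fin 2) : xs eB0 s = 1 := by fin_cases s <;> rfl
theorem al_eB0 (s : Fin 2) : al eB0 s = 0 := by fin_cases s <;> rfl
theorem av_eB0 (s : Fin 2) : av eB0 s = 0 := by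
  funext j; fin_cases s <;> fin_cases j <;> rfl
theorem yy_eB0 : yy eB0 = 0 := by funext j; fin_cases j <;> rfl

theorem xs_ray (x e : Fin 23 → ℝ) (δ : ℝ) (s : Fin 2) :
    xs (fun i => x i + δ * e i) s = xs x s + δ * xs e s := by fin_cases s <;> rfl
theorem al_ray (x e : Fin 23 → ℝ) (δ : ℝ) (s : Fin 2) :
    al (fun i => x i + δ * e i) s = al x s + δ * al e s := by fin_cases s <;> rfl
theorem av_ray (x e : Fin 23 → ℝ) (δ : ℝ) (s : Fin 2) (h : av e s = 0) :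
    av (fun i => x i + δ * e i) s = av x s := by
  funext j
  have : av (fun i => x i + δ * e i) s j = av x s j + δ * av e s j := by
    fin_cases s <;> fin_cases j <;> rfl
  rw [this, h, Pi.zero_apply, mul_zero, add_zero]
theorem yy_ray (x e : Fin 23 → ℝ) (δ : ℝ) (h : yy e = 0) :
    yy (fun i => x i + δ * e i) = yy x := by
  funext j
  have : yy (fun i => x i + δ * e i) j = yy x j + δ * yy e j := by fin_cases j <;> rfl
  rw [this, h, Pi.zero_apply, mul_zero, add_zero]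

theorem F0_eq (κ c : ℝ) {x : Fin 23 → ℝ} (h0 : 0 < xs x 0) (h1 : 0 < xs x 1) :
    F0 (κ + c) x = xs x 0 * xs x 1 *
      (ff κ (xs x 0, av x 0, al x 0) (xs x 1) (yy x) - c * (yy x ⬝ᵥ yy x) / xs x 1) := by
  simp only [F0, ff, Algebra.algebraMap_self, RingHom.id_apply]
  field_simp
  ring

theorem F1_eq (κ c : ℝ) {x : Fin 23 → ℝ} (h0 : 0 < xs x 0) (h1 : 0 < xs x 1) :
    F1 (κ + c) x = xs x 0 * xs x 1 *
      (ff κ (xs x 1, av x 1, al x 1) (xs x 0) (yy x) - c * (yy x ⬝ᵥ yy x) / xs x 0) := by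
  simp only [F1, ff, Algebra.algebraMap_self, RingHom.id_apply]
  field_simp
  ring

theorem P6_eq (κ : ℝ) {x : Fin 23 → ℝ} (h0 : 0 < xs x 0) (h1 : 0 < xs x 1) :
    P6 κ x = (xs x 0 * xs x 1) ^ 2 * (ff κ (xs x 0, av x 0, al x 0) (xs x 1) (yy x) *
      ff κ (xs x 1, av x 1, al x 1) (xs x 0) (yy x) -
        bq (yy x) fun i => av x 0 i / xs x 0 - av x 1 i / xs x 1) := by
  have a := F0_eq κ 0 h0 h1
  have b := F1_eq κ 0 h0 h1
  rw [add_zero, zero_mul, zero_div, sub_zero] at a b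
  rw [P6, a, b]
  simp only [bq]
  field_simp

/-- The five factors. -/
theorem iff_pos {κ : ℝ} (hκ : 4 ≤ κ)
    (hadd : ∀ (x : Fin 23 → ℝ) (δ : ℝ), Ko κ x → 0 < δ → Ko κ fun i => x i + δ * eB0 i)
    (x : Fin 23 → ℝ) : (∀ δ : ℝ, 0 < δ → q16 κ (fun i => x i + δ * eB i) ≠ 0) ↔
      ∀ δ : ℝ, 0 < δ → Ko κ fun i => x i + δ * eB i := by
  constructor
  · intro h δ hδ
    simp only [q16, ne_eq, mul_eq_zero, not_or, pow_eq_zero_iff two_ne_zero] at h
    have h0 := pos_of_ray (x := x) (e := eB) (hom_xs 0) (by rw [eval_xs, xs_eB]; exact one_pos)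
      (fun t ht => by rw [eval_xs]; exact (h t ht).1.1.1.1) hδ
    have h1 := pos_of_ray (x := x) (e := eB) (hom_xs 1) (by rw [eval_xs, xs_eB]; exact one_pos)
      (fun t ht => by rw [eval_xs]; exact (h t ht).1.1.1.2) hδ
    have h2 := pos_of_ray (x := x) (e := eB) (hom_F0 (2 * κ))
      (by rw [eval_F0]; simp [F0, xs_eB, al_eB, av_eB, yy_eB])
      (fun t ht => by rw [eval_F0]; exact (h t ht).1.1.2) hδ
    have h3 := pos_of_ray (x := x) (e := eB) (hom_F1 (2 * κ))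
      (by rw [eval_F1]; simp [F1, xs_eB, al_eB, av_eB, yy_eB])
      (fun t ht => by rw [eval_F1]; exact (h t ht).1.2) hδ
    have h4 := pos_of_ray (x := x) (e := eB) (hom_P6 κ)
      (by rw [eval_P6]; simp [P6, F0, F1, bq, xs_eB, al_eB, av_eB, yy_eB])
      (fun t ht => by rw [eval_P6]; exact (h t ht).2) hδ
    rw [eval_xs] at h0 h1
    rw [eval_F0, two_mul, F0_eq κ κ h0 h1] at h2
    rw [eval_F1, two_mul, F1_eq κ κ h0 h1] at h3
    rw [eval_P6, P6_eq κ h0 h1] at h4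
    have h01 := mul_pos h0 h1
    exact ⟨h0, h1, (sub_pos.mp ((pos_iff_pos_of_mul_pos h2).mp h01)).le,
      (sub_pos.mp ((pos_iff_pos_of_mul_pos h3).mp h01)).le,
      (sub_pos.mp ((pos_iff_pos_of_mul_pos h4).mp (by positivity))).le⟩
  · intro h δ hδ
    have hδ2 : 0 < δ / 2 := by linarith
    obtain ⟨h0, h1, h2, h3, h4⟩ := hadd _ _ (h _ hδ2) hδ2
    simp only [xs_ray, al_ray, av_ray _ _ _ _ (av_eB _), av_ray _ _ _ _ (av_eB0 _),
      yy_ray _ _ _ yy_eB, yy_ray _ _ _ yy_eB0, xs_eB, xs_eB0, al_eB, al_eB0, mul_one, mul_zero,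
      add_zero, ff] at h0 h1 h2 h3 h4
    simp only [add_assoc, add_halves] at h0 h1 h2 h3 h4
    have k0 : 0 < xs (fun i => x i + δ * eB i) 0 := by rwa [xs_ray, xs_eB, mul_one]
    have k1 : 0 < xs (fun i => x i + δ * eB i) 1 := by rwa [xs_ray, xs_eB, mul_one]
    rw [q16, two_mul, F0_eq κ κ k0 k1, F1_eq κ κ k0 k1, P6_eq κ k0 k1]
    simp only [xs_ray, al_ray, av_ray _ _ _ _ (av_eB _), yy_ray _ _ _ yy_eB, xs_eB, al_eB,
      mul_one, ff]
    have y0 := dot_nonneg (yy x)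
    have hκ0 : 0 ≤ κ := by linarith
    have c0 : 0 ≤ κ * (yy x ⬝ᵥ yy x) / (xs x 0 + δ) := by positivity
    have c1 : 0 ≤ κ * (yy x ⬝ᵥ yy x) / (xs x 1 + δ) := by positivity
    generalize κ * (yy x ⬝ᵥ yy x) / (xs x 0 + δ) = u0 at *
    generalize κ * (yy x ⬝ᵥ yy x) / (xs x 1 + δ) = u1 at *
    generalize av x 0 ⬝ᵥ av x 0 / (xs x 0 + δ) = w0 at *
    generalize av x 1 ⬝ᵥ av x 1 / (xs x 1 + δ) = w1 at *
    generalize (bq (yy x) fun i => av x 0 i / (xs x 0 + δ) - av x 1 i / (xs x 1 + δ)) = B at *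
    have p2 : 0 < al x 0 + δ - w0 - u1 - u1 := by linarith
    have p3 : 0 < al x 1 + δ - w1 - u0 - u0 := by linarith
    have p4 : 0 < (al x 0 + δ - w0 - u1) * (al x 1 + δ - w1 - u0) - B := by
      nlinarith [mul_pos hδ hδ, mul_nonneg hδ.le (c1.trans h2), mul_nonneg hδ.le (c0.trans h3)]
    positivity

end BConeAux

open BConeAux BHypAux

theorem cone_q16 {κ : ℝ} (hκ : 4 ≤ κ)
    (hadd : ∀ (x : Fin 23 → ℝ) (δ : ℝ), Ko κ x → 0 < δ → Ko κ fun i => x i + δ * eB0 i) :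
    Cone (q16 κ (X : Fin 23 → MvPolynomial (Fin 23) ℝ)) eB =
      {x | ∀ δ : ℝ, 0 < δ → Ko κ fun i => x i + δ * eB i} := by
  ext x
  rw [mem_cone_iff (isHomogeneous_q16 κ)]
  simp only [eval_q16']
  exact iff_pos hκ hadd x

theorem cone_p20 {κ : ℝ} (hκ : 4 ≤ κ)
    (hadd : ∀ (x : Fin 23 → ℝ) (δ : ℝ), Ko κ x → 0 < δ → Ko κ fun i => x i + δ * eB0 i) :
    Cone (p20 κ (X : Fin 23 → MvPolynomial (Fin 23) ℝ)) eB =
      {x | ∀ δ : ℝ, 0 < δ → Ko κ fun i => x i + δ * eB i} := by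
  ext x
  rw [mem_cone_iff (isHomogeneous_p20 κ)]
  simp only [eval_p20']
  refine Iff.trans (forall₂_congr fun δ _ => ?_) (iff_pos hκ hadd x)
  simp only [p20, q16, ne_eq, mul_eq_zero, not_or]
  tauto

theorem ko_eB (κ : ℝ) : Ko κ eB := by
  simp [Ko, KoP, ff, bq, xs_eB, al_eB, av_eB, yy_eB]

theorem ko_eB0 (κ : ℝ) : Ko κ eB0 := by
  simp [Ko, KoP, ff, bq, xs_eB0, al_eB0, av_eB0, yy_eB0]

/-- `Ko` is closed in the region `x₁, x₂ > 0`. -/
theorem ko_of_forall {κ : ℝ} {x : Fin 23 → ℝ} (h0 : 0 < xs x 0) (h1 : 0 < xs x 1)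
    (h : ∀ δ : ℝ, 0 < δ → Ko κ fun i => x i + δ * eB i) : Ko κ x := by
  simp only [Ko, KoP, xs_ray, al_ray, av_ray _ _ _ _ (av_eB _), yy_ray _ _ _ yy_eB, xs_eB, al_eB,
    mul_one, ff, bq] at h
  have key : ∀ f g : ℝ → ℝ, ContinuousAt f 0 → ContinuousAt g 0 → (∀ δ, 0 < δ → f δ ≤ g δ) →
      f 0 ≤ g 0 := fun f g hf hg hfg =>
    le_of_tendsto_of_tendsto (b := nhdsWithin 0 (Set.Ioi 0))
      (hf.tendsto.mono_left nhdsWithin_le_nhds) (hg.tendsto.mono_left nhdsWithin_le_nhds)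
      (eventually_nhdsWithin_of_forall hfg)
  have n0 : xs x 0 + 0 ≠ 0 := by rw [add_zero]; exact h0.ne'
  have n1 : xs x 1 + 0 ≠ 0 := by rw [add_zero]; exact h1.ne'
  have a := key _ _ (by fun_prop (disch := assumption)) (by fun_prop (disch := assumption))
    fun δ hδ => (h δ hδ).2.2.1
  have b := key _ _ (by fun_prop (disch := assumption)) (by fun_prop (disch := assumption))
    fun δ hδ => (h δ hδ).2.2.2.1
  have c := key _ _ (by fun_prop (disch := assumption)) (by fun_prop (disch := assumption))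
    fun δ hδ => (h δ hδ).2.2.2.2
  simp only [add_zero] at a b c
  exact ⟨h0, h1, a, b, c⟩

end Crest.Agent.R237
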