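import Crest.Agent.R237.Gen

/-!
# Row 237: the polynomials of part B are hyperbolic
-/

set_option autoImplicit false
set_option linter.unusedSectionVars false

noncomputable section

namespace Crest.Agent.R237

open MvPolynomial Matrix

theorem bq_nonneg (y d : Fin 3 → ℝ) : 0 ≤ bq y d := by
  have key : (d 0 ^ 2 + d 1 ^ 2 + d 2 ^ 2) * bq y d =
      ∑ r, Sq (fun i a b => y i * d a * d b) r ^ 2 := by
    simp only [Sq, bq, Fin.sum_univ_succ, Fin.sum_univ_zero, Matrix.cons_val_zero,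
      Matrix.cons_val_succ]
    ring
  have h0 : 0 ≤ (d 0 ^ 2 + d 1 ^ 2 + d 2 ^ 2) * bq y d := by
    rw [key]; exact Finset.sum_nonneg fun r _ => sq_nonneg _
  by_cases hd : d 0 ^ 2 + d 1 ^ 2 + d 2 ^ 2 = 0
  · have h1 : d 0 = 0 := by nlinarith [sq_nonneg (d 0), sq_nonneg (d 1), sq_nonneg (d 2)]
    have h2 : d 1 = 0 := by nlinarith [sq_nonneg (d 0), sq_nonneg (d 1), sq_nonneg (d 2)]
    have h3 : d 2 = 0 := by nlinarith [sq_nonneg (d 0), sq_nonneg (d 1), sq_nonneg (d 2)]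
    simp [bq, h1, h2, h3]
  · have hpos : 0 < d 0 ^ 2 + d 1 ^ 2 + d 2 ^ 2 :=
      lt_of_le_of_ne (by positivity) (Ne.symm hd)
    exact nonneg_of_mul_nonneg_right h0 hpos

theorem bq_le (y d : Fin 3 → ℝ) : bq y d ≤ 4 * (y ⬝ᵥ y) * (d ⬝ᵥ d) := by
  simp only [bq, dotProduct, Fin.sum_univ_three]
  have h1 := sq_nonneg (y 0 * d 0 + y 1 * d 1 + y 2 * d 2)
  have h2 := sq_nonneg (y 0 * d 1)
  have h3 := sq_nonneg (y 0 * d 2)
  have h4 := sq_nonneg (y 1 * d 0)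
  have h5 := sq_nonneg (y 1 * d 2)
  have h6 := sq_nonneg (y 2 * d 0)
  have h7 := sq_nonneg (y 2 * d 1)
  nlinarith [h1, h2, h3, h4, h5, h6, h7]

namespace BHypAux

section map

variable {R S : Type} [CommRing R] [CommRing S] [Algebra ℝ R] [Algebra ℝ S]

theorem map_xs (φ : R → S) (x : Fin 23 → R) (s : Fin 2) :
    φ (xs x s) = xs (fun i => φ (x i)) s := by
  fin_cases s <;> rfl

theorem map_al (φ : R → S) (x : Fin 23 → R) (s : Fin 2) :
    φ (al x s) = al (fun i => φ (x i)) s := by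
  fin_cases s <;> rfl

theorem map_av (φ : R → S) (x : Fin 23 → R) (s : Fin 2) (j : Fin 3) :
    φ (av x s j) = av (fun i => φ (x i)) s j := by
  fin_cases s <;> fin_cases j <;> rfl

theorem map_yy (φ : R → S) (x : Fin 23 → R) (j : Fin 3) :
    φ (yy x j) = yy (fun i => φ (x i)) j := by
  fin_cases j <;> rfl

theorem map_bq (φ : R →ₐ[ℝ] S) (y d : Fin 3 → R) :
    φ (bq y d) = bq (fun i => φ (y i)) (fun i => φ (d i)) := by
  simp only [bq, map_mul, map_add, map_sub, map_pow, map_ofNat]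

theorem map_F0 (φ : R →ₐ[ℝ] S) (κ : ℝ) (x : Fin 23 → R) :
    φ (F0 κ x) = F0 κ (fun i => φ (x i)) := by
  simp only [F0, dotProduct, map_mul, map_sub, map_sum, AlgHom.commutes, map_xs φ, map_al φ,
    map_av φ, map_yy φ]

theorem map_F1 (φ : R →ₐ[ℝ] S) (κ : ℝ) (x : Fin 23 → R) :
    φ (F1 κ x) = F1 κ (fun i => φ (x i)) := by
  simp only [F1, dotProduct, map_mul, map_sub, map_sum, AlgHom.commutes, map_xs φ, map_al φ,
    map_av φ, map_yy φ]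

theorem map_P6 (φ : R →ₐ[ℝ] S) (κ : ℝ) (x : Fin 23 → R) :
    φ (P6 κ x) = P6 κ (fun i => φ (x i)) := by
  simp only [P6, map_mul, map_sub, map_F0, map_F1, map_bq, map_xs φ, map_av φ, map_yy φ]

theorem map_q16 (φ : R →ₐ[ℝ] S) (κ : ℝ) (x : Fin 23 → R) :
    φ (q16 κ x) = q16 κ (fun i => φ (x i)) := by
  simp only [q16, map_mul, map_pow, map_F0, map_F1, map_P6, map_xs φ]

theorem map_p20 (φ : R →ₐ[ℝ] S) (κ : ℝ) (x : Fin 23 → R) :
    φ (p20 κ x) = p20 κ (fun i => φ (x i)) := by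
  simp only [p20, map_mul, map_pow, map_q16, map_xs φ]

theorem aeval_q16 (κ : ℝ) (v : Fin 23 → S) :
    aeval v (q16 κ (X : Fin 23 → MvPolynomial (Fin 23) ℝ)) = q16 κ v := by
  rw [map_q16]; simp only [aeval_X]

theorem aeval_p20 (κ : ℝ) (v : Fin 23 → S) :
    aeval v (p20 κ (X : Fin 23 → MvPolynomial (Fin 23) ℝ)) = p20 κ v := by
  rw [map_p20]; simp only [aeval_X]

theorem eval_q16' (κ : ℝ) (v : Fin 23 → ℝ) :
    eval v (q16 κ (X : Fin 23 → MvPolynomial (Fin 23) ℝ)) = q16 κ v := by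
  rw [← aeval_q16 κ v, aeval_eq_eval]

theorem eval_p20' (κ : ℝ) (v : Fin 23 → ℝ) :
    eval v (p20 κ (X : Fin 23 → MvPolynomial (Fin 23) ℝ)) = p20 κ v := by
  rw [← aeval_p20 κ v, aeval_eq_eval]

end map

section hom

theorem hom_xs (s : Fin 2) :
    (xs (X : Fin 23 → MvPolynomial (Fin 23) ℝ) s).IsHomogeneous 1 := by
  fin_cases s <;> exact isHomogeneous_X _ _

theorem hom_al (s : Fin 2) :
    (al (X : Fin 23 → MvPolynomial (Fin 23) ℝ) s).IsHomogeneous 1 := by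
  fin_cases s <;> exact isHomogeneous_X _ _

theorem hom_av (s : Fin 2) (j : Fin 3) :
    (av (X : Fin 23 → MvPolynomial (Fin 23) ℝ) s j).IsHomogeneous 1 := by
  fin_cases s <;> fin_cases j <;> exact isHomogeneous_X _ _

theorem hom_yy (j : Fin 3) :
    (yy (X : Fin 23 → MvPolynomial (Fin 23) ℝ) j).IsHomogeneous 1 := by
  fin_cases j <;> exact isHomogeneous_X _ _

theorem hom_dot {u : Fin 3 → MvPolynomial (Fin 23) ℝ} (hu : ∀ j, (u j).IsHomogeneous 1) :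
    (u ⬝ᵥ u).IsHomogeneous 2 :=
  IsHomogeneous.sum _ _ _ fun j _ => (hu j).mul (hu j)

theorem hom_alg (κ : ℝ) : (algebraMap ℝ (MvPolynomial (Fin 23) ℝ) κ).IsHomogeneous 0 :=
  isHomogeneous_C _ κ

theorem hom_two : (2 : MvPolynomial (Fin 23) ℝ).IsHomogeneous 0 := by
  have := isHomogeneous_C (Fin 23) (2 : ℝ)
  rwa [map_ofNat] at this

theorem hom_F0 (κ : ℝ) : (F0 κ (X : Fin 23 → MvPolynomial (Fin 23) ℝ)).IsHomogeneous 3 :=
  ((((hom_xs 0).mul (hom_xs 1)).mul (hom_al 0)).sub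
    ((hom_xs 1).mul (hom_dot (hom_av 0)))).sub
    (((hom_alg κ).mul (hom_xs 0)).mul (hom_dot hom_yy))

theorem hom_F1 (κ : ℝ) : (F1 κ (X : Fin 23 → MvPolynomial (Fin 23) ℝ)).IsHomogeneous 3 :=
  ((((hom_xs 0).mul (hom_xs 1)).mul (hom_al 1)).sub
    ((hom_xs 0).mul (hom_dot (hom_av 1)))).sub
    (((hom_alg κ).mul (hom_xs 1)).mul (hom_dot hom_yy))

theorem hom_bq {y d : Fin 3 → MvPolynomial (Fin 23) ℝ} (hy : ∀ j, (y j).IsHomogeneous 1)
    (hd : ∀ j, (d j).IsHomogeneous 2) : (bq y d).IsHomogeneous 6 := by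
  have h1 : ∀ i j k, (y i ^ 2 * (d j ^ 2 + d k ^ 2)).IsHomogeneous 6 := fun i j k =>
    ((hy i).pow 2).mul (((hd j).pow 2).add ((hd k).pow 2))
  have h2 : ∀ i j, (y i * y j * d i * d j).IsHomogeneous 6 := fun i j =>
    (((hy i).mul (hy j)).mul (hd i)).mul (hd j)
  exact hom_two.mul ((((h1 0 0 1).add (h1 1 1 2)).add (h1 2 2 0)).sub
    (hom_two.mul (((h2 0 1).add (h2 0 2)).add (h2 1 2))))

theorem hom_P6 (κ : ℝ) : (P6 κ (X : Fin 23 → MvPolynomial (Fin 23) ℝ)).IsHomogeneous 6 :=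
  ((hom_F0 κ).mul (hom_F1 κ)).sub
    (hom_bq hom_yy fun j => ((hom_xs 1).mul (hom_av 0 j)).sub ((hom_xs 0).mul (hom_av 1 j)))

end hom

theorem q16_eB (κ : ℝ) : q16 κ eB = 1 := by
  have h0 : xs eB 0 = 1 := rfl
  have h1 : xs eB 1 = 1 := rfl
  have h2 : al eB 0 = 1 := rfl
  have h3 : al eB 1 = 1 := rfl
  have h4 : ∀ s j, av eB s j = 0 := by
    intro s j; fin_cases s <;> fin_cases j <;> rfl
  have h5 : ∀ j, yy eB j = 0 := by
    intro j; fin_cases j <;> rfl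
  simp [q16, P6, F0, F1, bq, dotProduct, h0, h1, h2, h3, h4, h5]

theorem p20_eB (κ : ℝ) : p20 κ eB = 1 := by
  have h0 : xs eB 0 = 1 := rfl
  have h1 : xs eB 1 = 1 := rfl
  simp [p20, q16_eB, h0, h1]

/-- The real core of the argument. -/
theorem real_core {f1 f2 g1 g2 B11 b B22 : ℝ} (hf : 0 < f2) (hg : 0 < g2) (h11 : 0 ≤ B11)
    (hb : b ^ 2 ≤ 4 * B11 * B22) (h22 : B22 < f2 * g2) (hre : f1 * g1 - f2 * g2 = B11 - B22)
    (him : f1 * g2 + f2 * g1 = b) : False := by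
  have e1 : g2 * f1 ^ 2 - f1 * b + f2 * B11 + f2 * (f2 * g2 - B22) = 0 := by
    rw [← him]; linear_combination (-f2) * hre
  have e2 : 0 < f2 * (f2 * g2 - B22) := mul_pos hf (sub_pos.2 h22)
  have e3 : B11 * B22 ≤ B11 * (f2 * g2) := mul_le_mul_of_nonneg_left h22.le h11
  have e4 : 0 ≤ g2 * (g2 * f1 ^ 2 - f1 * b + f2 * B11) := by
    nlinarith [sq_nonneg (2 * g2 * f1 - b)]
  have e5 : 0 ≤ g2 * f1 ^ 2 - f1 * b + f2 * B11 := nonneg_of_mul_nonneg_right e4 hg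
  linarith

theorem bq_re (y : Fin 3 → ℝ) (d : Fin 3 → ℂ) :
    (bq (fun i => (y i : ℂ)) d).re = bq y (fun i => (d i).re) - bq y (fun i => (d i).im) := by
  simp only [bq, pow_two, Complex.mul_re, Complex.mul_im, Complex.add_re, Complex.add_im,
    Complex.sub_re, Complex.sub_im, Complex.ofReal_re, Complex.ofReal_im, Complex.re_ofNat,
    Complex.im_ofNat]
  ring

theorem bq_im (y : Fin 3 → ℝ) (d : Fin 3 → ℂ) (t : ℝ) :
    bq y (fun i => (d i).re + t * (d i).im) = bq y (fun i => (d i).im) * (t * t) +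
      (bq (fun i => (y i : ℂ)) d).im * t + bq y (fun i => (d i).re) := by
  simp only [bq, pow_two, Complex.mul_re, Complex.mul_im, Complex.add_re, Complex.add_im,
    Complex.sub_re, Complex.sub_im, Complex.ofReal_re, Complex.ofReal_im, Complex.re_ofNat,
    Complex.im_ofNat]
  ring

theorem bq_discr (y : Fin 3 → ℝ) (d : Fin 3 → ℂ) :
    (bq (fun i => (y i : ℂ)) d).im ^ 2 ≤
      4 * bq y (fun i => (d i).re) * bq y (fun i => (d i).im) := by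
  have h := discrim_le_zero (a := bq y (fun i => (d i).im)) (b := (bq (fun i => (y i : ℂ)) d).im)
    (c := bq y (fun i => (d i).re)) fun t => by rw [← bq_im]; exact bq_nonneg _ _
  unfold discrim at h
  linarith

theorem dot_nonneg (a : Fin 3 → ℝ) : 0 ≤ a ⬝ᵥ a :=
  Finset.sum_nonneg fun i _ => mul_self_nonneg (a i)

theorem dot_sq_le (a a' : Fin 3 → ℝ) : (a ⬝ᵥ a') ^ 2 ≤ (a ⬝ᵥ a) * (a' ⬝ᵥ a') := by
  simp only [dotProduct, Fin.sum_univ_three]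
  nlinarith [sq_nonneg (a 0 * a' 1 - a 1 * a' 0), sq_nonneg (a 0 * a' 2 - a 2 * a' 0),
    sq_nonneg (a 1 * a' 2 - a 2 * a' 1)]

theorem im_pos {κ A Y : ℝ} (hκ : 0 ≤ κ) (hA : 0 ≤ A) (hY : 0 ≤ Y) {u w1 w2 : ℂ} (hu : 0 < u.im)
    (h1 : w1.im < 0) (h2 : w2.im < 0) : 0 < (u - A * w1 - κ * Y * w2).im := by
  simp only [Complex.sub_im, Complex.mul_im, Complex.mul_re, Complex.ofReal_re, Complex.ofReal_im,
    zero_mul, add_zero, mul_zero, sub_zero]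
  have e1 : 0 ≤ A * -w1.im := mul_nonneg hA (by linarith)
  have e2 : 0 ≤ κ * Y * -w2.im := mul_nonneg (mul_nonneg hκ hY) (by linarith)
  linarith

theorem core {κ : ℝ} (hκ : 4 ≤ κ) (a a' y : Fin 3 → ℝ) {u u' w1 w2 : ℂ} (hu : 0 < u.im)
    (hu' : 0 < u'.im) (h1 : w1.im < 0) (h2 : w2.im < 0) :
    (u - (a ⬝ᵥ a : ℝ) * w1 - κ * (y ⬝ᵥ y : ℝ) * w2) *
        (u' - (a' ⬝ᵥ a' : ℝ) * w2 - κ * (y ⬝ᵥ y : ℝ) * w1) ≠
      bq (fun i => (y i : ℂ)) (fun i => a i * w1 - a' i * w2) := by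
  intro h
  have hκ0 : 0 ≤ κ := by linarith
  have hA := dot_nonneg a
  have hA' := dot_nonneg a'
  have hY := dot_nonneg y
  have hf := im_pos hκ0 hA hY hu h1 h2
  have hg := im_pos hκ0 hA' hY hu' h2 h1
  have hre := congrArg Complex.re h
  have him := congrArg Complex.im h
  rw [Complex.mul_re, bq_re] at hre
  rw [Complex.mul_im] at him
  refine real_core hf hg (bq_nonneg _ _) (bq_discr y _) ?_ hre him
  refine (bq_le _ _).trans_lt ?_
  have e0 : ((fun i => ((a i : ℂ) * w1 - a' i * w2).im) ⬝ᵥ fun i => ((a i : ℂ) * w1 - a' i * w2).im)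
      = w1.im ^ 2 * (a ⬝ᵥ a) + w2.im ^ 2 * (a' ⬝ᵥ a') - 2 * (w1.im * w2.im) * (a ⬝ᵥ a') := by
    simp only [dotProduct, Fin.sum_univ_three, Complex.sub_im, Complex.mul_im, Complex.ofReal_re,
      Complex.ofReal_im]
    ring
  have e1 : 0 ≤ w1.im ^ 2 * (a ⬝ᵥ a) + w2.im ^ 2 * (a' ⬝ᵥ a') -
      2 * (w1.im * w2.im) * (a ⬝ᵥ a') := by
    rw [← e0]; exact dot_nonneg _
  rw [e0]
  simp only [Complex.sub_im, Complex.mul_im, Complex.mul_re, Complex.ofReal_re, Complex.ofReal_im,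
    zero_mul, add_zero, mul_zero, sub_zero]
  have hc := dot_sq_le a a'
  generalize a ⬝ᵥ a = A at *
  generalize a' ⬝ᵥ a' = A' at *
  generalize a ⬝ᵥ a' = c at *
  generalize y ⬝ᵥ y = Y at *
  obtain ⟨s1, hs1⟩ : ∃ s, w1.im = -s := ⟨-w1.im, by ring⟩
  obtain ⟨s2, hs2⟩ : ∃ s, w2.im = -s := ⟨-w2.im, by ring⟩
  rw [hs1, hs2] at e1 ⊢
  have p1 : 0 < s1 := by linarith
  have p2 : 0 < s2 := by linarith
  have e2 : 4 * Y * ((-s1) ^ 2 * A + (-s2) ^ 2 * A' - 2 * (-s1 * -s2) * c) ≤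
      κ * Y * ((-s1) ^ 2 * A + (-s2) ^ 2 * A' - 2 * (-s1 * -s2) * c) :=
    mul_le_mul_of_nonneg_right (mul_le_mul_of_nonneg_right hκ hY) e1
  have e3 : 0 ≤ s1 * s2 * (A * A' - c ^ 2 + (c + κ * Y) ^ 2) :=
    mul_nonneg (mul_pos p1 p2).le (add_nonneg (sub_nonneg.2 hc) (sq_nonneg _))
  have e4 : 0 ≤ A * s1 + κ * Y * s2 := by positivity
  have e5 : 0 ≤ A' * s2 + κ * Y * s1 := by positivity
  have e6 : 0 < u.im * u'.im := mul_pos hu hu'
  have e7 := mul_nonneg hu.le e5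
  have e8 := mul_nonneg hu'.le e4
  nlinarith [e2, e3, e6, e7, e8]

theorem im_inv_neg {z : ℂ} (hz : 0 < z.im) : z⁻¹.im < 0 := by
  have h0 : z ≠ 0 := by rintro rfl; simp at hz
  rw [Complex.inv_im]
  exact div_neg_of_neg_of_pos (by linarith) (Complex.normSq_pos.2 h0)

theorem factors_ne {κ : ℝ} (hκ : 4 ≤ κ) (x : Fin 23 → ℝ) {z : ℂ} (hz : 0 < z.im)
    (v : Fin 23 → ℂ) (hv : v = fun i => (x i : ℂ) + z * (eB i : ℂ)) :
    xs v 0 ≠ 0 ∧ xs v 1 ≠ 0 ∧ F0 (2 * κ) v ≠ 0 ∧ F1 (2 * κ) v ≠ 0 ∧ P6 κ v ≠ 0 := by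
  have e0 : eB 0 = 1 := rfl
  have e1 : eB 1 = 1 := rfl
  have e2 : eB 2 = 1 := rfl
  have e3 : eB 3 = 1 := rfl
  have h0 : 0 < (xs v 0).im := by
    have : xs v 0 = (x 0 : ℂ) + z * (eB 0 : ℂ) := by rw [hv]; rfl
    rw [this, e0]; simpa using hz
  have h1 : 0 < (xs v 1).im := by
    have : xs v 1 = (x 1 : ℂ) + z * (eB 1 : ℂ) := by rw [hv]; rfl
    rw [this, e1]; simpa using hz
  have h2 : 0 < (al v 0).im := by
    have : al v 0 = (x 2 : ℂ) + z * (eB 2 : ℂ) := by rw [hv]; rfl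
    rw [this, e2]; simpa using hz
  have h3 : 0 < (al v 1).im := by
    have : al v 1 = (x 3 : ℂ) + z * (eB 3 : ℂ) := by rw [hv]; rfl
    rw [this, e3]; simpa using hz
  have h4 : ∀ s, av v s = fun j => ((av x s j : ℝ) : ℂ) := by
    intro s
    funext j
    have h : av eB s j = 0 := by fin_cases s <;> fin_cases j <;> rfl
    have h' : av v s j = ((av x s j : ℝ) : ℂ) + z * (av eB s j : ℝ) := by
      rw [hv]; fin_cases s <;> fin_cases j <;> rfl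
    rw [h', h]; simp
  have h5 : yy v = fun j => ((yy x j : ℝ) : ℂ) := by
    funext j
    have h : yy eB j = 0 := by fin_cases j <;> rfl
    have h' : yy v j = ((yy x j : ℝ) : ℂ) + z * (yy eB j : ℝ) := by
      rw [hv]; fin_cases j <;> rfl
    rw [h', h]; simp
  have hd : ∀ a : Fin 3 → ℝ, ((fun j => (a j : ℂ)) ⬝ᵥ fun j => (a j : ℂ)) = ((a ⬝ᵥ a : ℝ) : ℂ) := by
    intro a; simp [dotProduct]
  have n0 : xs v 0 ≠ 0 := by intro h; rw [h] at h0; simp at h0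
  have n1 : xs v 1 ≠ 0 := by intro h; rw [h] at h1; simp at h1
  have i0 := im_inv_neg h0
  have i1 := im_inv_neg h1
  have f0 : ∀ k : ℝ, F0 k v = xs v 0 * xs v 1 * (al v 0 - (av x 0 ⬝ᵥ av x 0 : ℝ) * (xs v 0)⁻¹ -
      k * (yy x ⬝ᵥ yy x : ℝ) * (xs v 1)⁻¹) := by
    intro k
    rw [F0, h4, h5, hd, hd, Complex.coe_algebraMap]
    field_simp
  have f1 : ∀ k : ℝ, F1 k v = xs v 0 * xs v 1 * (al v 1 - (av x 1 ⬝ᵥ av x 1 : ℝ) * (xs v 1)⁻¹ -
      k * (yy x ⬝ᵥ yy x : ℝ) * (xs v 0)⁻¹) := by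
    intro k
    rw [F1, h4, h5, hd, hd, Complex.coe_algebraMap]
    field_simp
  have hne : ∀ w : ℂ, 0 < w.im → w ≠ 0 := by
    intro w hw h; rw [h] at hw; simp at hw
  have hk : 0 ≤ 2 * κ := by linarith
  refine ⟨n0, n1, ?_, ?_, ?_⟩
  · rw [f0]
    exact mul_ne_zero (mul_ne_zero n0 n1)
      (hne _ (im_pos hk (dot_nonneg _) (dot_nonneg _) h2 i0 i1))
  · rw [f1]
    exact mul_ne_zero (mul_ne_zero n0 n1)
      (hne _ (im_pos hk (dot_nonneg _) (dot_nonneg _) h3 i1 i0))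
  · have hb : bq (yy v) (fun i => xs v 1 * av v 0 i - xs v 0 * av v 1 i) =
        (xs v 0 * xs v 1) ^ 2 * bq (fun i => ((yy x i : ℝ) : ℂ))
          (fun i => ((av x 0 i : ℝ) : ℂ) * (xs v 0)⁻¹ - ((av x 1 i : ℝ) : ℂ) * (xs v 1)⁻¹) := by
      have e : (fun i => xs v 1 * av v 0 i - xs v 0 * av v 1 i) = fun i => xs v 0 * xs v 1 *
          (((av x 0 i : ℝ) : ℂ) * (xs v 0)⁻¹ - ((av x 1 i : ℝ) : ℂ) * (xs v 1)⁻¹) := by
        funext i
        rw [h4, h4]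
        field_simp
      rw [e, h5]
      simp only [bq]
      ring
    have hc := sub_ne_zero.2 (core hκ (av x 0) (av x 1) (yy x) h2 h3 i0 i1)
    intro h
    rw [P6, f0, f1, hb] at h
    refine mul_ne_zero (pow_ne_zero 2 (mul_ne_zero n0 n1)) hc ?_
    rw [← h]; ring

end BHypAux

open BHypAux

theorem isHomogeneous_q16 (κ : ℝ) :
    (q16 κ (X : Fin 23 → MvPolynomial (Fin 23) ℝ)).IsHomogeneous 16 :=
  ((((((hom_xs 0).pow 2).mul ((hom_xs 1).pow 2)).mul (hom_F0 _)).mul (hom_F1 _)).mul (hom_P6 _))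

theorem isHomogeneous_p20 (κ : ℝ) :
    (p20 κ (X : Fin 23 → MvPolynomial (Fin 23) ℝ)).IsHomogeneous 20 :=
  (((hom_xs 0).pow 2).mul ((hom_xs 1).pow 2)).mul (isHomogeneous_q16 κ)

theorem eval_q16 (κ : ℝ) : eval eB (q16 κ (X : Fin 23 → MvPolynomial (Fin 23) ℝ)) = 1 := by
  rw [eval_q16', q16_eB]

theorem eval_p20 (κ : ℝ) : eval eB (p20 κ (X : Fin 23 → MvPolynomial (Fin 23) ℝ)) = 1 := by
  rw [eval_p20', p20_eB]

theorem hyp_q16 {κ : ℝ} (hκ : 4 ≤ κ) :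
    Hyp (q16 κ (X : Fin 23 → MvPolynomial (Fin 23) ℝ)) eB := by
  refine hyp_of_upper (isHomogeneous_q16 κ) (by rw [eval_q16]; exact one_pos) fun x z hz => ?_
  obtain ⟨h0, h1, h2, h3, h4⟩ := factors_ne hκ x hz _ rfl
  rw [aeval_q16, q16]
  exact mul_ne_zero (mul_ne_zero (mul_ne_zero (mul_ne_zero (pow_ne_zero 2 h0) (pow_ne_zero 2 h1))
    h2) h3) h4

theorem hyp_p20 {κ : ℝ} (hκ : 4 ≤ κ) :
    Hyp (p20 κ (X : Fin 23 → MvPolynomial (Fin 23) ℝ)) eB := by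
  refine hyp_of_upper (isHomogeneous_p20 κ) (by rw [eval_p20]; exact one_pos) fun x z hz => ?_
  obtain ⟨h0, h1, h2, h3, h4⟩ := factors_ne hκ x hz _ rfl
  rw [aeval_p20, p20, q16]
  exact mul_ne_zero (mul_ne_zero (pow_ne_zero 2 h0) (pow_ne_zero 2 h1))
    (mul_ne_zero (mul_ne_zero (mul_ne_zero (mul_ne_zero (pow_ne_zero 2 h0) (pow_ne_zero 2 h1))
      h2) h3) h4)


end Crest.Agent.R237
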