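import Crest.Agent.R237.Defs

/-!
# Row 237: kernels near a point of maximal rank
-/

set_option autoImplicit false
set_option linter.unusedSectionVars false

noncomputable section

namespace Crest.Agent.R237

open MvPolynomial Matrix

namespace BKerAux

variable {m : ℕ}

theorem exists_ginv (B : Matrix (Fin m) (Fin m) ℝ) :
    ∃ P : Matrix (Fin m) (Fin m) ℝ, ∀ x, B *ᵥ (P *ᵥ (B *ᵥ x)) = B *ᵥ x := by
  obtain ⟨g, hg⟩ := (B.mulVecLin.rangeRestrict).exists_rightInverse_of_surjective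
    B.mulVecLin.range_rangeRestrict
  obtain ⟨g', hg'⟩ := g.exists_extend
  refine ⟨LinearMap.toMatrix' g', fun x => ?_⟩
  rw [LinearMap.toMatrix'_mulVec]
  have h1 := LinearMap.congr_fun hg' ⟨B *ᵥ x, x, rfl⟩
  have h2 := congrArg Subtype.val (LinearMap.congr_fun hg ⟨B *ᵥ x, x, rfl⟩)
  exact (congrArg (B *ᵥ ·) h1).trans h2

theorem nn (u : Fin m → ℝ) : 0 ≤ u ⬝ᵥ u := Finset.sum_nonneg fun _ _ => mul_self_nonneg _

theorem exists_bd (M : Matrix (Fin m) (Fin m) ℝ) :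
    ∃ c : ℝ, 0 ≤ c ∧ ∀ u, (M *ᵥ u) ⬝ᵥ (M *ᵥ u) ≤ c * (u ⬝ᵥ u) := by
  refine ⟨∑ i, ∑ j, M i j ^ 2, by positivity, fun u => ?_⟩
  rw [Finset.sum_mul]
  refine Finset.sum_le_sum fun i _ => ?_
  have := Finset.sum_mul_sq_le_sq_mul_sq Finset.univ (M i) u
  simpa only [sq, mulVec, dotProduct] using this

theorem add_le (a b : Fin m → ℝ) : (a + b) ⬝ᵥ (a + b) ≤ 2 * (a ⬝ᵥ a) + 2 * (b ⬝ᵥ b) := by
  have := nn (a - b)
  simp only [add_dotProduct, dotProduct_add, sub_dotProduct, dotProduct_sub] at this ⊢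
  linarith

theorem comb_le (t : ℝ) (a b : Fin m → ℝ) : (t • a + t ^ 2 • b) ⬝ᵥ (t • a + t ^ 2 • b) ≤
    2 * t ^ 2 * (a ⬝ᵥ a) + 2 * t ^ 4 * (b ⬝ᵥ b) := by
  refine (add_le _ _).trans (le_of_eq ?_)
  simp only [smul_dotProduct, dotProduct_smul, smul_eq_mul]
  ring

end BKerAux

open BKerAux in
/-- First order expansion of the kernel of `B₀ + t B₁ + t² B₂` when the rank is maximal at `0`. -/
theorem ker_expansion {m : ℕ} {B₀ : Matrix (Fin m) (Fin m) ℝ} (h0 : B₀.PosSemidef) :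
    ∃ G : Matrix (Fin m) (Fin m) ℝ, ∀ B₁ B₂ : Matrix (Fin m) (Fin m) ℝ,
      (∀ t : ℝ, (B₀ + t • B₁ + t ^ 2 • B₂).PosSemidef) →
      (∀ t : ℝ, (B₀ + t • B₁ + t ^ 2 • B₂).rank ≤ B₀.rank) →
      ∃ K t₀ : ℝ, 0 < t₀ ∧ ∀ t : ℝ, |t| ≤ t₀ →
        (∀ w, B₀ *ᵥ w = 0 → ∃ r, (B₀ + t • B₁ + t ^ 2 • B₂) *ᵥ (w + t • (G * B₁) *ᵥ w + r) = 0 ∧
          r ⬝ᵥ r ≤ K * t ^ 4 * (w ⬝ᵥ w)) ∧
        ∀ w', (B₀ + t • B₁ + t ^ 2 • B₂) *ᵥ w' = 0 → ∃ w r, B₀ *ᵥ w = 0 ∧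
          w' = w + t • (G * B₁) *ᵥ w + r ∧ r ⬝ᵥ r ≤ K * t ^ 4 * (w' ⬝ᵥ w') := by
  have _ := h0
  obtain ⟨P, hP⟩ := exists_ginv B₀
  refine ⟨-P, fun B₁ B₂ _ hrk => ?_⟩
  obtain ⟨c₁, hc₁, h₁⟩ := exists_bd (-P * B₁)
  obtain ⟨c₂, hc₂, h₂⟩ := exists_bd (-P * B₂)
  refine ⟨4 * (4 * c₁ * (c₁ + c₂) + 2 * c₂), 1 / (1 + 8 * (c₁ + c₂)), by positivity,
    fun t ht => ?_⟩
  rw [le_div_iff₀ (by positivity)] at ht
  have a0 := abs_nonneg t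
  have t1 : |t| ≤ 1 := by nlinarith
  have t2 : t ^ 2 ≤ |t| := by rw [← sq_abs]; nlinarith
  have t3 : 8 * (c₁ + c₂) * t ^ 2 ≤ 1 := by nlinarith
  have t4 : t ^ 4 ≤ t ^ 2 := by nlinarith [sq_nonneg t]
  have K0 : 0 ≤ (4 * c₁ * (c₁ + c₂) + 2 * c₂) * t ^ 4 := by positivity
  have key : ∀ w', (B₀ + t • B₁ + t ^ 2 • B₂) *ᵥ w' = 0 →
      w' ⬝ᵥ w' ≤ 4 * ((w' - P *ᵥ (B₀ *ᵥ w')) ⬝ᵥ (w' - P *ᵥ (B₀ *ᵥ w'))) ∧
      ∃ r, w' = (w' - P *ᵥ (B₀ *ᵥ w')) + t • (-P * B₁) *ᵥ (w' - P *ᵥ (B₀ *ᵥ w')) + r ∧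
        r ⬝ᵥ r ≤ (4 * c₁ * (c₁ + c₂) + 2 * c₂) * t ^ 4 * (w' ⬝ᵥ w') := fun w' hw => by
    have e0 : B₀ *ᵥ w' = -(t • B₁ *ᵥ w' + t ^ 2 • B₂ *ᵥ w') := by
      rw [add_mulVec, add_mulVec, smul_mulVec, smul_mulVec, add_assoc] at hw
      exact eq_neg_of_add_eq_zero_left hw
    have e1 : P *ᵥ (B₀ *ᵥ w') = t • (-P * B₁) *ᵥ w' + t ^ 2 • (-P * B₂) *ᵥ w' := by
      rw [e0, ← mulVec_mulVec, ← mulVec_mulVec, neg_mulVec, neg_mulVec, mulVec_neg, mulVec_add,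
        mulVec_smul, mulVec_smul]
      module
    generalize P *ᵥ (B₀ *ᵥ w') = u at e1 ⊢
    have n0 := nn w'
    have b1 : u ⬝ᵥ u ≤ 2 * (c₁ + c₂) * t ^ 2 * (w' ⬝ᵥ w') := by
      rw [e1]
      refine (comb_le _ _ _).trans ?_
      have i1 := mul_le_mul_of_nonneg_left (h₁ w') (sq_nonneg t)
      have i2 := mul_le_mul t4 (h₂ w') (nn _) (sq_nonneg t)
      linarith
    refine ⟨?_, t • (-P * B₁) *ᵥ u + t ^ 2 • (-P * B₂) *ᵥ w', ?_, ?_⟩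
    · have i1 := add_le (w' - u) u
      rw [sub_add_cancel] at i1
      linarith [mul_le_mul_of_nonneg_right t3 n0]
    · rw [mulVec_sub, smul_sub]
      linear_combination e1
    · refine (comb_le _ _ _).trans ?_
      have i1 := mul_le_mul_of_nonneg_left ((h₁ u).trans (mul_le_mul_of_nonneg_left b1 hc₁))
        (sq_nonneg t)
      have i2 := mul_le_mul_of_nonneg_left (h₂ w') (show 0 ≤ t ^ 4 by positivity)
      linarith
  have hker : ∀ w', B₀ *ᵥ (w' - P *ᵥ (B₀ *ᵥ w')) = 0 := fun w' => by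
    rw [mulVec_sub, hP, sub_self]
  refine ⟨fun w hw => ?_, fun w' hw' => ?_⟩
  · set Bt := B₀ + t • B₁ + t ^ 2 • B₂ with hBt
    let Pr : LinearMap.ker Bt.mulVecLin →ₗ[ℝ] LinearMap.ker B₀.mulVecLin :=
      ((LinearMap.id - P.mulVecLin.comp B₀.mulVecLin).domRestrict _).codRestrict _
        fun x => hker x
    have hinj : Function.Injective Pr := (injective_iff_map_eq_zero Pr).2 fun x hx => by
      have h3 : (x : Fin m → ℝ) - P *ᵥ (B₀ *ᵥ x) = 0 := congrArg Subtype.val hx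
      have h4 := (key x x.2).1
      rw [h3, dotProduct_zero, mul_zero] at h4
      exact Subtype.ext (dotProduct_self_eq_zero.1 (le_antisymm h4 (nn _)))
    have d1 := Bt.mulVecLin.finrank_range_add_finrank_ker
    have d2 := B₀.mulVecLin.finrank_range_add_finrank_ker
    have d3 : Module.finrank ℝ (LinearMap.range Bt.mulVecLin) ≤
        Module.finrank ℝ (LinearMap.range B₀.mulVecLin) := hrk t
    have d4 := LinearMap.finrank_le_finrank_of_injective hinj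
    obtain ⟨x, hx⟩ := (LinearMap.injective_iff_surjective_of_finrank_eq_finrank
      (by omega)).1 hinj ⟨w, hw⟩
    have h3 : (x : Fin m → ℝ) - P *ᵥ (B₀ *ᵥ x) = w := congrArg Subtype.val hx
    obtain ⟨k1, r, k2, k3⟩ := key x x.2
    rw [h3] at k1 k2
    refine ⟨r, k2 ▸ x.2, k3.trans ?_⟩
    linarith [mul_le_mul_of_nonneg_left k1 K0]
  · obtain ⟨-, r, k2, k3⟩ := key w' hw'
    refine ⟨_, r, hker w', k2, k3.trans ?_⟩
    linarith [mul_nonneg K0 (nn w')]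


end Crest.Agent.R237
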