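import Crest.Agent.R237.Defs

/-!
# Row 237: points of the cone lift; the lifted cone projects to a closed cone
-/

set_option autoImplicit false
set_option linter.unusedSectionVars false

noncomputable section

namespace Crest.Agent.R237

open MvPolynomial Matrix

namespace BLift1Aux

open Finset

theorem exists_dir (d : Fin 3 → ℝ) :
    ∃ (ρ : ℝ) (φ : Fin 3 → ℝ), ∑ a, φ a ^ 2 = 1 ∧ ∀ a, d a = ρ * φ a := by
  have h0 : 0 ≤ ∑ a, d a ^ 2 := sum_nonneg fun _ _ => sq_nonneg _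
  rcases h0.eq_or_lt with h | h
  · refine ⟨0, ![1, 0, 0], by simp [Fin.sum_univ_three], fun a => ?_⟩
    rw [zero_mul]
    exact pow_eq_zero_iff two_ne_zero |>.1
      ((sum_eq_zero_iff_of_nonneg fun _ _ => sq_nonneg _).1 h.symm a (mem_univ a))
  · have h1 := Real.sqrt_pos.2 h
    refine ⟨√(∑ a, d a ^ 2), fun a => d a / √(∑ a, d a ^ 2), ?_, fun a => ?_⟩
    · simp only [div_pow, Real.sq_sqrt h0, ← sum_div]
      exact div_self h.ne'
    · rw [mul_div_cancel₀ _ h1.ne']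

theorem sq_form (X : ℝ) (μ : Option (Fin 3) → ℝ) (p : Option (Fin 3) → Fin 3 → ℝ) :
    ∑ a, ∑ j, ∑ j', p j a * p j' a * (X * μ j * μ j') = X * ∑ a, (∑ j, p j a * μ j) ^ 2 := by
  rw [mul_sum]
  refine sum_congr rfl fun a _ => ?_
  rw [sq, sum_mul_sum, mul_sum]
  refine sum_congr rfl fun j _ => ?_
  rw [mul_sum]
  exact sum_congr rfl fun j' _ => by ring

theorem cs_form {φ : Fin 3 → ℝ} (hφ : ∑ a, φ a ^ 2 = 1) (μ : Option (Fin 3) → ℝ)
    (p : Option (Fin 3) → Fin 3 → ℝ) :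
    (∑ j, ∑ a, p j a * μ j * φ a) ^ 2 ≤ ∑ a, (∑ j, p j a * μ j) ^ 2 := by
  have h := sum_mul_sq_le_sq_mul_sq univ (fun a => ∑ j, p j a * μ j) φ
  rw [hφ, mul_one] at h
  rw [sum_comm]
  simpa only [sum_mul] using h

theorem blk_nonneg {x : Fin 23 → ℝ} {v : Aux} {s : Fin 2} {X : ℝ} (hX : 0 ≤ X) {φ : Fin 3 → ℝ}
    (hφ : ∑ a, φ a ^ 2 = 1) {μ ν : Option (Fin 3) → ℝ} (hμ : μ none = 1) (hν : ν none = 1)
    (h1 : ∀ j j', bord (xs x s) (av x s) (aU v s) j j' = X * μ j * μ j')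
    (h2 : ∀ j j', bord (xs x s) (yy x) (aY v s) j j' = X * ν j * ν j')
    (h3 : ∀ j i a b, Gam v s j i a b = X * μ j * ν i * (φ a * φ b))
    (p q : Option (Fin 3) → Fin 3 → ℝ) (w : Fin 3 → ℝ) : 0 ≤ blk x v s p q w := by
  have h4 : ∀ a b, aG v s a b = X * μ none * ν none * (φ a * φ b) := h3 none none
  unfold blk
  simp only [h1, h2, h3, h4, hμ, hν, sq_form]
  have c1 := cs_form hφ μ p
  have c2 := cs_form hφ ν q
  have e3 : ∑ c, ∑ c', w c * w c' * (X * 1 * 1 * (φ c * φ c')) =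
      X * (∑ c, w c * φ c) * ∑ c, w c * φ c := by
    simp only [Fin.sum_univ_three]
    ring
  have e4 : ∑ j, ∑ a, ∑ i, ∑ b, p j a * q i b * (X * μ j * ν i * (φ a * φ b)) =
      X * (∑ j, ∑ a, p j a * μ j * φ a) * ∑ i, ∑ b, q i b * ν i * φ b := by
    simp only [mul_sum _ _ X, sum_mul]
    refine sum_congr rfl fun j _ => sum_congr rfl fun a _ => ?_
    simp only [mul_sum]
    exact sum_congr rfl fun i _ => sum_congr rfl fun b _ => by ring
  have e5 : ∑ j, ∑ a, ∑ c, p j a * w c * (X * μ j * 1 * (φ a * φ c)) =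
      X * (∑ j, ∑ a, p j a * μ j * φ a) * ∑ c, w c * φ c := by
    simp only [mul_sum _ _ X, sum_mul]
    refine sum_congr rfl fun j _ => sum_congr rfl fun a _ => ?_
    simp only [mul_sum]
    exact sum_congr rfl fun c _ => by ring
  have e6 : ∑ i, ∑ b, ∑ c, q i b * w c * (X * 1 * ν i * (φ c * φ b)) =
      X * (∑ i, ∑ b, q i b * ν i * φ b) * ∑ c, w c * φ c := by
    simp only [mul_sum _ _ X, sum_mul]
    refine sum_congr rfl fun j _ => sum_congr rfl fun a _ => ?_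
    simp only [mul_sum]
    exact sum_congr rfl fun c _ => by ring
  rw [e3, e4, e5, e6]
  generalize ∑ j, ∑ a, p j a * μ j * φ a = A at *
  generalize ∑ i, ∑ b, q i b * ν i * φ b = B at *
  generalize ∑ c, w c * φ c = C at *
  generalize ∑ a, (∑ j, p j a * μ j) ^ 2 = P at *
  generalize ∑ a, (∑ j, q j a * ν j) ^ 2 = Q at *
  calc 0 ≤ X * ((A + B + C) ^ 2 + (P - A ^ 2) + (Q - B ^ 2)) :=
        mul_nonneg hX (add_nonneg (add_nonneg (sq_nonneg _) (sub_nonneg.2 c1)) (sub_nonneg.2 c2))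
    _ = _ := by ring

theorem Sq_smul (t : ℝ) (N : Fin 3 → Fin 3 → Fin 3 → ℝ) (r : Fin 12) :
    Sq (t • N) r = t * Sq N r := by
  fin_cases r <;> simp [Sq] <;> ring

theorem Sq_add (N N' : Fin 3 → Fin 3 → Fin 3 → ℝ) (r : Fin 12) :
    Sq (N + N') r = Sq N r + Sq N' r := by
  fin_cases r <;> simp [Sq] <;> ring

theorem Sq_sq (y φ : Fin 3 → ℝ) :
    ∑ r, Sq (fun i a b => y i * (φ a * φ b)) r ^ 2 = (∑ a, φ a ^ 2) * bq y φ := by
  simp [Sq, bq, Fin.sum_univ_succ]
  ring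

/-! ### linear functions of `(x, v)` -/

section lin
variable {Z : Type} [AddCommGroup Z] [Module ℝ Z] {f g : Z → ℝ}

theorem lin_add (hf : IsLinearMap ℝ f) (hg : IsLinearMap ℝ g) :
    IsLinearMap ℝ fun z => f z + g z :=
  ⟨fun a b => by rw [hf.map_add, hg.map_add]; ring,
    fun t a => by rw [hf.map_smul, hg.map_smul, smul_add]⟩

theorem lin_sub (hf : IsLinearMap ℝ f) (hg : IsLinearMap ℝ g) :
    IsLinearMap ℝ fun z => f z - g z :=
  ⟨fun a b => by rw [hf.map_add, hg.map_add]; ring,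
    fun t a => by rw [hf.map_smul, hg.map_smul, smul_sub]⟩

theorem lin_mul (c : ℝ) (hf : IsLinearMap ℝ f) : IsLinearMap ℝ fun z => c * f z :=
  ⟨fun a b => by rw [hf.map_add, mul_add], fun t a => by rw [hf.map_smul, mul_smul_comm]⟩

theorem lin_mul' (c : ℝ) (hf : IsLinearMap ℝ f) : IsLinearMap ℝ fun z => f z * c :=
  ⟨fun a b => by rw [hf.map_add, add_mul], fun t a => by rw [hf.map_smul, smul_mul_assoc]⟩

theorem lin_sum {ι : Type} [Fintype ι] {F : ι → Z → ℝ} (hF : ∀ i, IsLinearMap ℝ (F i)) :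
    IsLinearMap ℝ fun z => ∑ i, F i z :=
  ⟨fun a b => by simp only [(hF _).map_add, sum_add_distrib],
    fun t a => by simp only [(hF _).map_smul, smul_sum]⟩

theorem lin_zero : IsLinearMap ℝ fun _ : Z => (0 : ℝ) := ⟨fun _ _ => by simp, fun _ _ => by simp⟩

end lin

/-- Closed convex cones given by a predicate. -/
structure CC {Z : Type} [NormedAddCommGroup Z] [NormedSpace ℝ Z] (P : Z → Prop) : Prop where
  closed : IsClosed {z | P z}
  add : ∀ a b, P a → P b → P (a + b)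
  smul : ∀ (t : ℝ) a, 0 ≤ t → P a → P (t • a)

section cc
variable {Z : Type} [NormedAddCommGroup Z] [NormedSpace ℝ Z] [FiniteDimensional ℝ Z] {f g : Z → ℝ}

theorem CC.and {P Q : Z → Prop} (hP : CC P) (hQ : CC Q) : CC fun z => P z ∧ Q z :=
  ⟨hP.closed.inter hQ.closed, fun a b h h' => ⟨hP.add a b h.1 h'.1, hQ.add a b h.2 h'.2⟩,
    fun t a ht h => ⟨hP.smul t a ht h.1, hQ.smul t a ht h.2⟩⟩

theorem CC.all {ι : Type} {P : ι → Z → Prop} (hP : ∀ i, CC (P i)) : CC fun z => ∀ i, P i z :=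
  ⟨by rw [Set.ofPred_forall]; exact isClosed_iInter fun i => (hP i).closed,
    fun a b h h' i => (hP i).add a b (h i) (h' i), fun t a ht h i => (hP i).smul t a ht (h i)⟩

theorem cc_le (hf : IsLinearMap ℝ f) (hg : IsLinearMap ℝ g) : CC fun z => f z ≤ g z :=
  ⟨isClosed_le (hf.mk' f).continuous_of_finiteDimensional (hg.mk' g).continuous_of_finiteDimensional,
    fun a b h h' => by rw [hf.map_add, hg.map_add]; exact add_le_add h h',
    fun t a ht h => by rw [hf.map_smul, hg.map_smul]; exact mul_le_mul_of_nonneg_left h ht⟩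

theorem cc_eq (hf : IsLinearMap ℝ f) (hg : IsLinearMap ℝ g) : CC fun z => f z = g z := by
  simp only [le_antisymm_iff]
  exact (cc_le hf hg).and (cc_le hg hf)

end cc

theorem isClosed_proj {X V : Type} [NormedAddCommGroup X] [NormedSpace ℝ X] [FiniteDimensional ℝ X]
    [NormedAddCommGroup V] [NormedSpace ℝ V] [FiniteDimensional ℝ V] {P : X × V → Prop} (hP : CC P)
    (h0 : ∀ v, P (0, v) → v = 0) : IsClosed {x | ∃ v, P (x, v)} := by
  have : ProperSpace (X × V) := FiniteDimensional.proper ℝ _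
  obtain ⟨c, hc, h1⟩ := ((isCompact_sphere (0 : X × V) 1).inter_left hP.closed).exists_forall_le'
    (f := fun z => ‖z.1‖) (a := 0) continuous_fst.norm.continuousOn fun z hz => by
      refine norm_pos_iff.2 fun h => ?_
      have h2 : z = (0, z.2) := Prod.ext h rfl
      have h3 := mem_sphere_zero_iff_norm.1 hz.2
      rw [h2, h0 z.2 (h2 ▸ hz.1)] at h3
      exact zero_ne_one (norm_zero.symm.trans h3)
  have h2 : ∀ z, P z → c * ‖z‖ ≤ ‖z.1‖ := fun z hz => by
    rcases (norm_nonneg z).eq_or_lt with h | h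
    · rw [← h, mul_zero]
      exact norm_nonneg _
    · have h3 := h1 (‖z‖⁻¹ • z) ⟨hP.smul _ z (inv_nonneg.2 h.le) hz, by
        rw [mem_sphere_zero_iff_norm, norm_smul, norm_inv, norm_norm, inv_mul_cancel₀ h.ne']⟩
      simp only [Prod.smul_fst, norm_smul, norm_inv, norm_norm] at h3
      rwa [← div_eq_inv_mul, le_div_iff₀ h] at h3
  refine isClosed_of_closure_subset fun x hx => ?_
  have h3 := Metric.isOpen_ball.inter_closure ⟨Metric.mem_ball_self (x := x) one_pos, hx⟩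
  have h4 := (((isCompact_closedBall (0 : X × V) ((‖x‖ + 1) / c)).inter_left hP.closed).image
    continuous_fst).isClosed
  obtain ⟨z, hz, rfl⟩ := h4.closure_subset_iff.2 (fun y hy => by
    obtain ⟨v, hv⟩ := hy.2
    refine ⟨(y, v), ⟨hv, mem_closedBall_zero_iff.2 ?_⟩, rfl⟩
    rw [le_div_iff₀ hc, mul_comm]
    exact (h2 _ hv).trans (norm_lt_of_mem_ball hy.1).le) h3
  exact ⟨z.2, hz.1⟩

theorem cc_lft (κ : ℝ) : CC fun z : (Fin 23 → ℝ) × Aux => Lft κ z.1 z.2 := by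
  have lx : ∀ s, IsLinearMap ℝ fun z : (Fin 23 → ℝ) × Aux => xs z.1 s := fun s => by
    fin_cases s <;> exact ⟨fun _ _ => rfl, fun _ _ => rfl⟩
  have la : ∀ s, IsLinearMap ℝ fun z : (Fin 23 → ℝ) × Aux => al z.1 s := fun s => by
    fin_cases s <;> exact ⟨fun _ _ => rfl, fun _ _ => rfl⟩
  have lv : ∀ s j, IsLinearMap ℝ fun z : (Fin 23 → ℝ) × Aux => av z.1 s j := fun s j => by
    fin_cases s <;> fin_cases j <;> exact ⟨fun _ _ => rfl, fun _ _ => rfl⟩
  have ly : ∀ j, IsLinearMap ℝ fun z : (Fin 23 → ℝ) × Aux => yy z.1 j := fun j => by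
    fin_cases j <;> exact ⟨fun _ _ => rfl, fun _ _ => rfl⟩
  have lG : ∀ s a b, IsLinearMap ℝ fun z : (Fin 23 → ℝ) × Aux => aG z.2 s a b :=
    fun _ _ _ => ⟨fun _ _ => rfl, fun _ _ => rfl⟩
  have lH : ∀ s j a b, IsLinearMap ℝ fun z : (Fin 23 → ℝ) × Aux => aH z.2 s j a b :=
    fun _ _ _ _ => ⟨fun _ _ => rfl, fun _ _ => rfl⟩
  have lW : ∀ i a b, IsLinearMap ℝ fun z : (Fin 23 → ℝ) × Aux => aW z.2 i a b :=
    fun _ _ _ => ⟨fun _ _ => rfl, fun _ _ => rfl⟩
  have lT : ∀ s j i a b, IsLinearMap ℝ fun z : (Fin 23 → ℝ) × Aux => aT z.2 s j i a b :=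
    fun _ _ _ _ _ => ⟨fun _ _ => rfl, fun _ _ => rfl⟩
  have lU : ∀ s a b, IsLinearMap ℝ fun z : (Fin 23 → ℝ) × Aux => aU z.2 s a b :=
    fun _ _ _ => ⟨fun _ _ => rfl, fun _ _ => rfl⟩
  have lY : ∀ s a b, IsLinearMap ℝ fun z : (Fin 23 → ℝ) × Aux => aY z.2 s a b :=
    fun _ _ _ => ⟨fun _ _ => rfl, fun _ _ => rfl⟩
  have lN : ∀ c i a b, IsLinearMap ℝ fun z : (Fin 23 → ℝ) × Aux => NN z.2 c i a b :=
    fun c i a b => lin_sub (lT 0 c i a b) (lT 1 c i a b)
  have lS : ∀ c r, IsLinearMap ℝ fun z : (Fin 23 → ℝ) × Aux => Sq (NN z.2 c) r := fun c r =>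
    ⟨fun a b => by
      rw [← Sq_add]
      congr 1
      funext i k l
      exact (lN c i k l).map_add a b, fun t a => by
      rw [smul_eq_mul, ← Sq_smul]
      congr 1
      funext i k l
      exact (lN c i k l).map_smul t a⟩
  have lb : ∀ s j j', IsLinearMap ℝ fun z : (Fin 23 → ℝ) × Aux =>
      bord (xs z.1 s) (av z.1 s) (aU z.2 s) j j' := fun s j j' => by
    rcases j with _ | j <;> rcases j' with _ | j'
    exacts [lx s, lv s j', lv s j, lU s j j']
  have lb' : ∀ s j j', IsLinearMap ℝ fun z : (Fin 23 → ℝ) × Aux =>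
      bord (xs z.1 s) (yy z.1) (aY z.2 s) j j' := fun s j j' => by
    rcases j with _ | j <;> rcases j' with _ | j'
    exacts [lx s, ly j', ly j, lY s j j']
  have lΓ : ∀ s j i a b, IsLinearMap ℝ fun z : (Fin 23 → ℝ) × Aux => Gam z.2 s j i a b :=
    fun s j i a b => by
      rcases j with _ | j <;> rcases i with _ | i
      exacts [lG s a b, lW i a b, lH s j a b, lT s j i a b]
  have lB : ∀ s p q w, IsLinearMap ℝ fun z : (Fin 23 → ℝ) × Aux => blk z.1 z.2 s p q w :=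
    fun s p q w => lin_add (lin_add (lin_add (lin_add (lin_add
      (lin_sum fun _ => lin_sum fun _ => lin_sum fun _ => lin_mul _ (lb _ _ _))
      (lin_sum fun _ => lin_sum fun _ => lin_sum fun _ => lin_mul _ (lb' _ _ _)))
      (lin_sum fun _ => lin_sum fun _ => lin_mul _ (lG _ _ _)))
      (lin_mul _ (lin_sum fun _ => lin_sum fun _ => lin_sum fun _ => lin_sum fun _ =>
        lin_mul _ (lΓ _ _ _ _ _))))
      (lin_mul _ (lin_sum fun _ => lin_sum fun _ => lin_sum fun _ => lin_mul _ (lΓ _ _ _ _ _))))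
      (lin_mul _ (lin_sum fun _ => lin_sum fun _ => lin_sum fun _ => lin_mul _ (lΓ _ _ _ _ _)))
  have lf : ∀ s, IsLinearMap ℝ fun z : (Fin 23 → ℝ) × Aux => fh κ z.1 z.2 s := fun s =>
    lin_sub (lin_sub (la s) (lin_sum fun _ => lU _ _ _)) (lin_mul _ (lin_sum fun _ => lY _ _ _))
  exact ((CC.all fun _ => .all fun _ => .all fun _ => cc_eq (lG _ _ _) (lG _ _ _)).and
    ((CC.all fun _ => .all fun _ => .all fun _ => .all fun _ =>
      cc_eq (lH _ _ _ _) (lH _ _ _ _)).and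
    ((CC.all fun _ => .all fun _ => .all fun _ => cc_eq (lW _ _ _) (lW _ _ _)).and
    ((CC.all fun _ => .all fun _ => .all fun _ => cc_eq (lU _ _ _) (lU _ _ _)).and
    ((CC.all fun _ => .all fun _ => .all fun _ => cc_eq (lY _ _ _) (lY _ _ _)).and
    ((CC.all fun _ => .all fun _ => .all fun _ => .all fun _ =>
      cc_eq (lN _ _ _ _) (lN _ _ _ _)).and
    ((CC.all fun _ => cc_eq (lin_sum fun _ => lG _ _ _) (lx _)).and
    ((CC.all fun _ => .all fun _ => cc_eq (lin_sum fun _ => lH _ _ _ _) (lv _ _)).and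
    (CC.all fun _ => cc_eq (lin_sum fun _ => lW _ _ _) (ly _)))))))))).and
    ((CC.all fun _ => .all fun _ => .all fun _ => .all fun _ => cc_le lin_zero (lB _ _ _ _)).and
    ((CC.all fun _ => .all fun _ => cc_le lin_zero (lin_add (lin_add (lin_mul' _ (lf 0))
      (lin_mul' _ (lf 1))) (lin_mul _ (lin_sum fun _ => lin_sum fun _ => lin_mul _ (lS _ _))))).and
    (CC.all fun _ => cc_le (lin_mul _ (lin_sum fun _ => lY _ _ _)) (lf _))))

theorem psd_p {κ : ℝ} {x : Fin 23 → ℝ} {v : Aux} (h : Lft κ x v) (s : Fin 2)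
    (z : Option (Fin 3) → ℝ) :
    0 ≤ ∑ j, ∑ j', z j * z j' * bord (xs x s) (av x s) (aU v s) j j' := by
  simpa [blk, Fin.sum_univ_three] using h.2.1 s (fun j => ![z j, 0, 0]) 0 0

theorem psd_q {κ : ℝ} {x : Fin 23 → ℝ} {v : Aux} (h : Lft κ x v) (s : Fin 2)
    (z : Option (Fin 3) → ℝ) :
    0 ≤ ∑ j, ∑ j', z j * z j' * bord (xs x s) (yy x) (aY v s) j j' := by
  simpa [blk, Fin.sum_univ_three] using h.2.1 s 0 (fun j => ![z j, 0, 0]) 0

theorem bord_psd {x : ℝ} {a : Fin 3 → ℝ} {U : M3}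
    (h : ∀ z : Option (Fin 3) → ℝ, 0 ≤ ∑ j, ∑ j', z j * z j' * bord x a U j j') (z : Fin 3 → ℝ) :
    0 ≤ ∑ j, ∑ j', z j * z j' * U j j' := by
  simpa [bord, Fintype.sum_option] using h fun j => j.elim 0 z

theorem tr_nonneg {U : M3} (h : ∀ z : Fin 3 → ℝ, 0 ≤ ∑ j, ∑ j', z j * z j' * U j j') :
    0 ≤ ∑ j, U j j := by
  have h0 := h ![1, 0, 0]
  have h1 := h ![0, 1, 0]
  have h2 := h ![0, 0, 1]
  simp [Fin.sum_univ_three] at h0 h1 h2 ⊢
  linarith

theorem eq_zero_of_tr {U : M3} (h : ∀ z : Fin 3 → ℝ, 0 ≤ ∑ j, ∑ j', z j * z j' * U j j')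
    (hs : ∀ a b, U a b = U b a) (ht : ∑ j, U j j ≤ 0) : U = 0 := by
  have h0 := h ![1, 0, 0]
  have h1 := h ![0, 1, 0]
  have h2 := h ![0, 0, 1]
  have h3 := h ![1, 1, 0]
  have h4 := h ![1, -1, 0]
  have h5 := h ![1, 0, 1]
  have h6 := h ![1, 0, -1]
  have h7 := h ![0, 1, 1]
  have h8 := h ![0, 1, -1]
  have s1 := hs 0 1
  have s2 := hs 0 2
  have s3 := hs 1 2
  simp [Fin.sum_univ_three] at h0 h1 h2 h3 h4 h5 h6 h7 h8 ht
  funext a b
  fin_cases a <;> fin_cases b <;> simp <;> linarith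

theorem eq_zero_of_lft {κ : ℝ} (hκ : 0 < κ) {v : Aux} (h : Lft κ 0 v) : v = 0 := by
  have pU := fun s => bord_psd (psd_p h s)
  have pY := fun s => bord_psd (psd_q h s)
  have ht : ∀ s, ∑ j, aU v s j j + 2 * (κ * ∑ j, aY v (1 - s) j j) ≤ 0 := fun s => by
    have h1 := h.2.2.2 s
    have h2 : al (0 : Fin 23 → ℝ) s = 0 := by fin_cases s <;> rfl
    rw [fh, h2] at h1
    linarith
  have hU : ∀ s, aU v s = 0 := fun s => eq_zero_of_tr (pU s) (h.1.2.2.2.1 s) (by
    have := mul_nonneg hκ.le (tr_nonneg (pY (1 - s)))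
    linarith [ht s])
  have hY : ∀ s, aY v s = 0 := fun s => eq_zero_of_tr (pY s) (h.1.2.2.2.2.1 s) (by
    have h1 := ht (1 - s)
    have h2 := tr_nonneg (pU (1 - s))
    rw [sub_sub_cancel] at h1
    exact nonpos_of_mul_nonpos_right (a := κ) (by linarith) hκ)
  have z1 : ∀ s, xs (0 : Fin 23 → ℝ) s = 0 := fun s => by fin_cases s <;> rfl
  have z2 : ∀ s j, av (0 : Fin 23 → ℝ) s j = 0 := fun s j => by fin_cases s <;> fin_cases j <;> rfl
  have z3 : ∀ j, yy (0 : Fin 23 → ℝ) j = 0 := fun j => by fin_cases j <;> rfl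
  have b1 : ∀ s j j', bord (xs (0 : Fin 23 → ℝ) s) (av 0 s) (aU v s) j j' = 0 := fun s j j' => by
    rw [hU]
    rcases j with _ | j <;> rcases j' with _ | j'
    exacts [z1 s, z2 s j', z2 s j, rfl]
  have b2 : ∀ s j j', bord (xs (0 : Fin 23 → ℝ) s) (yy 0) (aY v s) j j' = 0 := fun s j j' => by
    rw [hY]
    rcases j with _ | j <;> rcases j' with _ | j'
    exacts [z1 s, z3 j', z3 j, rfl]
  have hΓ : ∀ s j i a b, Gam v s j i a b = 0 := fun s j i a b => by
    have h1 : ∀ ε : ℝ, 0 ≤ ε * Gam v s j i a b := fun ε => by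
      have h2 := h.2.1 s (fun j' a' => if j' = j then if a' = a then ε else 0 else 0)
        (fun i' b' => if i' = i then if b' = b then 1 else 0 else 0) 0
      simpa [blk, b1, b2] using h2
    linarith [h1 1, h1 (-1)]
  refine Prod.ext ?_ (Prod.ext ?_ (Prod.ext ?_ (Prod.ext ?_ (Prod.ext (funext hU) (funext hY)))))
  · funext s a b
    exact hΓ s none none a b
  · funext s j a b
    exact hΓ s (some j) none a b
  · funext i a b
    exact hΓ 0 none (some i) a b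
  · funext s j i a b
    exact hΓ s (some j) (some i) a b

end BLift1Aux

open BLift1Aux

theorem lft_of_ko {κ : ℝ} (hκ : 0 ≤ κ) {x : Fin 23 → ℝ} (h : Ko κ x) : ∃ v, Lft κ x v := by
  obtain ⟨h0, h1, h2, h3, h4⟩ := h
  simp only at h0 h1 h2 h3 h4
  have hx : ∀ s, 0 < xs x s := fun s => by fin_cases s <;> assumption
  obtain ⟨ρ, φ, hφ, hd⟩ := exists_dir fun i => av x 0 i / xs x 0 - av x 1 i / xs x 1
  let v : Aux := (fun s a b => xs x s * (φ a * φ b), fun s j a b => av x s j * (φ a * φ b),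
    fun i a b => yy x i * (φ a * φ b), fun s j i a b => av x s j / xs x s * (yy x i * (φ a * φ b)),
    fun s a b => av x s a * av x s b / xs x s, fun s a b => yy x a * yy x b / xs x s)
  have hN : ∀ c, NN v c = (ρ * φ c) • fun i a b => yy x i * (φ a * φ b) := fun c => by
    funext i a b
    rw [← hd c]
    exact (sub_mul _ _ _).symm
  have htr : ∀ t : ℝ, ∑ a, t * (φ a * φ a) = t := fun t => by
    simp only [← sq, ← Finset.mul_sum, hφ, mul_one]
  have hY : ∀ s, ∑ i, aY v s i i = yy x ⬝ᵥ yy x / xs x s := fun s => by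
    rw [dotProduct, Finset.sum_div]
    rfl
  have hU : ∀ s, ∑ i, aU v s i i = av x s ⬝ᵥ av x s / xs x s := fun s => by
    rw [dotProduct, Finset.sum_div]
    rfl
  have f0 : fh κ x v 0 = ff κ (xs x 0, av x 0, al x 0) (xs x 1) (yy x) := by
    rw [fh, hU, hY, ff, mul_div_assoc]
    rfl
  have f1 : fh κ x v 1 = ff κ (xs x 1, av x 1, al x 1) (xs x 0) (yy x) := by
    rw [fh, hU, hY, ff, mul_div_assoc]
    rfl
  have hy : 0 ≤ yy x ⬝ᵥ yy x := Finset.sum_nonneg fun _ _ => mul_self_nonneg _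
  rw [← f0] at h2 h4
  rw [← f1] at h3 h4
  refine ⟨v, ⟨fun s a b => congrArg (_ * ·) (mul_comm _ _),
    fun s j a b => congrArg (_ * ·) (mul_comm _ _), fun i a b => congrArg (_ * ·) (mul_comm _ _),
    fun s a b => congrArg (· / _) (mul_comm _ _), fun s a b => congrArg (· / _) (mul_comm _ _),
    fun c i a b => ?_, fun s => htr _, fun s j => htr _, fun i => htr _⟩, fun s => ?_,
    fun p q => ?_, fun s => ?_⟩
  · simp only [hN, Pi.smul_apply, smul_eq_mul]
    ring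
  · have hs := (hx s).ne'
    refine blk_nonneg (hx s).le hφ (μ := fun j => j.elim 1 fun k => av x s k / xs x s)
      (ν := fun j => j.elim 1 fun k => yy x k / xs x s) rfl rfl (fun j j' => ?_) (fun j j' => ?_)
      fun j i a b => ?_
    · rcases j with _ | j <;> rcases j' with _ | j' <;>
        simp only [bord, Option.elim, aU, v] <;> field_simp
    · rcases j with _ | j <;> rcases j' with _ | j' <;>
        simp only [bord, Option.elim, aY, v] <;> field_simp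
    · rcases j with _ | j <;> rcases i with _ | i <;>
        simp only [Gam, Option.elim, aG, aW, aH, aT, v] <;> field_simp
  · have g0 : 0 ≤ fh κ x v 0 := le_trans (div_nonneg (mul_nonneg hκ hy) h1.le) h2
    have g1 : 0 ≤ fh κ x v 1 := le_trans (div_nonneg (mul_nonneg hκ hy) h0.le) h3
    have c1 := Finset.sum_mul_sq_le_sq_mul_sq Finset.univ p φ
    have c2 := Finset.sum_mul_sq_le_sq_mul_sq Finset.univ q
      (Sq fun i a b => yy x i * (φ a * φ b))
    rw [Sq_sq, hφ, one_mul] at c2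
    rw [hφ, mul_one] at c1
    have e1 : ∑ c, ∑ r, p c * q r * Sq (NN v c) r =
        ρ * (∑ c, p c * φ c) * ∑ r, q r * Sq (fun i a b => yy x i * (φ a * φ b)) r := by
      simp only [hN, Sq_smul, Finset.mul_sum _ _ ρ, Finset.sum_mul]
      refine Finset.sum_congr rfl fun c _ => ?_
      rw [Finset.mul_sum]
      exact Finset.sum_congr rfl fun r _ => by ring
    have e2 : bq (yy x) (fun i => av x 0 i / xs x 0 - av x 1 i / xs x 1) =
        ρ ^ 2 * bq (yy x) φ := by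
      simp only [bq, hd]
      ring
    have e3 : p ⬝ᵥ p = ∑ c, p c ^ 2 := by simp only [dotProduct, sq]
    have e4 : q ⬝ᵥ q = ∑ c, q c ^ 2 := by simp only [dotProduct, sq]
    have p0 : 0 ≤ ∑ c, p c ^ 2 := Finset.sum_nonneg fun _ _ => sq_nonneg _
    have q0 : 0 ≤ ∑ c, q c ^ 2 := Finset.sum_nonneg fun _ _ => sq_nonneg _
    rw [e2] at h4
    rw [e1, e3, e4]
    generalize ∑ c, p c * φ c = A at *
    generalize ∑ r, q r * Sq (fun i a b => yy x i * (φ a * φ b)) r = B at *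
    generalize ∑ c, p c ^ 2 = P at *
    generalize ∑ c, q c ^ 2 = Q at *
    generalize fh κ x v 0 = f at *
    generalize fh κ x v 1 = f' at *
    have k1 : (ρ * A * B) ^ 2 ≤ f * P * (f' * Q) :=
      calc (ρ * A * B) ^ 2 = A ^ 2 * (ρ ^ 2 * B ^ 2) := by ring
        _ ≤ P * (ρ ^ 2 * (Q * bq (yy x) φ)) := by gcongr
        _ = P * Q * (ρ ^ 2 * bq (yy x) φ) := by ring
        _ ≤ P * Q * (f * f') := by gcongr
        _ = _ := by ring
    have k2 := (abs_le_of_sq_le_sq' (a := 2 * (ρ * A * B)) (b := f * P + f' * Q)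
      (by nlinarith [sq_nonneg (f * P - f' * Q)]) (by positivity)).1
    linarith
  · rw [hY, ← mul_div_assoc]
    fin_cases s
    · exact h2
    · exact h3

theorem Lft.add {κ : ℝ} {x x' : Fin 23 → ℝ} {v v' : Aux} (h : Lft κ x v) (h' : Lft κ x' v') :
    Lft κ (x + x') (v + v') :=
  (cc_lft κ).add (x, v) (x', v') h h'

theorem Lft.smul {κ : ℝ} {x : Fin 23 → ℝ} {v : Aux} (h : Lft κ x v) {t : ℝ} (ht : 0 ≤ t) :
    Lft κ (t • x) (t • v) :=
  (cc_lft κ).smul t (x, v) ht h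

theorem Lft.xs_nonneg {κ : ℝ} {x : Fin 23 → ℝ} {v : Aux} (h : Lft κ x v) (s : Fin 2) :
    0 ≤ xs x s := by
  simpa [bord, Fintype.sum_option] using psd_p h s fun j => j.elim 1 0

theorem isClosed_lft {κ : ℝ} (hκ : 0 < κ) : IsClosed {x : Fin 23 → ℝ | ∃ v, Lft κ x v} :=
  isClosed_proj (cc_lft κ) fun _ h => eq_zero_of_lft hκ h


end Crest.Agent.R237
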