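import Crest.Agent.R237.Defs

/-!
# Row 237: Cauchy–Schwarz consequences of the blocks of size 27
-/

set_option autoImplicit false
set_option linter.unusedSectionVars false

noncomputable section

namespace Crest.Agent.R237

open MvPolynomial Matrix

namespace BLift2Aux

theorem cs {A B C : ℝ} (h : ∀ t : ℝ, 0 ≤ A + t ^ 2 * C + 2 * t * B) : B ^ 2 ≤ A * C := by
  have := discrim_le_zero (a := C) (b := 2 * B) (c := A) (fun t => by nlinarith [h t])
  unfold discrim at this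
  nlinarith

theorem rank1 (x : Fin 23 → ℝ) (v : Aux) (s : Fin 2) (c e : Option (Fin 3) → ℝ)
    (ξ η w : Fin 3 → ℝ) :
    blk x v s (fun j a => c j * ξ a) (fun i b => e i * η b) w =
      (∑ j, c j * ∑ j', c j' * bord (xs x s) (av x s) (aU v s) j j') * (ξ ⬝ᵥ ξ) +
      (∑ i, e i * ∑ i', e i' * bord (xs x s) (yy x) (aY v s) i i') * (η ⬝ᵥ η) +
      qf w (aG v s) w + 2 * ∑ j, c j * ∑ i, e i * qf ξ (Gam v s j i) η +
      2 * ∑ j, c j * qf ξ (Gam v s j none) w + 2 * ∑ i, e i * qf w (Gam v s none i) η := by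
  simp only [blk, qf, dotProduct, Fintype.sum_option, Fin.sum_univ_three]
  ring

theorem sum_cv (μ : ℝ) (j : Fin 3) (F : Option (Fin 3) → ℝ) :
    ∑ o : Option (Fin 3), (o.elim (-μ) fun k => if k = j then 1 else 0) * F o =
      F (some j) - μ * F none := by
  simp [Fintype.sum_option]
  ring

variable {κ : ℝ} {x : Fin 23 → ℝ} {v : Aux}

theorem qf_smul_right (ξ η : Fin 3 → ℝ) (M : M3) (t : ℝ) :
    qf ξ M (fun i => t * η i) = t * qf ξ M η := by
  simp only [qf, Fin.sum_univ_three]; ring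

theorem qf_smul_left (ξ η : Fin 3 → ℝ) (M : M3) (t : ℝ) :
    qf (fun i => t * ξ i) M η = t * qf ξ M η := by
  simp only [qf, Fin.sum_univ_three]; ring

theorem qf_zero_left (η : Fin 3 → ℝ) (M : M3) : qf 0 M η = 0 := by simp [qf]

theorem qf_zero_right (η : Fin 3 → ℝ) (M : M3) : qf η M 0 = 0 := by simp [qf]

theorem G_nonneg (h : Lft κ x v) (s : Fin 2) (η : Fin 3 → ℝ) : 0 ≤ qf η (aG v s) η := by
  have := h.2.1 s (fun j a => (0 : Option (Fin 3) → ℝ) j * η a)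
    (fun i b => (0 : Option (Fin 3) → ℝ) i * η b) η
  rw [rank1] at this
  simpa using this

theorem HZ (h : Lft κ x v) {s : Fin 2} (hs : 0 < xs x s) (j : Fin 3) (ξ η : Fin 3 → ℝ) (t : ℝ) :
    0 ≤ (aU v s j j - av x s j ^ 2 / xs x s) * (ξ ⬝ᵥ ξ) + t ^ 2 * qf η (aG v s) η +
      2 * t * (qf ξ (aH v s j) η - av x s j / xs x s * qf ξ (aG v s) η) := by
  have := h.2.1 s (fun o a => (fun o : Option (Fin 3) =>
      o.elim (-(av x s j / xs x s)) fun k => if k = j then (1 : ℝ) else 0) o * ξ a)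
    (fun i b => (0 : Option (Fin 3) → ℝ) i * η b) fun i => t * η i
  rw [rank1] at this
  simp only [sum_cv] at this
  simp only [Pi.zero_apply, zero_mul, Finset.sum_const_zero, mul_zero, add_zero, bord, Gam,
    Option.elim_none, Option.elim_some, qf_smul_left, qf_smul_right] at this
  convert this using 1
  field_simp
  ring

theorem WZ (h : Lft κ x v) {s : Fin 2} (hs : 0 < xs x s) (i : Fin 3) (ξ η : Fin 3 → ℝ) (t : ℝ) :
    0 ≤ (aY v s i i - yy x i ^ 2 / xs x s) * (ξ ⬝ᵥ ξ) + t ^ 2 * qf η (aG v s) η +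
      2 * t * (qf η (aW v i) ξ - yy x i / xs x s * qf η (aG v s) ξ) := by
  have := h.2.1 s (fun o a => (0 : Option (Fin 3) → ℝ) o * ξ a) (fun o a =>
    (fun o : Option (Fin 3) =>
      o.elim (-(yy x i / xs x s)) fun k => if k = i then (1 : ℝ) else 0) o * ξ a) fun i => t * η i
  rw [rank1] at this
  simp only [sum_cv] at this
  simp only [Pi.zero_apply, zero_mul, Finset.sum_const_zero, mul_zero, add_zero, zero_add,
    bord, Gam, Option.elim_none, Option.elim_some, qf_smul_left, qf_smul_right] at this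
  convert this using 1
  field_simp
  ring

theorem PQ (h : Lft κ x v) {s : Fin 2} (hs : 0 < xs x s) (j i : Fin 3) (ξ η : Fin 3 → ℝ) (t : ℝ) :
    0 ≤ (aU v s j j - av x s j ^ 2 / xs x s) * (ξ ⬝ᵥ ξ) +
      t ^ 2 * ((aY v s i i - yy x i ^ 2 / xs x s) * (η ⬝ᵥ η)) +
      2 * t * (qf ξ (aT v s j i) η - av x s j / xs x s * qf ξ (aW v i) η -
        yy x i / xs x s * (qf ξ (aH v s j) η - av x s j / xs x s * qf ξ (aG v s) η)) := by
  have := h.2.1 s (fun o a => (fun o : Option (Fin 3) =>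
      o.elim (-(av x s j / xs x s)) fun k => if k = j then (1 : ℝ) else 0) o * ξ a)
    (fun o a => (fun o : Option (Fin 3) =>
      o.elim (-(yy x i / xs x s)) fun k => if k = i then (1 : ℝ) else 0) o * (fun b => t * η b) a) 0
  rw [rank1] at this
  have e : ((fun b => t * η b) ⬝ᵥ fun b => t * η b) = t ^ 2 * (η ⬝ᵥ η) := by
    simp only [dotProduct, Fin.sum_univ_three]; ring
  simp only [sum_cv] at this
  simp only [mul_zero, add_zero, bord, Gam, Option.elim_none, Option.elim_some, qf_smul_right,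
    qf_zero_left, qf_zero_right, e, sub_zero] at this
  convert this using 1
  field_simp
  ring

theorem abs_le_mul {B a b A C : ℝ} (h : B ^ 2 ≤ A * C) (ha : 0 ≤ a) (hb : 0 ≤ b) (hA : A ≤ a ^ 2)
    (hC0 : 0 ≤ C) (hC : C ≤ b ^ 2) : |B| ≤ a * b := by
  refine abs_le_of_sq_le_sq' ?_ (mul_nonneg ha hb) |> abs_le.mpr
  calc B ^ 2 ≤ A * C := h
    _ ≤ a ^ 2 * b ^ 2 := mul_le_mul hA hC hC0 (sq_nonneg a)
    _ = (a * b) ^ 2 := by ring

theorem abs_phi {φ : Fin 3 → ℝ} (hφ : φ ⬝ᵥ φ = 1) (k : Fin 3) : |φ k| ≤ 1 := by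
  simp only [dotProduct, Fin.sum_univ_three] at hφ
  rw [abs_le_one_iff_mul_self_le_one]
  fin_cases k <;> simp only [Fin.zero_eta, Fin.mk_one, Fin.reduceFinMk, Fin.isValue] <;>
    nlinarith [mul_self_nonneg (φ 0), mul_self_nonneg (φ 1), mul_self_nonneg (φ 2)]

theorem abs_mul_le {c a β : ℝ} (hc : |c| ≤ 1) (ha : |a| ≤ β) : |c * a| ≤ β := by
  rw [abs_mul]
  exact (mul_le_of_le_one_left (abs_nonneg a) hc).trans ha

theorem abs_sum3 {f : Fin 3 → ℝ} {β : ℝ} (h : ∀ k, |f k| ≤ β) : |∑ k, f k| ≤ 3 * β := by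
  rw [Fin.sum_univ_three]
  have h0 := abs_le.mp (h 0)
  have h1 := abs_le.mp (h 1)
  have h2 := abs_le.mp (h 2)
  rw [abs_le]
  constructor <;> linarith

theorem near {φ : Fin 3 → ℝ} (hφ : φ ⬝ᵥ φ = 1) {M : M3} (hM : ∀ a b, M a b = M b a) {β : ℝ}
    (h : ∀ a k, |M a k - φ k * ∑ c, M a c * φ c| ≤ β) (a b : Fin 3) :
    |M a b - (∑ c, M c c) * φ a * φ b| ≤ 7 * β := by
  have e : M a b - (∑ c, M c c) * φ a * φ b = (M a b - φ b * ∑ c, M a c * φ c) +
      φ b * (∑ k, φ k * (M k a - φ a * ∑ c, M k c * φ c)) -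
      φ a * (φ b * ∑ k, (M k k - φ k * ∑ c, M k c * φ c)) := by
    simp only [Fin.sum_univ_three]
    rw [hM 0 a, hM 1 a, hM 2 a]
    ring
  have h1 := abs_le.mp (h a b)
  have h2 := abs_le.mp (abs_mul_le (abs_phi hφ b)
    (abs_sum3 fun k => abs_mul_le (abs_phi hφ k) (h k a)))
  have h3 := abs_le.mp (abs_mul_le (abs_phi hφ a) (abs_mul_le (abs_phi hφ b)
    (abs_sum3 fun k => h k k)))
  rw [e, abs_le]
  constructor <;> linarith

theorem qf_ee (M : M3) (a b : Fin 3) : qf (Pi.single a 1) M (Pi.single b 1) = M a b := by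
  simp [qf, Pi.single_apply]

theorem qf_ep (φ : Fin 3 → ℝ) (M : M3) (a k : Fin 3) :
    qf (Pi.single a 1) M (Pi.single k 1 - φ k • φ) = M a k - φ k * ∑ c, M a c * φ c := by
  simp [qf, Pi.single_apply, mul_sub, Finset.mul_sum, mul_left_comm]

theorem qf_pe (φ : Fin 3 → ℝ) (M : M3) (a k : Fin 3) :
    qf (Pi.single k 1 - φ k • φ) M (Pi.single a 1) = M k a - φ k * ∑ c, φ c * M c a := by
  simp [qf, Pi.single_apply, sub_mul, Finset.mul_sum, mul_assoc]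

theorem sum_pp {φ : Fin 3 → ℝ} (hφ : φ ⬝ᵥ φ = 1) (M : M3) :
    ∑ k, qf (Pi.single k 1 - φ k • φ) M (Pi.single k 1 - φ k • φ) = ∑ c, M c c - qf φ M φ := by
  simp only [dotProduct, Fin.sum_univ_three] at hφ
  simp [qf, Fin.sum_univ_three]
  linear_combination (φ 0 * M 0 0 * φ 0 + φ 0 * M 0 1 * φ 1 + φ 0 * M 0 2 * φ 2 +
    (φ 1 * M 1 0 * φ 0 + φ 1 * M 1 1 * φ 1 + φ 1 * M 1 2 * φ 2) +
    (φ 2 * M 2 0 * φ 0 + φ 2 * M 2 1 * φ 1 + φ 2 * M 2 2 * φ 2)) * hφ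

theorem ex_sqrt {f : Fin 3 → ℝ} (h : ∀ k, 0 ≤ f k) :
    ∃ r : ℝ, 0 ≤ r ∧ r ^ 2 = ∑ k, f k ∧ ∀ k, f k ≤ r ^ 2 := by
  have e := Real.sq_sqrt (Finset.sum_nonneg fun j (_ : j ∈ Finset.univ) => h j)
  exact ⟨_, Real.sqrt_nonneg _, e, fun k =>
    (Finset.single_le_sum (fun j _ => h j) (Finset.mem_univ k)).trans_eq e.symm⟩

theorem side (h : Lft κ x v) {s : Fin 2} (hs : 0 < xs x s) {φ : Fin 3 → ℝ} (hφ : φ ⬝ᵥ φ = 1) :
    ∃ sU sT sI : ℝ, 0 ≤ sU ∧ 0 ≤ sT ∧ 0 ≤ sI ∧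
      sU ^ 2 = ∑ j, aU v s j j - av x s ⬝ᵥ av x s / xs x s ∧
      sT ^ 2 = ∑ i, aY v s i i - yy x ⬝ᵥ yy x / xs x s ∧
      (∀ j i a b, |aT v s j i a b - av x s j / xs x s * aW v i a b| ≤
        sU * sT + |yy x i / xs x s| * (7 * (sU * sI))) ∧
      ∀ i, |yy x i / xs x s| * sI ^ 2 ≤ |yy x i - qf φ (aW v i) φ| + 3 * (sT * sI) := by
  obtain ⟨hG, hH, -, -, -, -, tG, tH, tW⟩ := h.1
  have e1 : ∀ a : Fin 3, (Pi.single a 1 : Fin 3 → ℝ) ⬝ᵥ Pi.single a 1 = 1 := fun a => by simp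
  have hU : ∀ j, 0 ≤ aU v s j j - av x s j ^ 2 / xs x s := fun j => by
    simpa [e1] using HZ h hs j (Pi.single 0 1) 0 0
  have hY : ∀ i, 0 ≤ aY v s i i - yy x i ^ 2 / xs x s := fun i => by
    simpa [e1] using WZ h hs i (Pi.single 0 1) 0 0
  have hg : ∀ k, 0 ≤ qf (Pi.single k 1 - φ k • φ) (aG v s) (Pi.single k 1 - φ k • φ) :=
    fun k => G_nonneg h s _
  obtain ⟨sU, sU0, hsU, bU⟩ := ex_sqrt hU
  obtain ⟨sT, sT0, hsT, bY⟩ := ex_sqrt hY
  obtain ⟨sI, sI0, hsI, bg⟩ := ex_sqrt hg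
  refine ⟨sU, sT, sI, sU0, sT0, sI0, ?_, ?_, fun j i a b => ?_, fun i => ?_⟩
  · rw [hsU]
    simp only [dotProduct, Fin.sum_univ_three]
    ring
  · rw [hsT]
    simp only [dotProduct, Fin.sum_univ_three]
    ring
  · have h1 := abs_le_mul (cs (PQ h hs j i (Pi.single a 1) (Pi.single b 1))) sU0 sT0
      (by rw [e1, mul_one]; exact bU j) (by rw [e1, mul_one]; exact hY i)
      (by rw [e1, mul_one]; exact bY i)
    simp only [qf_ee] at h1
    have h2 := near hφ (M := fun a b => aH v s j a b - av x s j / xs x s * aG v s a b)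
      (fun a b => by rw [hH s j a b, hG s a b]) (β := sU * sI) (fun a k => by
        have := abs_le_mul (cs (HZ h hs j (Pi.single a 1) (Pi.single k 1 - φ k • φ))) sU0 sI0
          (by rw [e1, mul_one]; exact bU j) (hg k) (bg k)
        simp only [qf_ep] at this
        convert this using 2
        simp only [Fin.sum_univ_three]
        ring) a b
    have h3 : ∑ c, (aH v s j c c - av x s j / xs x s * aG v s c c) = 0 := by
      rw [Finset.sum_sub_distrib, ← Finset.mul_sum, tG, tH]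
      field_simp
      ring
    rw [h3, zero_mul, zero_mul, sub_zero] at h2
    have h4 : |yy x i / xs x s * (aH v s j a b - av x s j / xs x s * aG v s a b)| ≤
        |yy x i / xs x s| * (7 * (sU * sI)) := by
      rw [abs_mul]
      exact mul_le_mul_of_nonneg_left h2 (abs_nonneg _)
    have h5 := abs_le.mp h1
    have h6 := abs_le.mp h4
    rw [abs_le]
    constructor <;> linarith
  · have h1 := abs_sum3 fun k => abs_le_mul
      (cs (WZ h hs i (Pi.single k 1) (Pi.single k 1 - φ k • φ))) sT0 sI0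
      (by rw [e1, mul_one]; exact bY i) (hg k) (bg k)
    simp only [qf_pe] at h1
    have h2 : ∑ k, (aW v i k k - φ k * ∑ c, φ c * aW v i c k -
        yy x i / xs x s * (aG v s k k - φ k * ∑ c, φ c * aG v s c k)) =
        (yy x i - qf φ (aW v i) φ) - yy x i / xs x s * sI ^ 2 := by
      rw [hsI, sum_pp hφ, ← tW i]
      simp only [qf, Fin.sum_univ_three]
      ring
    rw [h2] at h1
    have h3 : |yy x i / xs x s| * sI ^ 2 = |yy x i / xs x s * sI ^ 2| := by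
      rw [abs_mul, abs_of_nonneg (sq_nonneg sI)]
    have h4 := abs_sub_abs_le_abs_sub (yy x i / xs x s * sI ^ 2) (yy x i - qf φ (aW v i) φ)
    rw [abs_sub_comm (yy x i / xs x s * sI ^ 2)] at h4
    linarith

theorem boot1 {t S P U T I : ℝ} (ht : 0 < t) (hS : 0 ≤ S) (hP : 0 ≤ P) (hU : 0 ≤ U) (hT : 0 ≤ T)
    (h : t * (P * I ^ 2) ≤ 54 * S + 9 * t * (T * I)) :
    P * (U * I) ≤ 9 * (U * T) + S / 28 + 378 * (P / t * U ^ 2) := by
  obtain ⟨A, rfl⟩ : ∃ A, P = A * t := ⟨P / t, by field_simp⟩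
  have hA : 0 ≤ A := nonneg_of_mul_nonneg_left hP ht
  rw [mul_div_assoc, div_self ht.ne', mul_one]
  by_contra hc
  rw [not_le] at hc
  have hm : 0 ≤ U * T := mul_nonneg hU hT
  have hB : 0 ≤ A * U ^ 2 := by positivity
  have h1 : (A * t * (U * I)) ^ 2 ≤ 54 * S * (A * U ^ 2) + 9 * (U * T) * (A * t * (U * I)) := by
    have := mul_le_mul_of_nonneg_left h hB
    nlinarith
  generalize A * t * (U * I) = X at *
  generalize A * U ^ 2 = B at *
  generalize U * T = m at *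
  have h2 : 0 < X - 9 * m - (S / 28 + 378 * B) := by linarith
  nlinarith [sq_nonneg (S / 28 - 378 * B), mul_nonneg hm hS, mul_nonneg hm hB,
    mul_pos h2 h2, mul_nonneg h2.le hm, mul_nonneg h2.le hS, mul_nonneg h2.le hB]

theorem fin_num {κ ρ S β γ fa fb U0 T0 U1 T1 A0 A1 : ℝ} (hκ : 2 * 10 ^ 12 ≤ κ) (hρ : 0 < ρ)
    (hA0 : 0 ≤ A0) (hA1 : 0 ≤ A1)
    (hS : S ≤ 128 * (U0 * T0 + U1 * T1) + 5292 * (A0 * U0 ^ 2 + A1 * U1 ^ 2))
    (hP0 : κ * A0 ≤ 6 * ρ) (hP1 : κ * (ρ * A1) ≤ 6)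
    (h3 : 2 * ρ * (β - 6192 * S) ≤ ρ ^ 2 * fa + fb)
    (hγ : 2 * ρ * γ = ρ ^ 2 * (fa + U0 ^ 2 + κ * T1 ^ 2) + (fb + U1 ^ 2 + κ * T0 ^ 2)) :
    β ≤ γ := by
  have a0 : 2 * 10 ^ 12 * A0 ≤ 6 * ρ := (mul_le_mul_of_nonneg_right hκ hA0).trans hP0
  have a1 : 2 * 10 ^ 12 * (ρ * A1) ≤ 6 :=
    (mul_le_mul_of_nonneg_right hκ (mul_nonneg hρ.le hA1)).trans hP1
  have b0 := mul_le_mul_of_nonneg_right a0 (mul_nonneg hρ.le (sq_nonneg U0))
  have b1 := mul_le_mul_of_nonneg_right a1 (sq_nonneg U1)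
  have c0 := mul_le_mul_of_nonneg_right hκ (sq_nonneg T0)
  have c1 := mul_le_mul_of_nonneg_right hκ (sq_nonneg (ρ * T1))
  have d := mul_le_mul_of_nonneg_left hS hρ.le
  have e0 := sq_nonneg (ρ * U0 - 1585152 * T0)
  have e1 := sq_nonneg (U1 - 1585152 * (ρ * T1))
  have f0 := sq_nonneg (ρ * U0)
  have f1 := sq_nonneg U1
  have g0 := sq_nonneg T0
  have g1 := sq_nonneg (ρ * T1)
  have : 2 * ρ * β ≤ 2 * ρ * γ := by nlinarith
  exact le_of_mul_le_mul_left this (by positivity)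

theorem Sq_close {N N' : Fin 3 → Fin 3 → Fin 3 → ℝ} {β c : ℝ}
    (h : ∀ i a b, |N i a b - c * N' i a b| ≤ β) (r : Fin 12) :
    |Sq N r - c * Sq N' r| ≤ 4 * β := by
  have hβ : 0 ≤ β := (abs_nonneg _).trans (h 0 0 0)
  have h' := fun i a b => abs_le.mp (h i a b)
  rw [abs_le]
  fin_cases r <;> simp only [Sq, Fin.zero_eta, Fin.mk_one, Fin.reduceFinMk, Fin.isValue,
    Matrix.cons_val_zero, Matrix.cons_val_one, Matrix.cons_val] <;> constructor <;>
    linarith [h' 0 0 0, h' 1 0 1, h' 0 1 1, h' 2 0 2, h' 1 1 1, h' 2 1 2, h' 1 2 2, h' 0 0 1,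
      h' 2 2 2, h' 0 0 2, h' 2 0 0, h' 1 1 2, h' 0 1 2, h' 1 0 2, h' 2 0 1]

theorem sum_Sq (y d : Fin 3 → ℝ) :
    ∑ r, Sq (fun i a b => y i * d a * d b) r ^ 2 = (d ⬝ᵥ d) * bq y d := by
  simp [Sq, bq, dotProduct, Fin.sum_univ_succ]
  ring

theorem bq_smul (y d : Fin 3 → ℝ) (t : ℝ) : bq y (fun i => t * d i) = t ^ 2 * bq y d := by
  simp only [bq]; ring

end BLift2Aux

end Crest.Agent.R237
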