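import Crest.Agent.R237.BHyp
import Crest.Agent.R237.BLift2Aux

/-!
# Row 237: the lift is exact
-/

set_option autoImplicit false
set_option linter.unusedSectionVars false

noncomputable section

namespace Crest.Agent.R237

open MvPolynomial Matrix

namespace BLift2Aux

variable {κ : ℝ} {x : Fin 23 → ℝ} {v : Aux}

/-- Consequences of the symmetry of `NN`. -/
theorem sym_step (h : Lft κ x v) {φ : Fin 3 → ℝ} (hφ : φ ⬝ᵥ φ = 1) {t S : ℝ}
    (hE : ∀ c i a b, |NN v c i a b - t * φ c * aW v i a b| ≤ S) :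
    (∀ c i a b, |NN v c i a b - t * φ c * (yy x i * φ a * φ b)| ≤ 43 * S) ∧
      ∀ i, |t * (yy x i - qf φ (aW v i) φ)| ≤ 18 * S := by
  obtain ⟨-, -, hW, -, -, hN, -, -, tW⟩ := h.1
  have hφ' := hφ
  simp only [dotProduct, Fin.sum_univ_three] at hφ'
  have hD : ∀ i a k, |t * aW v i a k - φ k * ∑ c, t * aW v i a c * φ c| ≤ 6 * S := by
    intro i a k
    have e : t * aW v i a k - φ k * ∑ c, t * aW v i a c * φ c =
        ∑ c, φ c * (NN v k i a c - t * φ k * aW v i a c) -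
          ∑ c, φ c * (NN v c i a k - t * φ c * aW v i a k) := by
      simp only [Fin.sum_univ_three]
      rw [hN k i a 0, hN k i a 1, hN k i a 2]
      linear_combination (-(t * aW v i a k)) * hφ'
    have h1 := abs_le.mp (abs_sum3 fun c => abs_mul_le (abs_phi hφ c) (hE k i a c))
    have h2 := abs_le.mp (abs_sum3 fun c => abs_mul_le (abs_phi hφ c) (hE c i a k))
    rw [e, abs_le]
    constructor <;> linarith
  refine ⟨fun c i a b => ?_, fun i => ?_⟩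
  · have h1 := near hφ (M := fun a b => t * aW v i a b) (fun a b => by rw [hW i a b]) (hD i) a b
    rw [← Finset.mul_sum, tW] at h1
    have h2 := abs_le.mp (abs_mul_le (abs_phi hφ c) h1)
    have h3 := abs_le.mp (hE c i a b)
    rw [abs_le]
    constructor <;> linarith
  · have h1 := abs_sum3 fun k => hD i k k
    have e : ∑ k, (t * aW v i k k - φ k * ∑ c, t * aW v i k c * φ c) =
        t * (yy x i - qf φ (aW v i) φ) := by
      rw [← tW i]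
      simp only [qf, Fin.sum_univ_three]
      ring
    rw [e] at h1
    linarith

/-- The third block. -/
theorem third (h : Lft κ x v) {φ : Fin 3 → ℝ} (hφ : φ ⬝ᵥ φ = 1) {t S σ : ℝ} (hσ : 0 < σ)
    (hσ' : σ ^ 2 = bq (yy x) φ)
    (hE : ∀ c i a b, |NN v c i a b - t * φ c * (yy x i * φ a * φ b)| ≤ 43 * S) {ρ : ℝ}
    (hρ : 0 < ρ) : 2 * ρ * (t * σ - 6192 * S) ≤ ρ ^ 2 * fh κ x v 0 + fh κ x v 1 := by
  set Z : Fin 12 → ℝ := Sq fun i a b => yy x i * φ a * φ b with hZ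
  have hs : ∑ r, Z r ^ 2 = σ ^ 2 := by rw [hZ, sum_Sq, hφ, one_mul, hσ']
  have hq : ∀ r, |Z r / σ| ≤ 1 := fun r => by
    rw [abs_div, abs_of_pos hσ, div_le_one hσ]
    refine abs_le_of_sq_le_sq' ?_ hσ.le |> abs_le.mpr
    rw [← hs]
    exact Finset.single_le_sum (fun r _ => sq_nonneg (Z r)) (Finset.mem_univ r)
  have h1 := h.2.2.1 (fun c => -ρ * φ c) fun r => Z r / σ
  have e1 : ((fun c => -ρ * φ c) ⬝ᵥ fun c => -ρ * φ c) = ρ ^ 2 := by
    simp only [dotProduct, Fin.sum_univ_three] at hφ ⊢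
    linear_combination ρ ^ 2 * hφ
  have e2 : ((fun r => Z r / σ) ⬝ᵥ fun r => Z r / σ) = 1 := by
    have : ∀ r, Z r / σ * (Z r / σ) = Z r ^ 2 / σ ^ 2 := fun r => by ring
    simp only [dotProduct, this]
    rw [← Finset.sum_div, hs, div_self (by positivity)]
  have e3 : ∑ r, Z r / σ * Z r = σ := by
    have : ∀ r, Z r / σ * Z r = Z r ^ 2 / σ := fun r => by ring
    simp only [this]
    rw [← Finset.sum_div, hs]
    field_simp
  have h2 : ∀ c, φ c ^ 2 * t * σ - 12 * (172 * S) ≤ ∑ r, φ c * (Z r / σ) * Sq (NN v c) r := by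
    intro c
    have : ∀ r ∈ (Finset.univ : Finset (Fin 12)), φ c ^ 2 * t * (Z r / σ * Z r) - 172 * S ≤
        φ c * (Z r / σ) * Sq (NN v c) r := by
      intro r _
      have h3 := abs_le.mp (abs_mul_le (abs_phi hφ c) (abs_mul_le (hq r) (Sq_close (hE c) r)))
      rw [← hZ] at h3
      nlinarith [h3.1]
    have h4 := Finset.sum_le_sum this
    rw [Finset.sum_sub_distrib, ← Finset.mul_sum, e3] at h4
    simpa using h4
  have e4 : ∑ c, ∑ r, -ρ * φ c * (Z r / σ) * Sq (NN v c) r =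
      -ρ * ∑ c, ∑ r, φ c * (Z r / σ) * Sq (NN v c) r := by
    simp only [Finset.mul_sum, mul_assoc]
  rw [e1, e2, e4, Fin.sum_univ_three] at h1
  simp only [dotProduct, Fin.sum_univ_three] at hφ
  have h5 : t * σ - 6192 * S ≤ ∑ r, φ 0 * (Z r / σ) * Sq (NN v 0) r +
      ∑ r, φ 1 * (Z r / σ) * Sq (NN v 1) r + ∑ r, φ 2 * (Z r / σ) * Sq (NN v 2) r := by
    have := h2 0
    have := h2 1
    have := h2 2
    have : t * σ = φ 0 ^ 2 * t * σ + φ 1 ^ 2 * t * σ + φ 2 ^ 2 * t * σ := by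
      linear_combination (-(t * σ)) * hφ
    linarith
  nlinarith [mul_le_mul_of_nonneg_left h5 hρ.le]

theorem boot2 {t S P T I n x0 : ℝ} (ht : 0 < t) {y w : Fin 3 → ℝ} (hx : 0 < x0)
    (hn : n = |y 0| + |y 1| + |y 2|) (hP : P = n / x0)
    (h : ∀ i, |y i / x0| * I ^ 2 ≤ |w i| + 3 * (T * I)) (hw : ∀ i, |t * w i| ≤ 18 * S) :
    t * (P * I ^ 2) ≤ 54 * S + 9 * t * (T * I) := by
  have h1 : ∀ i, t * (|y i| / x0 * I ^ 2) ≤ 18 * S + 3 * t * (T * I) := fun i => by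
    have h2 := mul_le_mul_of_nonneg_left (h i) ht.le
    have h3 := hw i
    rw [abs_mul, abs_of_pos ht] at h3
    rw [abs_div, abs_of_pos hx] at h2
    linarith
  have : P = |y 0| / x0 + |y 1| / x0 + |y 2| / x0 := by rw [hP, hn]; ring
  rw [this]
  linarith [h1 0, h1 1, h1 2]

theorem main (hκ : 2 * 10 ^ 12 ≤ κ) (h : Lft κ x v) (h0 : 0 < xs x 0) (h1 : 0 < xs x 1)
    {φ : Fin 3 → ℝ} (hφ : φ ⬝ᵥ φ = 1) {t : ℝ} (ht : 0 < t)
    (hd : ∀ c, av x 0 c / xs x 0 - av x 1 c / xs x 1 = t * φ c) {f f' : ℝ}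
    (hf : f = al x 0 - av x 0 ⬝ᵥ av x 0 / xs x 0 - κ * (yy x ⬝ᵥ yy x) / xs x 1)
    (hf' : f' = al x 1 - av x 1 ⬝ᵥ av x 1 / xs x 1 - κ * (yy x ⬝ᵥ yy x) / xs x 0)
    (c0 : κ * (yy x ⬝ᵥ yy x) / xs x 1 ≤ f) (c1 : κ * (yy x ⬝ᵥ yy x) / xs x 0 ≤ f') :
    t ^ 2 * bq (yy x) φ ≤ f * f' := by
  have hκ0 : 0 < κ := by linarith
  by_contra hc
  rw [not_le] at hc
  obtain ⟨U0, T0, I0, pU0, pT0, pI0, eU0, eT0, bT0, bI0⟩ := side h h0 hφ
  obtain ⟨U1, T1, I1, pU1, pT1, pI1, eU1, eT1, bT1, bI1⟩ := side h h1 hφ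
  obtain ⟨n, hn⟩ : ∃ n, n = |yy x 0| + |yy x 1| + |yy x 2| := ⟨_, rfl⟩
  have hyy : yy x ⬝ᵥ yy x = |yy x 0| ^ 2 + |yy x 1| ^ 2 + |yy x 2| ^ 2 := by
    simp only [dotProduct, Fin.sum_univ_three, sq_abs]; ring
  have a0 := abs_nonneg (yy x 0)
  have a1 := abs_nonneg (yy x 1)
  have a2 := abs_nonneg (yy x 2)
  have n0 : 0 ≤ n := by linarith
  have n1 : yy x ⬝ᵥ yy x ≤ n ^ 2 := by
    rw [hyy, hn]
    nlinarith [mul_nonneg a0 a1, mul_nonneg a0 a2, mul_nonneg a1 a2]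
  have n2 : n ^ 2 ≤ 3 * (yy x ⬝ᵥ yy x) := by
    rw [hyy, hn]
    nlinarith [sq_nonneg (|yy x 0| - |yy x 1|), sq_nonneg (|yy x 0| - |yy x 2|),
      sq_nonneg (|yy x 1| - |yy x 2|)]
  have y0 : 0 ≤ yy x ⬝ᵥ yy x := by rw [hyy]; positivity
  have n3 : ∀ i, |yy x i| ≤ n := fun i => by
    fin_cases i <;> simp only [Fin.zero_eta, Fin.mk_one, Fin.reduceFinMk, Fin.isValue] <;> linarith
  have hb := bq_le (yy x) φ
  rw [hφ, mul_one] at hb
  have f0 : 0 ≤ f := le_trans (by positivity) c0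
  have f0' : 0 ≤ f' := le_trans (by positivity) c1
  have hb0 : 0 < bq (yy x) φ :=
    (pos_iff_pos_of_mul_pos ((mul_nonneg f0 f0').trans_lt hc)).mp (by positivity)
  have y1 : 0 < yy x ⬝ᵥ yy x := by linarith
  have f1 : 0 < f := lt_of_lt_of_le (by positivity) c0
  have f1' : 0 < f' := lt_of_lt_of_le (by positivity) c1
  have npos : 0 < n := lt_of_pow_lt_pow_left₀ 2 n0 (by rw [zero_pow two_ne_zero]; linarith)
  obtain ⟨σ, σ0, hσ⟩ : ∃ σ : ℝ, 0 < σ ∧ σ ^ 2 = bq (yy x) φ :=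
    ⟨_, Real.sqrt_pos.mpr hb0, Real.sq_sqrt hb0.le⟩
  obtain ⟨ρ, ρ0, hρ⟩ : ∃ ρ : ℝ, 0 < ρ ∧ ρ ^ 2 * f = f' :=
    ⟨√(f' / f), Real.sqrt_pos.mpr (by positivity), by
      rw [Real.sq_sqrt (by positivity)]; field_simp⟩
  obtain ⟨P0, hP0⟩ : ∃ P, P = n / xs x 0 := ⟨_, rfl⟩
  obtain ⟨P1, hP1⟩ : ∃ P, P = n / xs x 1 := ⟨_, rfl⟩
  have pP0 : 0 ≤ P0 := by rw [hP0]; positivity
  have pP1 : 0 ≤ P1 := by rw [hP1]; positivity
  obtain ⟨S, hS⟩ : ∃ S, S = U0 * T0 + P0 * (7 * (U0 * I0)) + (U1 * T1 + P1 * (7 * (U1 * I1))) :=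
    ⟨_, rfl⟩
  have pS : 0 ≤ S := by rw [hS]; positivity
  have hE : ∀ c i a b, |NN v c i a b - t * φ c * aW v i a b| ≤ S := by
    intro c i a b
    have g0 : |yy x i / xs x 0| ≤ P0 := by
      rw [abs_div, abs_of_pos h0, hP0]
      exact div_le_div_of_nonneg_right (n3 i) h0.le
    have g1 : |yy x i / xs x 1| ≤ P1 := by
      rw [abs_div, abs_of_pos h1, hP1]
      exact div_le_div_of_nonneg_right (n3 i) h1.le
    have g2 := mul_le_mul_of_nonneg_right g0 (by positivity : 0 ≤ 7 * (U0 * I0))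
    have g3 := mul_le_mul_of_nonneg_right g1 (by positivity : 0 ≤ 7 * (U1 * I1))
    have g4 := abs_le.mp (bT0 c i a b)
    have g5 := abs_le.mp (bT1 c i a b)
    rw [← hd c, NN, abs_le]
    constructor <;> linarith
  obtain ⟨hN, hw⟩ := sym_step h hφ hE
  have k0 := boot1 ht pS pP0 pU0 pT0 (boot2 ht h0 hn hP0 bI0 hw)
  have k1 := boot1 ht pS pP1 pU1 pT1 (boot2 ht h1 hn hP1 bI1 hw)
  have k3 := third h hφ σ0 hσ hN ρ0
  have g1 : ρ * f < t * σ := by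
    refine lt_of_pow_lt_pow_left₀ 2 (by positivity) ?_
    calc (ρ * f) ^ 2 = f * f' := by rw [← hρ]; ring
      _ < _ := hc
      _ = (t * σ) ^ 2 := by rw [← hσ]; ring
  have g2 : σ ≤ 2 * n := by
    refine (pow_le_pow_iff_left₀ σ0.le (by positivity) two_ne_zero).mp ?_
    rw [mul_pow]
    linarith
  have g3 : ρ * f ≤ 2 * n * t := by
    have := mul_le_mul_of_nonneg_left g2 ht.le
    linarith
  have q0 : κ * (P0 / t) ≤ 6 * ρ := by
    have : κ * P0 * n ≤ 3 * f' := by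
      calc κ * P0 * n = κ * n ^ 2 / xs x 0 := by rw [hP0]; ring
        _ ≤ κ * (3 * (yy x ⬝ᵥ yy x)) / xs x 0 := by gcongr
        _ = 3 * (κ * (yy x ⬝ᵥ yy x) / xs x 0) := by ring
        _ ≤ 3 * f' := by linarith
    have h3 : κ * P0 * n ≤ 6 * ρ * t * n := by
      have := mul_le_mul_of_nonneg_left g3 ρ0.le
      linarith
    rw [← mul_div_assoc, div_le_iff₀ ht]
    exact le_of_mul_le_mul_right h3 npos
  have q1 : κ * (ρ * (P1 / t)) ≤ 6 := by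
    have : κ * P1 * n ≤ 3 * f := by
      calc κ * P1 * n = κ * n ^ 2 / xs x 1 := by rw [hP1]; ring
        _ ≤ κ * (3 * (yy x ⬝ᵥ yy x)) / xs x 1 := by gcongr
        _ = 3 * (κ * (yy x ⬝ᵥ yy x) / xs x 1) := by ring
        _ ≤ 3 * f := by linarith
    have h3 : κ * (ρ * P1) * n ≤ 6 * t * n := by
      have := mul_le_mul_of_nonneg_left this ρ0.le
      linarith
    rw [← mul_div_assoc, ← mul_div_assoc, div_le_iff₀ ht]
    exact le_of_mul_le_mul_right h3 npos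
  have e0 : f = fh κ x v 0 + U0 ^ 2 + κ * T1 ^ 2 := by
    rw [hf, eU0, eT1, fh, show (1 - 0 : Fin 2) = 1 from rfl]
    ring
  have e1 : f' = fh κ x v 1 + U1 ^ 2 + κ * T0 ^ 2 := by
    rw [hf', eU1, eT0, fh, show (1 - 1 : Fin 2) = 0 from rfl]
    ring
  have := fin_num (γ := ρ * f) (U0 := U0) (T0 := T0) (U1 := U1) (T1 := T1) hκ ρ0
    (div_nonneg pP0 ht.le) (div_nonneg pP1 ht.le) (by linarith) q0 q1 k3
    (by rw [← e0, ← e1, ← hρ]; ring)
  linarith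

end BLift2Aux

open BLift2Aux in
theorem ko_of_lft : ∃ κ₀ : ℝ, 4 ≤ κ₀ ∧ ∀ κ, κ₀ ≤ κ → ∀ (x : Fin 23 → ℝ) (v : Aux), Lft κ x v →
    0 < xs x 0 → 0 < xs x 1 → Ko κ x := by
  refine ⟨2 * 10 ^ 12, by norm_num, fun κ hκ x v h h0 h1 => ?_⟩
  have hκ0 : 0 < κ := by linarith
  have hφ : (Pi.single 0 1 : Fin 3 → ℝ) ⬝ᵥ Pi.single 0 1 = 1 := by simp
  obtain ⟨U0, T0, -, -, -, -, eU0, eT0, -, -⟩ := side h h0 hφ
  obtain ⟨U1, T1, -, -, -, -, eU1, eT1, -, -⟩ := side h h1 hφ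
  have c0 : κ * (yy x ⬝ᵥ yy x) / xs x 1 ≤
      al x 0 - av x 0 ⬝ᵥ av x 0 / xs x 0 - κ * (yy x ⬝ᵥ yy x) / xs x 1 := by
    have := h.2.2.2 0
    rw [fh, show (1 - 0 : Fin 2) = 1 from rfl] at this
    rw [mul_div_assoc]
    nlinarith [sq_nonneg U0, mul_nonneg hκ0.le (sq_nonneg T1)]
  have c1 : κ * (yy x ⬝ᵥ yy x) / xs x 0 ≤
      al x 1 - av x 1 ⬝ᵥ av x 1 / xs x 1 - κ * (yy x ⬝ᵥ yy x) / xs x 0 := by
    have := h.2.2.2 1
    rw [fh, show (1 - 1 : Fin 2) = 0 from rfl] at this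
    rw [mul_div_assoc]
    nlinarith [sq_nonneg U1, mul_nonneg hκ0.le (sq_nonneg T0)]
  refine ⟨h0, h1, c0, c1, ?_⟩
  have y0 : 0 ≤ yy x ⬝ᵥ yy x := Finset.sum_nonneg fun i _ => mul_self_nonneg _
  change bq (yy x) (fun i => av x 0 i / xs x 0 - av x 1 i / xs x 1) ≤ _
  generalize hd : (fun i => av x 0 i / xs x 0 - av x 1 i / xs x 1) = d
  have d0 : 0 ≤ d ⬝ᵥ d := Finset.sum_nonneg fun i _ => mul_self_nonneg _
  rcases d0.eq_or_lt with e | e
  · refine (bq_le _ _).trans ?_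
    rw [← e, mul_zero]
    exact mul_nonneg (le_trans (by positivity) c0) (le_trans (by positivity) c1)
  · have ht : 0 < √(d ⬝ᵥ d) := Real.sqrt_pos.mpr e
    have ht2 := Real.sq_sqrt d0
    generalize √(d ⬝ᵥ d) = t at ht ht2
    have e1 : d = fun i => t * (d i / t) := by
      funext i
      field_simp
    rw [e1, bq_smul]
    refine main hκ h h0 h1 ?_ ht (fun c => (congrFun hd c).trans (congrFun e1 c)) rfl rfl c0 c1
    simp only [dotProduct, Fin.sum_univ_three] at ht2 ⊢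
    field_simp
    linarith

end Crest.Agent.R237
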