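import Crest.Agent.R237.BCone

/-!
# Row 237: reduction to a block representation
-/

set_option autoImplicit false
set_option linter.unusedSectionVars false

noncomputable section

namespace Crest.Agent.R237

open MvPolynomial Matrix

namespace BNs1Aux

open Filter Topology

theorem const_nonneg {a b c : ℝ} (h : ∀ e : ℝ, e ≠ 0 → 0 ≤ a + e * b + e ^ 2 * c) : 0 ≤ a := by
  have h1 : Tendsto (fun e : ℝ => a + e * b + e ^ 2 * c) (𝓝[≠] 0) (𝓝 a) := by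
    have : Continuous fun e : ℝ => a + e * b + e ^ 2 * c := by fun_prop
    simpa using (this.tendsto 0).mono_left nhdsWithin_le_nhds
  exact ge_of_tendsto h1 (eventually_nhdsWithin_of_forall h)

theorem top_nonneg {a b c : ℝ} (h : ∀ e : ℝ, e ≠ 0 → 0 ≤ a + e * b + e ^ 2 * c) : 0 ≤ c := by
  refine const_nonneg (b := b) (c := a) fun e he => ?_
  have h1 := mul_nonneg (sq_nonneg e) (h e⁻¹ (inv_ne_zero he))
  refine h1.trans_eq ?_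
  field_simp
  ring

theorem lin_zero {b c : ℝ} (h : ∀ e : ℝ, e ≠ 0 → 0 ≤ 0 + e * b + e ^ 2 * c) : b = 0 := by
  have h1 := discrim_le_zero (a := c) (b := b) (c := 0) fun e => by
    rcases eq_or_ne e 0 with rfl | he
    · simp
    · linarith [h e he]
  rw [discrim] at h1
  nlinarith [sq_nonneg b]

theorem exists_pm {P : ℝ → Prop} (h : ∀ᶠ t in 𝓝 (0 : ℝ), P t) : ∃ t, t ≠ 0 ∧ P t ∧ P (-t) := by
  have h1 : Tendsto (fun t : ℝ => -t) (𝓝 0) (𝓝 0) := by simpa using (continuous_neg.tendsto (0 : ℝ))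
  have h2 : ∀ᶠ t in 𝓝[≠] (0 : ℝ), t ≠ 0 := self_mem_nhdsWithin
  exact (h2.and ((h.and (h1.eventually h)).filter_mono nhdsWithin_le_nhds)).exists

theorem ev_nonneg {E : Type} [NormedAddCommGroup E] [NormedSpace ℝ E] [ProperSpace E]
    (F : ℝ → E → ℝ) (hF : Continuous fun p : ℝ × E => F p.1 p.2)
    (hh : ∀ e c x, F e (c • x) = c ^ 2 * F e x) (h0 : ∀ x, x ≠ 0 → 0 < F 0 x) :
    ∀ᶠ e in 𝓝 (0 : ℝ), ∀ x, 0 ≤ F e x := by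
  have h1 := (isCompact_sphere (0 : E) 1).eventually_forall_of_forall_eventually (x₀ := (0 : ℝ))
    (P := fun e x => 0 < F e x) fun x hx => continuousAt_const.eventually_lt hF.continuousAt
      (h0 x (by rintro rfl; simp at hx))
  filter_upwards [h1] with e he x
  rcases eq_or_ne x 0 with rfl | hx
  · have := hh e 0 0
    rw [zero_smul] at this
    rw [this]
    simp
  · have h2 : ‖x‖ ≠ 0 := norm_ne_zero_iff.2 hx
    have h3 := he (‖x‖⁻¹ • x) (by simp [norm_smul, h2])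
    rw [hh] at h3
    exact ((mul_pos_iff_of_pos_left (by positivity)).1 h3).le

variable {N n m : ℕ}

theorem sym {M : Matrix (Fin N) (Fin N) ℝ} (hM : M.IsSymm) (u v : Fin N → ℝ) :
    u ⬝ᵥ M *ᵥ v = v ⬝ᵥ M *ᵥ u := by
  rw [← dotProduct_transpose_mulVec, hM.eq]

theorem psd_iff {M : Matrix (Fin N) (Fin N) ℝ} (hM : M.IsSymm) :
    M.PosSemidef ↔ ∀ u, 0 ≤ u ⬝ᵥ M *ᵥ u := by
  simp [posSemidef_iff_dotProduct_mulVec, hM]

theorem kill {M : Matrix (Fin N) (Fin N) ℝ} (hM : M.IsSymm) (h : ∀ u, 0 ≤ u ⬝ᵥ M *ᵥ u)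
    {w : Fin N → ℝ} (hw : w ⬝ᵥ M *ᵥ w = 0) : M *ᵥ w = 0 :=
  (((psd_iff hM).2 h).dotProduct_mulVec_zero_iff w).1 (by simpa using hw)

theorem expand {M : Matrix (Fin N) (Fin N) ℝ} (hM : M.IsSymm) (p r : Fin N → ℝ) (c : ℝ)
    {z : Fin N → ℝ} (hz : M *ᵥ z = 0) :
    (p + c • r + z) ⬝ᵥ M *ᵥ (p + c • r + z) =
      p ⬝ᵥ M *ᵥ p + 2 * c * (p ⬝ᵥ M *ᵥ r) + c ^ 2 * (r ⬝ᵥ M *ᵥ r) := by
  rw [mulVec_add, hz, add_zero, add_dotProduct, sym hM z, hz, dotProduct_zero, add_zero]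
  simp only [mulVec_add, mulVec_smul, dotProduct_add, add_dotProduct, smul_dotProduct,
    dotProduct_smul, smul_eq_mul, sym hM r p]
  ring

/-- A complement of `S` in `T`, as the range of a matrix. -/
theorem exists_compl (S T : Submodule ℝ (Fin N → ℝ)) (h : S ≤ T) :
    ∃ (m : ℕ) (R : Matrix (Fin N) (Fin m) ℝ), (∀ w, R *ᵥ w ∈ T) ∧ (∀ w, R *ᵥ w ∈ S → w = 0) ∧
      ∀ u ∈ T, ∃ w, u - R *ᵥ w ∈ S := by
  obtain ⟨S', hS⟩ := S.exists_isCompl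
  let φ := (Module.finBasis ℝ (S' ⊓ T : Submodule ℝ (Fin N → ℝ))).equivFun.symm
  refine ⟨_, LinearMap.toMatrix' ((S' ⊓ T).subtype ∘ₗ φ.toLinearMap), fun w => ?_, fun w hw => ?_,
    fun u hu => ?_⟩
  · rw [LinearMap.toMatrix'_mulVec]
    exact (φ w).2.2
  · rw [LinearMap.toMatrix'_mulVec] at hw
    have h1 : (φ w : Fin N → ℝ) = 0 := (Submodule.disjoint_def.1 hS.disjoint) _ hw (φ w).2.1
    exact φ.map_eq_zero_iff.1 (Subtype.ext h1)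
  · obtain ⟨a, ha, b, hb, rfl⟩ := Submodule.mem_sup.1 (hS.sup_eq_top ▸ Submodule.mem_top (x := u))
    refine ⟨φ.symm ⟨b, hb, (T.add_mem_iff_right (h ha)).1 hu⟩, ?_⟩
    rw [LinearMap.toMatrix'_mulVec]
    simpa using ha

theorem exists_conj (P : Matrix (Fin N) (Fin n) ℝ) (R : Matrix (Fin N) (Fin m) ℝ) :
    ∃ φ : Matrix (Fin N) (Fin N) ℝ →ₗ[ℝ] Matrix (Fin n) (Fin m) ℝ, (∀ M, φ M = Pᵀ * M * R) ∧
      ∀ M v w, v ⬝ᵥ φ M *ᵥ w = P *ᵥ v ⬝ᵥ M *ᵥ R *ᵥ w := by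
  refine ⟨⟨⟨fun M => Pᵀ * M * R, fun M M' => ?_⟩, fun c M => ?_⟩, fun _ => rfl, fun M v w => ?_⟩
  · rw [Matrix.mul_add, Matrix.add_mul]
  · simp only [Matrix.mul_smul, Matrix.smul_mul, RingHom.id_apply]
  · show v ⬝ᵥ (Pᵀ * M * R) *ᵥ w = _
    rw [← mulVec_mulVec, ← mulVec_mulVec, dotProduct_transpose_mulVec, dotProduct_comm]

theorem pt_add (X X' Z Z' : Lor) (y y' : Fin 3 → ℝ) :
    pt (X + X') (Z + Z') (y + y') = pt X Z y + pt X' Z' y' := by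
  simp [pt]

theorem pt_smul (c : ℝ) (X Z : Lor) (y : Fin 3 → ℝ) :
    pt (c • X) (c • Z) (c • y) = c • pt X Z y := by
  simp [pt]

theorem ko_pt (κ : ℝ) (X Z : Lor) (y : Fin 3 → ℝ) : Ko κ (pt X Z y) ↔ KoP κ X Z y := by
  have h1 : av (pt X Z y) 0 = X.2.1 := by
    funext i
    fin_cases i <;> rfl
  have h2 : av (pt X Z y) 1 = Z.2.1 := by
    funext i
    fin_cases i <;> rfl
  have h3 : yy (pt X Z y) = y := by
    funext i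
    fin_cases i <;> rfl
  rw [Ko, h1, h2, h3]
  rfl

theorem scal {κ : ℝ} {X Z : Lor} {y : Fin 3 → ℝ} {e : ℝ} (he : e ≠ 0) (h : KoP κ X Z y) :
    KoP κ X (e ^ 2 • Z) (e • y) := by
  obtain ⟨h1, h2, h3, h4, h5⟩ := h
  have h0 : 0 < e ^ 2 := by positivity
  have a1 : κ * ((e • y) ⬝ᵥ (e • y)) / (e ^ 2 • Z).1 = κ * (y ⬝ᵥ y) / Z.1 := by
    simp only [smul_dotProduct, dotProduct_smul, smul_eq_mul, Prod.smul_fst]
    field_simp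
  have a2 : κ * ((e • y) ⬝ᵥ (e • y)) / X.1 = e ^ 2 * (κ * (y ⬝ᵥ y) / X.1) := by
    simp only [smul_dotProduct, dotProduct_smul, smul_eq_mul]
    ring
  have a3 : ff κ X (e ^ 2 • Z).1 (e • y) = ff κ X Z.1 y := by rw [ff, ff, a1]
  have a4 : ff κ (e ^ 2 • Z) X.1 (e • y) = e ^ 2 * ff κ Z X.1 y := by
    rw [ff, ff, a2]
    simp only [smul_dotProduct, dotProduct_smul, smul_eq_mul, Prod.smul_fst, Prod.smul_snd]
    field_simp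
  have a5 : bq (e • y) (fun i => X.2.1 i / X.1 - (e ^ 2 • Z).2.1 i / (e ^ 2 • Z).1) =
      e ^ 2 * bq y fun i => X.2.1 i / X.1 - Z.2.1 i / Z.1 := by
    simp only [bq, smul_eq_mul, Prod.smul_fst, Prod.smul_snd, Pi.smul_apply,
      mul_div_mul_left _ _ h0.ne']
    ring
  refine ⟨h1, mul_pos h0 h2, ?_, ?_, ?_⟩
  · rwa [a1, a3]
  · rw [a2, a4]
    exact mul_le_mul_of_nonneg_left h4 h0.le
  · rw [a3, a4, a5, mul_left_comm]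
    exact mul_le_mul_of_nonneg_left h5 h0.le

theorem inter (κ : ℝ) (X Z : Lor) (y : Fin 3 → ℝ) : ∀ᶠ t in 𝓝 (0 : ℝ),
    KoP κ ((1, 0, 1) + t • X) ((1, 0, 1) + t • Z) (t • y) := by
  have c1 : ∀ X : Lor, ContinuousAt (fun t : ℝ => (((1, 0, 1) : Lor) + t • X).1) 0 := fun X => by
    fun_prop
  have c2 : ∀ Z : Lor, ContinuousAt (fun t : ℝ =>
      κ * ((t • y) ⬝ᵥ (t • y)) / (((1, 0, 1) : Lor) + t • Z).1) 0 := fun Z =>
    (Continuous.continuousAt (by fun_prop)).div (c1 Z) (by simp)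
  have c3 : ∀ X Z : Lor, ContinuousAt (fun t : ℝ =>
      ff κ ((1, 0, 1) + t • X) (((1, 0, 1) : Lor) + t • Z).1 (t • y)) 0 := fun X Z =>
    ((Continuous.continuousAt (by fun_prop)).sub
      ((Continuous.continuousAt (by fun_prop)).div (c1 X) (by simp))).sub (c2 Z)
  have c4 : ∀ (X : Lor) (i : Fin 3), ContinuousAt (fun t : ℝ =>
      (((1, 0, 1) : Lor) + t • X).2.1 i / (((1, 0, 1) : Lor) + t • X).1) 0 := fun X i =>
    (Continuous.continuousAt (by fun_prop)).div (c1 X) (by simp)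
  have c5 : ContinuousAt (fun t : ℝ => bq (t • y) fun i =>
      (((1, 0, 1) : Lor) + t • X).2.1 i / (((1, 0, 1) : Lor) + t • X).1 -
        (((1, 0, 1) : Lor) + t • Z).2.1 i / (((1, 0, 1) : Lor) + t • Z).1) 0 := by
    have c6 : Continuous fun p : (Fin 3 → ℝ) × (Fin 3 → ℝ) => bq p.1 p.2 := by
      unfold bq
      fun_prop
    exact c6.continuousAt.comp (f := fun t : ℝ => (t • y, fun i =>
      (((1, 0, 1) : Lor) + t • X).2.1 i / (((1, 0, 1) : Lor) + t • X).1 -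
        (((1, 0, 1) : Lor) + t • Z).2.1 i / (((1, 0, 1) : Lor) + t • Z).1))
      ((Continuous.continuousAt (by fun_prop)).prodMk
        (continuousAt_pi.2 fun i => (c4 X i).sub (c4 Z i)))
  filter_upwards [continuousAt_const.eventually_lt (f := fun _ => (0 : ℝ)) (c1 X) (by simp),
    continuousAt_const.eventually_lt (f := fun _ => (0 : ℝ)) (c1 Z) (by simp),
    (c2 Z).eventually_lt (c3 X Z) (by simp [ff]), (c2 X).eventually_lt (c3 Z X) (by simp [ff]),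
    c5.eventually_lt ((c3 X Z).mul (c3 Z X)) (by simp [ff, bq])] with t a1 a2 a3 a4 a5
  exact ⟨a1, a2, a3.le, a4.le, a5.le⟩

theorem closed {κ : ℝ} {X Z : Lor} {y : Fin 3 → ℝ} (hX : 0 < X.1) (hZ : 0 < Z.1)
    (h : ∀ δ : ℝ, 0 < δ → KoP κ (X + δ • (1, 0, 1)) (Z + δ • (1, 0, 1)) y) : KoP κ X Z y := by
  refine (ko_pt κ X Z y).1 (ko_of_forall hX hZ fun δ hδ => ?_)
  have h1 := (ko_pt _ _ _ _).2 (h δ hδ)
  have h2 := pt_add X (δ • (1, 0, 1)) Z (δ • (1, 0, 1)) y (δ • 0)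
  rw [pt_smul, smul_zero, add_zero] at h2
  rw [h2] at h1
  exact h1

/-- The kernel of `A e₁` is killed by every `A X`. -/
theorem kill_all (A : Lor →ₗ[ℝ] Matrix (Fin N) (Fin N) ℝ) (hA : ∀ X, (A X).IsSymm) (X : Lor)
    (h : ∀ᶠ t in 𝓝 (0 : ℝ), ∀ u, 0 ≤ u ⬝ᵥ A ((1, 0, 1) + t • X) *ᵥ u) {w : Fin N → ℝ}
    (hw : A (1, 0, 1) *ᵥ w = 0) : A X *ᵥ w = 0 := by
  obtain ⟨t, ht, h1, h2⟩ := exists_pm h
  have e : ∀ s : ℝ, A ((1, 0, 1) + s • X) *ᵥ w = s • A X *ᵥ w := fun s => by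
    rw [map_add, map_smul, add_mulVec, hw, zero_add, smul_mulVec]
  have h3 := h1 w
  have h4 := h2 w
  rw [e, dotProduct_smul, smul_eq_mul] at h3 h4
  have h5 := kill (hA _) h1 (w := w) (by rw [e, dotProduct_smul, smul_eq_mul]; linarith)
  rw [e] at h5
  exact (smul_eq_zero.1 h5).resolve_left ht

theorem core {κ : ℝ} (A B : Lor →ₗ[ℝ] Matrix (Fin N) (Fin N) ℝ)
    (C : (Fin 3 → ℝ) →ₗ[ℝ] Matrix (Fin N) (Fin N) ℝ) (hA : ∀ X, (A X).IsSymm)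
    (hB : ∀ Z, (B Z).IsSymm) (hC : ∀ y, (C y).IsSymm)
    (h1 : ∀ X Z y, KoP κ X Z y → ∀ u, 0 ≤ u ⬝ᵥ (A X + C y + B Z) *ᵥ u)
    (h2 : ∀ X Z y, 0 < X.1 → 0 < Z.1 → (∀ u, 0 ≤ u ⬝ᵥ (A X + C y + B Z) *ᵥ u) → KoP κ X Z y) :
    ∃ (n m : ℕ) (L₁ : Lor →ₗ[ℝ] Matrix (Fin n) (Fin n) ℝ) (L₂ : Lor →ₗ[ℝ] Matrix (Fin m) (Fin m) ℝ)
      (Cy : (Fin 3 → ℝ) →ₗ[ℝ] Matrix (Fin n) (Fin m) ℝ), Blk κ L₁ L₂ Cy := by
  have e0 : ∀ X Z y (e : ℝ) u, u ⬝ᵥ (A X + C (e • y) + B (e ^ 2 • Z)) *ᵥ u =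
      u ⬝ᵥ A X *ᵥ u + e * (u ⬝ᵥ C y *ᵥ u) + e ^ 2 * (u ⬝ᵥ B Z *ᵥ u) := fun X Z y e u => by
    simp only [map_smul, add_mulVec, smul_mulVec, dotProduct_add, dotProduct_smul, smul_eq_mul]
  have hs : ∀ X Z y, KoP κ X Z y → ∀ u (e : ℝ), e ≠ 0 →
      0 ≤ u ⬝ᵥ A X *ᵥ u + e * (u ⬝ᵥ C y *ᵥ u) + e ^ 2 * (u ⬝ᵥ B Z *ᵥ u) :=
    fun X Z y h u e he => e0 X Z y e u ▸ h1 _ _ _ (scal he h) u
  have k1 : KoP κ (1, 0, 1) (1, 0, 1) 0 := by simpa using (inter κ 0 0 0).self_of_nhds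
  have pA : ∀ u, 0 ≤ u ⬝ᵥ A (1, 0, 1) *ᵥ u := fun u => const_nonneg (hs _ _ _ k1 u)
  have pB : ∀ u, 0 ≤ u ⬝ᵥ B (1, 0, 1) *ᵥ u := fun u => top_nonneg (hs _ _ _ k1 u)
  have kA : ∀ X w, A (1, 0, 1) *ᵥ w = 0 → A X *ᵥ w = 0 := fun X w =>
    kill_all A hA X ((inter κ X 0 0).mono fun t ht u => const_nonneg (hs _ _ _ ht u))
  have kB : ∀ Z w, B (1, 0, 1) *ᵥ w = 0 → B Z *ᵥ w = 0 := fun Z w =>
    kill_all B hB Z ((inter κ 0 Z 0).mono fun t ht u => top_nonneg (hs _ _ _ ht u))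
  have qC : ∀ y w, A (1, 0, 1) *ᵥ w = 0 → w ⬝ᵥ C y *ᵥ w = 0 := fun y w hw => by
    obtain ⟨t, ht, a1, -⟩ := exists_pm (inter κ 0 0 y)
    have a2 := hs _ _ _ a1 w
    rw [kA _ w hw, dotProduct_zero] at a2
    have a3 := lin_zero a2
    rw [map_smul, smul_mulVec, dotProduct_smul, smul_eq_mul] at a3
    exact (mul_eq_zero.1 a3).resolve_left ht
  have kC : ∀ y w, A (1, 0, 1) *ᵥ w = 0 → B (1, 0, 1) *ᵥ w = 0 → C y *ᵥ w = 0 :=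
    fun y w hw hw' => by
    obtain ⟨t, ht, a1, -⟩ := exists_pm (inter κ 0 0 y)
    have a2 := kill (((hA _).add (hC _)).add (hB _)) (h1 _ _ _ a1) (w := w) (by
      rw [add_mulVec, add_mulVec, kA _ w hw, kB _ w hw', zero_add, add_zero, qC _ w hw])
    rw [add_mulVec, add_mulVec, kA _ w hw, kB _ w hw', zero_add, add_zero, map_smul,
      smul_mulVec] at a2
    exact (smul_eq_zero.1 a2).resolve_left ht
  have key : ∀ X Z y (e : ℝ) p r z, e ≠ 0 → A (1, 0, 1) *ᵥ r = 0 → A (1, 0, 1) *ᵥ z = 0 →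
      B (1, 0, 1) *ᵥ z = 0 →
      (p + e⁻¹ • r + z) ⬝ᵥ (A X + C (e • y) + B (e ^ 2 • Z)) *ᵥ (p + e⁻¹ • r + z) =
        p ⬝ᵥ A X *ᵥ p + r ⬝ᵥ B Z *ᵥ r + 2 * (p ⬝ᵥ C y *ᵥ r) +
          e * (p ⬝ᵥ C y *ᵥ p + 2 * (p ⬝ᵥ B Z *ᵥ r)) + e ^ 2 * (p ⬝ᵥ B Z *ᵥ p) := by
    intro X Z y e p r z he hr hz hz'
    rw [e0, expand (hA X) _ _ _ (kA X z hz), expand (hC y) _ _ _ (kC y z hz hz'),
      expand (hB Z) _ _ _ (kB Z z hz'), kA X r hr, qC y r hr]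
    simp only [dotProduct_zero]
    field_simp
    ring
  obtain ⟨n, P, -, hP, hP'⟩ := exists_compl (LinearMap.ker (A (1, 0, 1)).mulVecLin) ⊤ le_top
  obtain ⟨m, R, hR, hR', hR''⟩ := exists_compl (LinearMap.ker (A (1, 0, 1)).mulVecLin ⊓
    LinearMap.ker (B (1, 0, 1)).mulVecLin) _ inf_le_left
  obtain ⟨φ₁, f₁, g₁⟩ := exists_conj P P
  obtain ⟨φ₂, f₂, g₂⟩ := exists_conj R R
  obtain ⟨φ₃, -, g₃⟩ := exists_conj P R
  have dA : ∀ v, v ≠ 0 → 0 < P *ᵥ v ⬝ᵥ A (1, 0, 1) *ᵥ P *ᵥ v := fun v hv =>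
    (pA _).lt_of_ne fun h => hv (hP v (kill (hA _) pA h.symm))
  have dB : ∀ w, w ≠ 0 → 0 < R *ᵥ w ⬝ᵥ B (1, 0, 1) *ᵥ R *ᵥ w := fun w hw =>
    (pB _).lt_of_ne fun h => hw (hR' w ⟨hR w, kill (hB _) pB h.symm⟩)
  have s₁ : ∀ X, (φ₁ (A X)).IsSymm := fun X => by
    rw [f₁, IsSymm, transpose_mul, transpose_mul, transpose_transpose, (hA X).eq, Matrix.mul_assoc]
  have s₂ : ∀ Z, (φ₂ (B Z)).IsSymm := fun Z => by
    rw [f₂, IsSymm, transpose_mul, transpose_mul, transpose_transpose, (hB Z).eq, Matrix.mul_assoc]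
  refine ⟨n, m, φ₁ ∘ₗ A, φ₂ ∘ₗ B, φ₃ ∘ₗ C, s₁, s₂,
    .of_dotProduct_mulVec_pos (isHermitian_iff_isSymm.2 (s₁ _)) fun v hv => ?_,
    .of_dotProduct_mulVec_pos (isHermitian_iff_isSymm.2 (s₂ _)) fun w hw => ?_,
    fun X Z y hX hZ => ?_⟩
  · rw [star_trivial, LinearMap.comp_apply, g₁]
    exact dA v hv
  · rw [star_trivial, LinearMap.comp_apply, g₂]
    exact dB w hw
  simp only [LinearMap.comp_apply, g₁, g₂, g₃]
  refine ⟨fun h v w => const_nonneg fun e he => (h1 _ _ _ (scal he h) _).trans_eq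
    (key X Z y e _ _ 0 he (hR w) (mulVec_zero _) (mulVec_zero _)),
    fun h => closed hX hZ fun δ hδ => ?_⟩
  · obtain ⟨e, he, a1, -⟩ := exists_pm (ev_nonneg (E := (Fin n → ℝ) × (Fin m → ℝ))
      (fun e x => P *ᵥ x.1 ⬝ᵥ A (X + δ • (1, 0, 1)) *ᵥ P *ᵥ x.1 +
        R *ᵥ x.2 ⬝ᵥ B (Z + δ • (1, 0, 1)) *ᵥ R *ᵥ x.2 + 2 * (P *ᵥ x.1 ⬝ᵥ C y *ᵥ R *ᵥ x.2) +
        e * (P *ᵥ x.1 ⬝ᵥ C y *ᵥ P *ᵥ x.1 + 2 * (P *ᵥ x.1 ⬝ᵥ B (Z + δ • (1, 0, 1)) *ᵥ R *ᵥ x.2)) +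
        e ^ 2 * (P *ᵥ x.1 ⬝ᵥ B (Z + δ • (1, 0, 1)) *ᵥ P *ᵥ x.1)) (by fun_prop)
      (fun e c x => by
        simp only [Prod.smul_fst, Prod.smul_snd, mulVec_smul, smul_dotProduct, dotProduct_smul,
          smul_eq_mul]
        ring)
      fun x hx => by
        have b1 := h x.1 x.2
        have b2 : 0 < P *ᵥ x.1 ⬝ᵥ A (1, 0, 1) *ᵥ P *ᵥ x.1 + R *ᵥ x.2 ⬝ᵥ B (1, 0, 1) *ᵥ R *ᵥ x.2 := by
          by_cases h0 : x.1 = 0
          · exact add_pos_of_nonneg_of_pos (pA _) (dB _ fun h' => hx (Prod.ext h0 h'))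
          · exact add_pos_of_pos_of_nonneg (dA _ h0) (pB _)
        have b3 := mul_pos hδ b2
        simp only [map_add, map_smul, add_mulVec, smul_mulVec, dotProduct_add, dotProduct_smul,
          smul_eq_mul]
        linarith)
    have a2 : KoP κ (X + δ • (1, 0, 1)) (e ^ 2 • (Z + δ • (1, 0, 1))) (e • y) := by
      refine h2 _ _ _ ?_ ?_ fun u => ?_
      · simp only [Prod.fst_add, Prod.smul_fst, smul_eq_mul]
        positivity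
      · simp only [Prod.fst_add, Prod.smul_fst, smul_eq_mul]
        positivity
      obtain ⟨v, hv⟩ := hP' u Submodule.mem_top
      obtain ⟨w, hw, hw'⟩ := hR'' _ hv
      have a3 : u = P *ᵥ v + e⁻¹ • R *ᵥ (e • w) + (u - P *ᵥ v - R *ᵥ w) := by
        rw [mulVec_smul, smul_smul, inv_mul_cancel₀ he, one_smul]
        abel
      rw [a3, key _ _ _ _ _ _ _ he (hR _) hw hw']
      exact a1 (v, e • w)
    have a4 := scal (inv_ne_zero he) a2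
    rwa [smul_smul, smul_smul, ← mul_pow, inv_mul_cancel₀ he, one_pow, one_smul, one_smul] at a4

end BNs1Aux

theorem exists_blk {κ : ℝ} (hκ : 0 ≤ κ) {N : ℕ}
    (L : (Fin 23 → ℝ) →ₗ[ℝ] Matrix (Fin N) (Fin N) ℝ) (hL : ∀ x, (L x).IsSymm)
    (h1 : ∀ x, Ko κ x → (L x).PosSemidef)
    (h2 : ∀ x, (L x).PosSemidef → 0 < xs x 0 → 0 < xs x 1 → Ko κ x) :
    ∃ (n m : ℕ) (L₁ : Lor →ₗ[ℝ] Matrix (Fin n) (Fin n) ℝ) (L₂ : Lor →ₗ[ℝ] Matrix (Fin m) (Fin m) ℝ)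
      (Cy : (Fin 3 → ℝ) →ₗ[ℝ] Matrix (Fin n) (Fin m) ℝ), Blk κ L₁ L₂ Cy := by
  let Ψ : (Lor × (Fin 3 → ℝ) × Lor) →ₗ[ℝ] (Fin 23 → ℝ) :=
    ⟨⟨fun p => pt p.1 p.2.2 p.2.1, fun p q => BNs1Aux.pt_add _ _ _ _ _ _⟩,
      fun c p => BNs1Aux.pt_smul _ _ _ _⟩
  have e : ∀ X Z y, L (Ψ (X, 0, 0)) + L (Ψ (0, y, 0)) + L (Ψ (0, 0, Z)) = L (pt X Z y) := by
    intro X Z y
    rw [← map_add, ← map_add, ← map_add, ← map_add]
    simp [Ψ]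
  refine BNs1Aux.core (L ∘ₗ Ψ ∘ₗ LinearMap.inl ℝ _ _)
    (L ∘ₗ Ψ ∘ₗ LinearMap.inr ℝ _ _ ∘ₗ LinearMap.inr ℝ _ _)
    (L ∘ₗ Ψ ∘ₗ LinearMap.inr ℝ _ _ ∘ₗ LinearMap.inl ℝ _ _) (fun _ => hL _) (fun _ => hL _)
    (fun _ => hL _) (fun X Z y h => ?_) fun X Z y hX hZ h => ?_
  · have := (BNs1Aux.psd_iff (hL _)).1 (h1 _ ((BNs1Aux.ko_pt κ X Z y).2 h))
    rw [← e] at this
    exact this
  · refine (BNs1Aux.ko_pt κ X Z y).1 (h2 _ ((BNs1Aux.psd_iff (hL _)).2 ?_) hX hZ)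
    rw [← e]
    exact h


end Crest.Agent.R237
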