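import Crest.Agent.R237.Defs

/-!
# Row 237: tangent cones of a block representation
-/

set_option autoImplicit false
set_option linter.unusedSectionVars false

noncomputable section

namespace Crest.Agent.R237

open MvPolynomial Matrix

variable {κ : ℝ} {n m : ℕ} {L₁ : Lor →ₗ[ℝ] Matrix (Fin n) (Fin n) ℝ}
  {L₂ : Lor →ₗ[ℝ] Matrix (Fin m) (Fin m) ℝ} {Cy : (Fin 3 → ℝ) →ₗ[ℝ] Matrix (Fin n) (Fin m) ℝ}

namespace BNs2Aux

open Filter Topology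

theorem bq_nonneg' (y d : Fin 3 → ℝ) : 0 ≤ bq y d := by
  have e : (d 0 ^ 2 + d 1 ^ 2 + d 2 ^ 2) * bq y d =
      ∑ r, Sq (fun i a b => y i * d a * d b) r ^ 2 := by
    simp only [Sq, bq, Fin.sum_univ_succ, Matrix.cons_val_zero, Matrix.cons_val_succ,
      Fin.sum_univ_zero]
    ring
  have h0 : 0 ≤ d 0 ^ 2 + d 1 ^ 2 + d 2 ^ 2 := by positivity
  rcases h0.eq_or_lt with h | h
  · have h1 : d 0 = 0 := by nlinarith [sq_nonneg (d 0), sq_nonneg (d 1), sq_nonneg (d 2)]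
    have h2 : d 1 = 0 := by nlinarith [sq_nonneg (d 0), sq_nonneg (d 1), sq_nonneg (d 2)]
    have h3 : d 2 = 0 := by nlinarith [sq_nonneg (d 0), sq_nonneg (d 1), sq_nonneg (d 2)]
    simp [bq, h1, h2, h3]
  · refine nonneg_of_mul_nonneg_right ?_ h
    rw [e]
    positivity

theorem eq_zero_of_quartic {s c : ℝ} (h : ∀ t : ℝ, (t * s) ^ 2 ≤ c * (2 * t ^ 4)) : s = 0 := by
  have h1 : Tendsto (fun t : ℝ => c * (2 * t ^ 2)) (𝓝[>] 0) (𝓝 (c * (2 * 0 ^ 2))) :=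
    tendsto_nhdsWithin_of_tendsto_nhds (Continuous.tendsto (by fun_prop) _)
  have h2 : s ^ 2 ≤ c * (2 * 0 ^ 2) := by
    refine ge_of_tendsto h1 ?_
    filter_upwards [self_mem_nhdsWithin] with t ht
    have ht' : (0 : ℝ) < t ^ 2 := pow_pos ht 2
    refine le_of_mul_le_mul_left ?_ ht'
    have := h t
    linarith
  have h3 : s ^ 2 = 0 := le_antisymm (by simpa using h2) (sq_nonneg s)
  exact pow_eq_zero_iff two_ne_zero |>.1 h3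

/-- Finsler's lemma. -/
theorem finsler {V : Type} [NormedAddCommGroup V] [NormedSpace ℝ V] [ProperSpace V]
    {P q : V → ℝ} (hP : Continuous P) (hq : Continuous q)
    (hP2 : ∀ (t : ℝ) u, P (t • u) = t ^ 2 * P u) (hq2 : ∀ (t : ℝ) u, q (t • u) = t ^ 2 * q u)
    (h0 : ∀ u, 0 ≤ P u) (h1 : ∀ u, u ≠ 0 → P u = 0 → 0 < q u) :
    ∃ x : ℝ, 0 < x ∧ ∀ u, 0 ≤ x * P u + q u := by
  obtain ⟨N, hN⟩ := (isCompact_sphere (0 : V) 1).elim_directed_cover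
    (fun N : ℕ => {u | 0 < ((N : ℝ) + 1) * P u + q u})
    (fun N => isOpen_lt continuous_const (by fun_prop))
    (fun u hu => by
      have hu0 : u ≠ 0 := by rintro rfl; simp at hu
      rw [Set.mem_iUnion]
      rcases (h0 u).eq_or_lt with h | h
      · exact ⟨0, by simpa [← h] using h1 u hu0 h.symm⟩
      · obtain ⟨N, hN⟩ := exists_nat_gt (-q u / P u)
        rw [div_lt_iff₀ h] at hN
        exact ⟨N, show 0 < ((N : ℝ) + 1) * P u + q u by linarith⟩)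
    (Monotone.directed_le fun N M hNM u (hu : 0 < ((N : ℝ) + 1) * P u + q u) => by
      have : (N : ℝ) ≤ M := by exact_mod_cast hNM
      have := mul_le_mul_of_nonneg_right this (h0 u)
      change 0 < ((M : ℝ) + 1) * P u + q u
      linarith)
  refine ⟨N + 1, by positivity, fun u => ?_⟩
  by_cases hu : u = 0
  · have e1 := hP2 0 u
    have e2 := hq2 0 u
    rw [zero_smul] at e1 e2
    rw [hu, e1, e2]
    simp
  · have hn : ‖u‖ ≠ 0 := norm_ne_zero_iff.2 hu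
    have h2 : 0 < ((N : ℝ) + 1) * P (‖u‖⁻¹ • u) + q (‖u‖⁻¹ • u) :=
      hN (by simp [norm_smul, hn])
    rw [hP2, hq2] at h2
    have h3 : 0 < ‖u‖⁻¹ ^ 2 := by positivity
    refine nonneg_of_mul_nonneg_right ?_ h3
    linarith

theorem form_smul {k l : ℕ} (M : Matrix (Fin k) (Fin l) ℝ) (t : ℝ) (v : Fin k → ℝ)
    (w : Fin l → ℝ) : (t • v) ⬝ᵥ M *ᵥ (t • w) = t ^ 2 * (v ⬝ᵥ M *ᵥ w) := by
  rw [mulVec_smul, smul_dotProduct, dotProduct_smul, smul_eq_mul, smul_eq_mul]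
  ring

theorem cone (h : Blk κ L₁ L₂ Cy) {X : Lor} (h0 : 0 < X.1) (h1 : X.2.1 ⬝ᵥ X.2.1 ≤ X.1 * X.2.2) :
    (∀ v, 0 ≤ v ⬝ᵥ L₁ X *ᵥ v) ∧ ∀ w, 0 ≤ w ⬝ᵥ L₂ X *ᵥ w := by
  have hf : 0 ≤ ff κ X X.1 0 := by
    have : X.2.1 ⬝ᵥ X.2.1 / X.1 ≤ X.2.2 := by rw [div_le_iff₀ h0]; linarith
    simpa [ff] using this
  have := (h.2.2.2.2 X X 0 h0 h0).1 ⟨h0, h0, by simpa using hf, by simpa using hf, by
    simpa [bq] using mul_self_nonneg _⟩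
  exact ⟨fun v => by simpa using this v 0, fun w => by simpa using this 0 w⟩

theorem psd' (h : Blk κ L₁ L₂ Cy) (a : Fin 3 → ℝ) :
    (L₁ (1, a, a ⬝ᵥ a)).PosSemidef ∧ (L₂ (1, a, a ⬝ᵥ a)).PosSemidef := by
  obtain ⟨h1, h2⟩ := cone h (X := (1, a, a ⬝ᵥ a)) one_pos (by simp)
  exact ⟨.of_dotProduct_mulVec_nonneg (by simpa [IsHermitian] using (h.1 _).eq) (by simpa using h1),
    .of_dotProduct_mulVec_nonneg (by simpa [IsHermitian] using (h.2.1 _).eq) (by simpa using h2)⟩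

theorem coer1 {k : ℕ} {L : Lor →ₗ[ℝ] Matrix (Fin k) (Fin k) ℝ} (hp : (L (1, 0, 1)).PosDef)
    (hL : ∀ X : Lor, 0 < X.1 → X.2.1 ⬝ᵥ X.2.1 ≤ X.1 * X.2.2 → ∀ v, 0 ≤ v ⬝ᵥ L X *ᵥ v) (ρ : ℝ) :
    ∃ c : ℝ, 0 < c ∧ ∀ a : Fin 3 → ℝ, a ⬝ᵥ a ≤ ρ →
      ∀ v, L (1, a, a ⬝ᵥ a) *ᵥ v = 0 → c * (v ⬝ᵥ v) ≤ v ⬝ᵥ L (0, 0, 1) *ᵥ v := by
  obtain ⟨x, hx, hxv⟩ := finsler (P := fun v : Fin k → ℝ => v ⬝ᵥ L (1, 0, 1) *ᵥ v)
    (q := fun v => -(v ⬝ᵥ v)) (by fun_prop) (by fun_prop) (fun t u => form_smul _ t u u)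
    (fun t u => by rw [smul_dotProduct, dotProduct_smul, smul_eq_mul, smul_eq_mul]; ring)
    (fun u => by simpa using hp.posSemidef.dotProduct_mulVec_nonneg u)
    (fun u hu h0 => absurd h0 (by simpa using (hp.dotProduct_mulVec_pos hu).ne'))
  have hρ := abs_nonneg ρ
  obtain ⟨c, hc, hc'⟩ : ∃ c : ℝ, 0 < c ∧ c * (|ρ| + 1) = 1 / 4 :=
    ⟨1 / (4 * (|ρ| + 1)), by positivity, by field_simp⟩
  refine ⟨c / x, by positivity, fun a ha v hv => ?_⟩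
  have h1 : c ≤ 1 / 4 := by nlinarith
  have h2 : c * (a ⬝ᵥ a) ≤ 1 / 4 := by nlinarith [le_abs_self ρ]
  have h3 := hL (1 - c, a, a ⬝ᵥ a + 1 - c) (by simp only; linarith) (by simp only; nlinarith) v
  have e : ((1 - c, a, a ⬝ᵥ a + 1 - c) : Lor) = (1, a, a ⬝ᵥ a) + (0, 0, 1) - c • (1, 0, 1) := by
    simp
  rw [e, map_sub, map_add, map_smul, sub_mulVec, add_mulVec, hv, zero_add, smul_mulVec,
    dotProduct_sub, dotProduct_smul, smul_eq_mul] at h3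
  have h4 := hxv v
  rw [div_mul_eq_mul_div, div_le_iff₀ hx]
  nlinarith

theorem form_X {k : ℕ} (L : Lor →ₗ[ℝ] Matrix (Fin k) (Fin k) ℝ) (x f : ℝ) (a : Fin 3 → ℝ)
    (v : Fin k → ℝ) : v ⬝ᵥ L (x, x • a, x * (a ⬝ᵥ a) + f) *ᵥ v =
      x * (v ⬝ᵥ L (1, a, a ⬝ᵥ a) *ᵥ v) + f * (v ⬝ᵥ L (0, 0, 1) *ᵥ v) := by
  have e : ((x, x • a, x * (a ⬝ᵥ a) + f) : Lor) = x • (1, a, a ⬝ᵥ a) + f • (0, 0, 1) := by simp
  rw [e, map_add, map_smul, map_smul, add_mulVec, smul_mulVec, smul_mulVec, dotProduct_add,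
    dotProduct_smul, dotProduct_smul, smul_eq_mul, smul_eq_mul]

theorem koP_iff (κ : ℝ) {x : ℝ} (hx : 0 < x) (f f' : ℝ) (a a' y : Fin 3 → ℝ) :
    KoP κ (x, x • a, x * (a ⬝ᵥ a) + f) (x, x • a', x * (a' ⬝ᵥ a') + f') y ↔
      κ * (y ⬝ᵥ y) / x ≤ f - κ * (y ⬝ᵥ y) / x ∧ κ * (y ⬝ᵥ y) / x ≤ f' - κ * (y ⬝ᵥ y) / x ∧
        bq y (a - a') ≤ (f - κ * (y ⬝ᵥ y) / x) * (f' - κ * (y ⬝ᵥ y) / x) := by
  have e : ∀ (f : ℝ) (a : Fin 3 → ℝ),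
      ff κ (x, x • a, x * (a ⬝ᵥ a) + f) x y = f - κ * (y ⬝ᵥ y) / x := fun f a => by
    simp only [ff, smul_dotProduct, dotProduct_smul, smul_eq_mul]
    field_simp
    ring
  have e2 : (fun i => (x • a) i / x - (x • a') i / x) = a - a' := by
    funext i
    simp only [Pi.smul_apply, smul_eq_mul, Pi.sub_apply]
    field_simp
  simp only [KoP, e, e2, hx, true_and]

theorem pos_of_le {al be γ η s : ℝ} (h1 : 0 ≤ al) (h2 : 0 ≤ be) (h3 : 0 < al ∨ 0 < be)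
    (h4 : 0 ≤ η) (h5 : η < s) (h6 : γ ^ 2 ≤ η * al * be) : 0 < al + s * be + 2 * γ := by
  have hs : 0 < s := h4.trans_lt h5
  have h7 : (2 * γ) ^ 2 < (al + s * be) ^ 2 := by
    rcases h1.eq_or_lt with a0 | a0
    · have b0 : 0 < be := h3.resolve_left (by rw [← a0]; exact lt_irrefl _)
      rw [← a0] at h6 ⊢
      have : 0 < (s * be) ^ 2 := by positivity
      nlinarith
    · rcases h2.eq_or_lt with b0 | b0
      · rw [← b0] at h6 ⊢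
        have : 0 < al ^ 2 := by positivity
        nlinarith
      · have := mul_lt_mul_of_pos_right h5 (mul_pos a0 b0)
        nlinarith [sq_nonneg (al - s * be)]
  have := (abs_lt.1 (abs_lt_of_sq_lt_sq h7 (by positivity))).1
  linarith

end BNs2Aux

open BNs2Aux

/-- No bilinear form is dominated by the Choi–Lam form. -/
theorem bilin_eq_zero (D : Fin 3 → Fin 3 → ℝ) (c : ℝ)
    (h : ∀ y d : Fin 3 → ℝ, (∑ i, ∑ j, D i j * (y i * d j)) ^ 2 ≤ c * bq y d) : D = 0 := by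
  have z : ∀ y d : Fin 3 → ℝ, bq y d = 0 → ∑ i, ∑ j, D i j * (y i * d j) = 0 := fun y d h0 => by
    have := h y d
    rw [h0, mul_zero] at this
    exact pow_eq_zero_iff two_ne_zero |>.1 (le_antisymm this (sq_nonneg _))
  have a1 := z ![1, 0, 0] ![0, 0, 1] (by simp [bq])
  have a2 := z ![0, 1, 0] ![1, 0, 0] (by simp [bq])
  have a3 := z ![0, 0, 1] ![0, 1, 0] (by simp [bq])
  have b1 := z ![1, 1, 1] ![1, 1, 1] (by simp [bq]; norm_num)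
  have b2 := z ![1, 1, -1] ![1, 1, -1] (by simp [bq]; norm_num)
  have b3 := z ![1, -1, 1] ![1, -1, 1] (by simp [bq]; norm_num)
  have b4 := z ![-1, 1, 1] ![-1, 1, 1] (by simp [bq]; norm_num)
  simp [Fin.sum_univ_three] at a1 a2 a3 b1 b2 b3 b4
  have d01 : D 0 1 = 0 := by linarith
  have d12 : D 1 2 = 0 := by linarith
  have d20 : D 2 0 = 0 := by linarith
  have c1 : D 0 0 + D 2 2 = 0 := eq_zero_of_quartic (c := c) fun t => by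
    have := h ![1, 0, t] ![t, 0, 1]
    simp [Fin.sum_univ_three, bq, a1, d20] at this
    linarith
  have c2 : D 0 0 + D 1 1 = 0 := eq_zero_of_quartic (c := c) fun t => by
    have := h ![t, 1, 0] ![1, t, 0]
    simp [Fin.sum_univ_three, bq, a2, d01] at this
    linarith
  have c3 : D 1 1 + D 2 2 = 0 := eq_zero_of_quartic (c := c) fun t => by
    have := h ![0, t, 1] ![0, 1, t]
    simp [Fin.sum_univ_three, bq, a3, d12] at this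
    linarith
  funext i j
  fin_cases i <;> fin_cases j <;> simp <;> linarith

theorem Blk.upper (hκ : 0 ≤ κ) (h : Blk κ L₁ L₂ Cy) (a a' y : Fin 3 → ℝ) {v : Fin n → ℝ}
    {w : Fin m → ℝ} (hv : L₁ (1, a, a ⬝ᵥ a) *ᵥ v = 0) (hw : L₂ (1, a', a' ⬝ᵥ a') *ᵥ w = 0) :
    (v ⬝ᵥ Cy y *ᵥ w) ^ 2 ≤
      bq y (a - a') * (v ⬝ᵥ L₁ (0, 0, 1) *ᵥ v) * (w ⬝ᵥ L₂ (0, 0, 1) *ᵥ w) := by
  have _ := hκ
  have hb := bq_nonneg' y (a - a')
  have key : ∀ s, bq y (a - a') < s → (v ⬝ᵥ Cy y *ᵥ w) ^ 2 ≤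
      s * (v ⬝ᵥ L₁ (0, 0, 1) *ᵥ v) * (w ⬝ᵥ L₂ (0, 0, 1) *ᵥ w) := by
    intro s hs
    have hs0 : 0 < s := hb.trans_lt hs
    have t0 : Filter.Tendsto (fun x : ℝ => κ * (y ⬝ᵥ y) / x) Filter.atTop (nhds 0) :=
      Filter.tendsto_id.const_div_atTop _
    have t1 := (t0.const_sub 1)
    have t2 := (t0.const_sub s)
    obtain ⟨x, hx, h1, h2, h3⟩ := ((Filter.eventually_gt_atTop (0 : ℝ)).and
      ((t0.eventually_lt t1 (by norm_num)).and ((t0.eventually_lt t2 (by simpa using hs0)).and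
        ((t1.mul t2).eventually_const_lt (u := bq y (a - a')) (by simpa using hs))))).exists
    have h4 := (h.2.2.2.2 _ _ y hx hx).1 ((koP_iff κ hx 1 s a a' y).2 ⟨h1.le, h2.le, h3.le⟩)
    have h5 := discrim_le_zero (a := v ⬝ᵥ L₁ (0, 0, 1) *ᵥ v) (b := 2 * (v ⬝ᵥ Cy y *ᵥ w))
      (c := s * (w ⬝ᵥ L₂ (0, 0, 1) *ᵥ w)) fun t => by
        have := h4 (t • v) w
        rw [form_X, form_X, form_smul, form_smul, hv, hw, smul_dotProduct, smul_eq_mul] at this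
        simp only [dotProduct_zero] at this
        linarith
    rw [discrim] at h5
    linarith
  have t : Filter.Tendsto (fun s : ℝ => s * (v ⬝ᵥ L₁ (0, 0, 1) *ᵥ v) * (w ⬝ᵥ L₂ (0, 0, 1) *ᵥ w))
      (nhdsWithin (bq y (a - a')) (Set.Ioi (bq y (a - a')))) (nhds _) :=
    tendsto_nhdsWithin_of_tendsto_nhds (Continuous.tendsto (by fun_prop) _)
  exact ge_of_tendsto t (Filter.eventually_of_mem self_mem_nhdsWithin key)

theorem Blk.lower (hκ : 0 ≤ κ) (h : Blk κ L₁ L₂ Cy) (a a' y : Fin 3 → ℝ) {η : ℝ} (hη : 0 ≤ η)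
    (hb : ∀ (v : Fin n → ℝ) (w : Fin m → ℝ), L₁ (1, a, a ⬝ᵥ a) *ᵥ v = 0 →
      L₂ (1, a', a' ⬝ᵥ a') *ᵥ w = 0 → (v ⬝ᵥ Cy y *ᵥ w) ^ 2 ≤
        η * (v ⬝ᵥ L₁ (0, 0, 1) *ᵥ v) * (w ⬝ᵥ L₂ (0, 0, 1) *ᵥ w)) : bq y (a - a') ≤ η := by
  refine le_of_forall_gt_imp_ge_of_dense fun s hs => ?_
  obtain ⟨c₁, hc₁, k₁⟩ := coer1 h.2.2.1 (fun X h0 h1 => (cone h h0 h1).1) (a ⬝ᵥ a)
  obtain ⟨c₂, hc₂, k₂⟩ := coer1 h.2.2.2.1 (fun X h0 h1 => (cone h h0 h1).2) (a' ⬝ᵥ a')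
  have p1 := (psd' h a).1
  have p2 := (psd' h a').2
  have n1 : ∀ v, 0 ≤ v ⬝ᵥ L₁ (1, a, a ⬝ᵥ a) *ᵥ v := fun v => by
    simpa using p1.dotProduct_mulVec_nonneg v
  have n2 : ∀ w, 0 ≤ w ⬝ᵥ L₂ (1, a', a' ⬝ᵥ a') *ᵥ w := fun w => by
    simpa using p2.dotProduct_mulVec_nonneg w
  obtain ⟨x, hx, hxu⟩ := finsler (V := (Fin n → ℝ) × (Fin m → ℝ))
    (P := fun u => u.1 ⬝ᵥ L₁ (1, a, a ⬝ᵥ a) *ᵥ u.1 + u.2 ⬝ᵥ L₂ (1, a', a' ⬝ᵥ a') *ᵥ u.2)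
    (q := fun u => u.1 ⬝ᵥ L₁ (0, 0, 1) *ᵥ u.1 + s * (u.2 ⬝ᵥ L₂ (0, 0, 1) *ᵥ u.2) +
      2 * (u.1 ⬝ᵥ Cy y *ᵥ u.2)) (by fun_prop) (by fun_prop)
    (fun t u => by simp only [Prod.smul_fst, Prod.smul_snd, form_smul]; ring)
    (fun t u => by simp only [Prod.smul_fst, Prod.smul_snd, form_smul]; ring)
    (fun u => add_nonneg (n1 _) (n2 _))
    (fun ⟨v, w⟩ hu h0 => by
      have z1 : L₁ (1, a, a ⬝ᵥ a) *ᵥ v = 0 := (p1.dotProduct_mulVec_zero_iff v).1 (by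
        have := n1 v
        have := n2 w
        simp only [star_trivial] at h0 ⊢
        linarith)
      have z2 : L₂ (1, a', a' ⬝ᵥ a') *ᵥ w = 0 := (p2.dotProduct_mulVec_zero_iff w).1 (by
        have := n1 v
        have := n2 w
        simp only [star_trivial] at h0 ⊢
        linarith)
      have l1 := k₁ a le_rfl v z1
      have l2 := k₂ a' le_rfl w z2
      have m1 : 0 ≤ v ⬝ᵥ v := by simpa using dotProduct_star_self_nonneg v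
      have m2 : 0 ≤ w ⬝ᵥ w := by simpa using dotProduct_star_self_nonneg w
      refine pos_of_le ((mul_nonneg hc₁.le m1).trans l1) ((mul_nonneg hc₂.le m2).trans l2) ?_ hη hs
        (hb v w z1 z2)
      by_cases hv : v = 0
      · have hw : w ≠ 0 := fun hw => hu (by rw [hv, hw]; rfl)
        exact Or.inr ((mul_pos hc₂ (m2.lt_of_ne' fun e => hw (dotProduct_self_eq_zero.1 e))).trans_le l2)
      · exact Or.inl ((mul_pos hc₁ (m1.lt_of_ne' fun e => hv (dotProduct_self_eq_zero.1 e))).trans_le l1))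
  obtain ⟨h1, h2, h3⟩ := (koP_iff κ hx 1 s a a' y).1 ((h.2.2.2.2 _ _ y hx hx).2 fun v w => by
    have := hxu (v, w)
    rw [form_X, form_X]
    simp only at this
    linarith)
  have hk : 0 ≤ κ * (y ⬝ᵥ y) / x :=
    div_nonneg (mul_nonneg hκ (by simpa using dotProduct_star_self_nonneg y)) hx.le
  nlinarith

/-- On the kernels the forms `L₁ (0, 0, 1)`, `L₂ (0, 0, 1)` are coercive, locally uniformly. -/
theorem Blk.coer (hκ : 0 ≤ κ) (h : Blk κ L₁ L₂ Cy) (ρ : ℝ) : ∃ c : ℝ, 0 < c ∧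
    ∀ a : Fin 3 → ℝ, a ⬝ᵥ a ≤ ρ →
      (∀ v, L₁ (1, a, a ⬝ᵥ a) *ᵥ v = 0 → c * (v ⬝ᵥ v) ≤ v ⬝ᵥ L₁ (0, 0, 1) *ᵥ v) ∧
        ∀ w, L₂ (1, a, a ⬝ᵥ a) *ᵥ w = 0 → c * (w ⬝ᵥ w) ≤ w ⬝ᵥ L₂ (0, 0, 1) *ᵥ w := by
  have _ := hκ
  obtain ⟨c₁, hc₁, k₁⟩ := coer1 h.2.2.1 (fun X h0 h1 => (cone h h0 h1).1) ρ
  obtain ⟨c₂, hc₂, k₂⟩ := coer1 h.2.2.2.1 (fun X h0 h1 => (cone h h0 h1).2) ρ
  refine ⟨min c₁ c₂, lt_min hc₁ hc₂, fun a ha => ⟨fun v hv => le_trans ?_ (k₁ a ha v hv),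
    fun w hw => le_trans ?_ (k₂ a ha w hw)⟩⟩
  · exact mul_le_mul_of_nonneg_right (min_le_left _ _) (by simpa using dotProduct_star_self_nonneg v)
  · exact mul_le_mul_of_nonneg_right (min_le_right _ _) (by simpa using dotProduct_star_self_nonneg w)

theorem Blk.psd (hκ : 0 ≤ κ) (h : Blk κ L₁ L₂ Cy) (a : Fin 3 → ℝ) :
    (L₁ (1, a, a ⬝ᵥ a)).PosSemidef ∧ (L₂ (1, a, a ⬝ᵥ a)).PosSemidef :=
  have _ := hκ
  psd' h a


end Crest.Agent.R237
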