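import Crest.Agent.R237.BNs2
import Crest.Agent.R237.BKer

/-!
# Row 237: there is no block representation
-/

set_option autoImplicit false
set_option linter.unusedSectionVars false

noncomputable section

namespace Crest.Agent.R237

open MvPolynomial Matrix

namespace BNs3Aux

open Filter Topology

theorem self_nonneg {m : ℕ} (x : Fin m → ℝ) : 0 ≤ x ⬝ᵥ x :=
  Finset.sum_nonneg fun i _ => mul_self_nonneg (x i)

theorem cs {m : ℕ} (v x : Fin m → ℝ) : (v ⬝ᵥ x) ^ 2 ≤ (v ⬝ᵥ v) * (x ⬝ᵥ x) := by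
  simpa only [dotProduct, sq] using Finset.sum_mul_sq_le_sq_mul_sq Finset.univ v x

theorem bound {n m : ℕ} (C : Matrix (Fin n) (Fin m) ℝ) :
    ∃ M : ℝ, 0 ≤ M ∧ ∀ v r, (v ⬝ᵥ C *ᵥ r) ^ 2 ≤ M * (v ⬝ᵥ v) * (r ⬝ᵥ r) := by
  refine ⟨∑ i, C i ⬝ᵥ C i, Finset.sum_nonneg fun i _ => self_nonneg _, fun v r => ?_⟩
  have h : (C *ᵥ r) ⬝ᵥ (C *ᵥ r) ≤ (∑ i, C i ⬝ᵥ C i) * (r ⬝ᵥ r) := by
    rw [Finset.sum_mul]
    exact Finset.sum_le_sum fun i _ => (sq _).symm.trans_le (cs (C i) r)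
  refine (cs _ _).trans ((mul_le_mul_of_nonneg_left h (self_nonneg v)).trans_eq ?_)
  ring

theorem lim {m : ℕ} {Φ : ℝ × (Fin m → ℝ) → ℝ} (hΦ : Continuous Φ) {K t₀ : ℝ} (ht₀ : 0 < t₀)
    (h : ∀ t, 0 < t → t ≤ t₀ → ∃ s, s ⬝ᵥ s ≤ K * t ^ 2 ∧ 0 ≤ Φ (t, s)) : 0 ≤ Φ (0, 0) := by
  choose! s hs using h
  have he : ∀ᶠ t in 𝓝[>] (0 : ℝ), 0 < t ∧ t ≤ t₀ := Ioc_mem_nhdsGT ht₀
  have h1 : Tendsto (fun t : ℝ => √(K * t ^ 2)) (𝓝[>] 0) (𝓝 0) := by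
    have : Continuous fun t : ℝ => √(K * t ^ 2) := by fun_prop
    simpa using (this.tendsto 0).mono_left nhdsWithin_le_nhds
  have h2 : Tendsto s (𝓝[>] 0) (𝓝 0) := by
    refine tendsto_pi_nhds.2 fun i => squeeze_zero_norm' (he.mono fun t ht => ?_) h1
    refine Real.abs_le_sqrt (le_trans ?_ (hs t ht.1 ht.2).1)
    rw [sq]
    exact Finset.single_le_sum (f := fun i => s t i * s t i) (fun j _ => mul_self_nonneg _)
      (Finset.mem_univ i)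
  exact ge_of_tendsto ((hΦ.tendsto _).comp ((tendsto_id.mono_left nhdsWithin_le_nhds).prodMk_nhds h2))
    (he.mono fun t ht => (hs t ht.1 ht.2).2)

theorem bq_line (y a d : Fin 3 → ℝ) (t : ℝ) : bq y (a - (a + t • d)) = t ^ 2 * bq y d := by
  simp only [bq, Pi.sub_apply, Pi.add_apply, Pi.smul_apply, smul_eq_mul]
  ring

theorem expand {m : ℕ} (L : Lor →ₗ[ℝ] Matrix (Fin m) (Fin m) ℝ) (a d : Fin 3 → ℝ) (t : ℝ) :
    L (1, a, a ⬝ᵥ a) + t • L (0, d, 2 * (a ⬝ᵥ d)) + t ^ 2 • L (0, 0, d ⬝ᵥ d) =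
      L (1, a + t • d, (a + t • d) ⬝ᵥ (a + t • d)) := by
  rw [← map_smul, ← map_smul, ← map_add, ← map_add]
  congr 1
  refine Prod.ext (by simp) (Prod.ext (by simp) ?_)
  simp only [Prod.snd_add, Prod.smul_snd, smul_eq_mul, add_dotProduct, dotProduct_add,
    smul_dotProduct, dotProduct_smul, dotProduct_comm d a]
  ring

end BNs3Aux

open BNs3Aux in
theorem not_blk {κ : ℝ} (hκ : 0 ≤ κ) {n m : ℕ} (L₁ : Lor →ₗ[ℝ] Matrix (Fin n) (Fin n) ℝ)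
    (L₂ : Lor →ₗ[ℝ] Matrix (Fin m) (Fin m) ℝ) (Cy : (Fin 3 → ℝ) →ₗ[ℝ] Matrix (Fin n) (Fin m) ℝ) :
    ¬ Blk κ L₁ L₂ Cy := by
  intro h
  obtain ⟨a, ha⟩ : ∃ a : Fin 3 → ℝ, ∀ a' : Fin 3 → ℝ,
      (L₂ (1, a', a' ⬝ᵥ a')).rank ≤ (L₂ (1, a, a ⬝ᵥ a)).rank := by
    refine ⟨Function.argmin fun a : Fin 3 → ℝ => m - (L₂ (1, a, a ⬝ᵥ a)).rank, fun a' => ?_⟩
    have h1 := Function.argmin_le (fun a : Fin 3 → ℝ => m - (L₂ (1, a, a ⬝ᵥ a)).rank) a'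
    have h2 := rank_le_width (L₂ (1, a', a' ⬝ᵥ a'))
    omega
  obtain ⟨G, hG⟩ := ker_expansion (h.psd hκ a).2
  have hK := fun d : Fin 3 → ℝ => hG (L₂ (0, d, 2 * (a ⬝ᵥ d))) (L₂ (0, 0, d ⬝ᵥ d))
    (fun t => by rw [expand]; exact (h.psd hκ _).2) (fun t => by rw [expand]; exact ha _)
  simp only [expand] at hK
  obtain ⟨B, hB⟩ : ∃ B : (Fin 3 → ℝ) →ₗ[ℝ] Matrix (Fin m) (Fin m) ℝ,
      ∀ d, L₂ (0, d, 2 * (a ⬝ᵥ d)) = B d :=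
    ⟨{ toFun := fun d => L₂ (0, d, 2 * (a ⬝ᵥ d))
       map_add' := fun d d' => by rw [← map_add]; simp [mul_add]
       map_smul' := fun c d => by rw [← map_smul]; simp [mul_left_comm] }, fun _ => rfl⟩
  simp only [hB] at hK
  have h1 : ∀ y v w, L₁ (1, a, a ⬝ᵥ a) *ᵥ v = 0 → L₂ (1, a, a ⬝ᵥ a) *ᵥ w = 0 →
      v ⬝ᵥ Cy y *ᵥ w = 0 := fun y v w hv hw => by
    have := h.upper hκ a a y hv hw
    simp only [sub_self, bq, Pi.zero_apply] at this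
    exact pow_eq_zero_iff two_ne_zero |>.1 (le_antisymm (this.trans_eq (by ring)) (sq_nonneg _))
  have h2 : ∀ y d v w, L₁ (1, a, a ⬝ᵥ a) *ᵥ v = 0 → L₂ (1, a, a ⬝ᵥ a) *ᵥ w = 0 →
      (v ⬝ᵥ Cy y *ᵥ (G * B d) *ᵥ w) ^ 2 ≤
        (v ⬝ᵥ L₁ (0, 0, 1) *ᵥ v) * (w ⬝ᵥ L₂ (0, 0, 1) *ᵥ w) * bq y d := fun y d v w hv hw => by
    obtain ⟨K, t₀, ht₀, hK⟩ := hK d
    have := lim (Φ := fun p => bq y d * (v ⬝ᵥ L₁ (0, 0, 1) *ᵥ v) *
        ((w + p.1 • (G * B d) *ᵥ w + p.1 • p.2) ⬝ᵥ L₂ (0, 0, 1) *ᵥ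
          (w + p.1 • (G * B d) *ᵥ w + p.1 • p.2)) -
        (v ⬝ᵥ Cy y *ᵥ (G * B d) *ᵥ w + v ⬝ᵥ Cy y *ᵥ p.2) ^ 2) (by fun_prop)
      (K := K * (w ⬝ᵥ w)) ht₀ fun t ht ht' => ?_
    · simp only [zero_smul, add_zero, mulVec_zero, dotProduct_zero] at this
      linarith
    obtain ⟨r, hr, hr'⟩ := (hK t (by rwa [abs_of_pos ht])).1 w hw
    obtain ⟨s, rfl⟩ : ∃ s, r = t • s := ⟨t⁻¹ • r, by rw [smul_inv_smul₀ ht.ne']⟩
    have hu := h.upper hκ a _ y hv hr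
    have ht2 : 0 < t ^ 2 := by positivity
    refine ⟨s, le_of_mul_le_mul_left ?_ ht2, sub_nonneg.2 (le_of_mul_le_mul_left ?_ ht2)⟩
    · rw [smul_dotProduct, dotProduct_smul, smul_eq_mul, smul_eq_mul] at hr'
      linarith
    · rw [bq_line, mulVec_add, mulVec_add, dotProduct_add, dotProduct_add, h1 y v w hv hw,
        mulVec_smul, mulVec_smul, dotProduct_smul, dotProduct_smul, smul_eq_mul, smul_eq_mul] at hu
      linarith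
  have h3 : ∀ v w, L₁ (1, a, a ⬝ᵥ a) *ᵥ v = 0 → L₂ (1, a, a ⬝ᵥ a) *ᵥ w = 0 →
      v ⬝ᵥ Cy (Pi.single 0 1) *ᵥ (G * B (Pi.single 0 1)) *ᵥ w = 0 := fun v w hv hw => by
    have := bilin_eq_zero (fun i j => v ⬝ᵥ Cy (Pi.single i 1) *ᵥ (G * B (Pi.single j 1)) *ᵥ w) _
      fun y d => le_of_eq_of_le ?_ (h2 y d v w hv hw)
    · exact congrFun (congrFun this 0) 0
    conv_rhs => rw [pi_eq_sum_univ' y, pi_eq_sum_univ' d]
    simp only [Fin.sum_univ_three, map_add, map_smul, Matrix.mul_add, Matrix.mul_smul, add_mulVec,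
      smul_mulVec, mulVec_add, mulVec_smul, dotProduct_add, dotProduct_smul, smul_eq_mul]
    ring
  obtain ⟨K, t₀, ht₀, hK⟩ := hK (Pi.single 0 1)
  obtain ⟨c, hc, hco⟩ := h.coer hκ (2 * (a ⬝ᵥ a) + 2)
  obtain ⟨M, hM, hMb⟩ := bound (Cy (Pi.single 0 1))
  obtain ⟨t, ht, ht1, ht2, ht3⟩ : ∃ t : ℝ, 0 < t ∧ t ≤ t₀ ∧ t ≤ 1 ∧
      t * (M * |K| / c ^ 2 + 1) ≤ 1 :=
    ⟨min (min t₀ 1) (1 / (M * |K| / c ^ 2 + 1)), by positivity,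
      (min_le_left _ _).trans (min_le_left _ _), (min_le_left _ _).trans (min_le_right _ _),
      (le_div_iff₀ (by positivity)).1 (min_le_right _ _)⟩
  have key := h.lower hκ a (a + t • Pi.single 0 1) (Pi.single 0 1)
    (η := M * |K| / c ^ 2 * t ^ 4) (by positivity) fun v w' hv hw' => ?_
  · have e : bq (Pi.single 0 1 : Fin 3 → ℝ) (Pi.single 0 1) = 2 := by simp [bq]
    rw [bq_line, e] at key
    have hη : 0 ≤ M * |K| / c ^ 2 := by positivity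
    generalize M * |K| / c ^ 2 = η at *
    have k1 : η * t ≤ 1 := by nlinarith
    have k2 : η * t * t ≤ 1 * 1 := mul_le_mul k1 ht2 ht.le zero_le_one
    have k3 := mul_le_mul_of_nonneg_right k2 (sq_nonneg t)
    nlinarith [pow_pos ht 2]
  obtain ⟨w, r, hw, e, hr⟩ := (hK t (by rwa [abs_of_pos ht])).2 w' hw'
  have e1 : v ⬝ᵥ Cy (Pi.single 0 1) *ᵥ w' = v ⬝ᵥ Cy (Pi.single 0 1) *ᵥ r := by
    rw [e, mulVec_add, mulVec_add, dotProduct_add, dotProduct_add, h1 _ v w hv hw, mulVec_smul,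
      dotProduct_smul, h3 v w hv hw, smul_zero, zero_add, zero_add]
  have c1 := (hco a (by linarith [self_nonneg a])).1 v hv
  have c2 := (hco (a + t • Pi.single 0 1) (by
    simp only [dotProduct, Fin.sum_univ_three, Pi.add_apply, Pi.smul_apply, smul_eq_mul,
      Pi.single_eq_same, Pi.single_eq_of_ne (show (1 : Fin 3) ≠ 0 by decide),
      Pi.single_eq_of_ne (show (2 : Fin 3) ≠ 0 by decide)]
    nlinarith [sq_nonneg (a 0 - t), sq_nonneg (a 1), sq_nonneg (a 2)])).2 w' hw'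
  have p1 := self_nonneg v
  have p2 := self_nonneg w'
  have c3 : r ⬝ᵥ r ≤ |K| * t ^ 4 * (w' ⬝ᵥ w') := hr.trans (by gcongr; exact le_abs_self K)
  rw [e1]
  calc _ ≤ M * (v ⬝ᵥ v) * (|K| * t ^ 4 * (w' ⬝ᵥ w')) :=
        (hMb v r).trans (mul_le_mul_of_nonneg_left c3 (by positivity))
    _ = M * |K| / c ^ 2 * t ^ 4 * (c * (v ⬝ᵥ v)) * (c * (w' ⬝ᵥ w')) := by field_simp
    _ ≤ _ := by
        have : 0 ≤ v ⬝ᵥ L₁ (0, 0, 1) *ᵥ v := le_trans (by positivity) c1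
        gcongr


end Crest.Agent.R237
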