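import Crest.Agent.R237.Defs

/-!
# Row 237: the lift as one linear matrix inequality of size 100
-/

set_option autoImplicit false
set_option linter.unusedSectionVars false

noncomputable section

namespace Crest.Agent.R237

open MvPolynomial Matrix

namespace BRepAux

section abstract

variable {E : Type} [AddCommGroup E] [Module ℝ E] {N : Type} [Fintype N] [DecidableEq N]

/-- Linear functionals. -/
def Lin (f : E → ℝ) : Prop := ∃ l : E →ₗ[ℝ] ℝ, ∀ e, f e = l e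

theorem Lin.add {f g : E → ℝ} (hf : Lin f) (hg : Lin g) : Lin fun e => f e + g e := by
  obtain ⟨l, hl⟩ := hf
  obtain ⟨m, hm⟩ := hg
  exact ⟨l + m, fun e => by beta_reduce; rw [hl, hm]; rfl⟩

theorem Lin.sub {f g : E → ℝ} (hf : Lin f) (hg : Lin g) : Lin fun e => f e - g e := by
  obtain ⟨l, hl⟩ := hf
  obtain ⟨m, hm⟩ := hg
  exact ⟨l - m, fun e => by beta_reduce; rw [hl, hm]; rfl⟩

theorem Lin.cmul {f : E → ℝ} (c : ℝ) (hf : Lin f) : Lin fun e => c * f e := by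
  obtain ⟨l, hl⟩ := hf
  exact ⟨c • l, fun e => by beta_reduce; rw [hl]; rfl⟩

theorem Lin.sum {ι : Type} [Fintype ι] {f : ι → E → ℝ} (hf : ∀ i, Lin (f i)) :
    Lin fun e => ∑ i, f i e := by
  choose l hl using hf
  exact ⟨∑ i, l i, fun e => by simp [hl]⟩

theorem Lin.of {f : E → ℝ} (h1 : ∀ a b, f (a + b) = f a + f b) (h2 : ∀ (c : ℝ) a, f (c • a) = c * f a) :
    Lin f := ⟨⟨⟨f, h1⟩, h2⟩, fun _ => rfl⟩

/-- Quadratic forms depending linearly on a parameter. -/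
def IsQ (Q : E → (N → ℝ) → ℝ) : Prop :=
  ∃ K : E →ₗ[ℝ] Matrix N N ℝ, ∀ e z, Q e z = z ⬝ᵥ K e *ᵥ z

theorem IsQ.base (i j : N) {f : E → ℝ} (hf : Lin f) :
    IsQ fun e (z : N → ℝ) => z i * z j * f e := by
  obtain ⟨l, hl⟩ := hf
  refine ⟨l.smulRight (Matrix.single i j 1), fun e z => ?_⟩
  beta_reduce
  rw [LinearMap.smulRight_apply, smul_mulVec, single_mulVec, hl, dotProduct_smul]
  have : Function.update (0 : N → ℝ) i (1 * z j) = Pi.single i (z j) := by rw [one_mul]; rfl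
  rw [this, dotProduct_single, smul_eq_mul]
  ring

theorem IsQ.add {Q R : E → (N → ℝ) → ℝ} (hQ : IsQ Q) (hR : IsQ R) :
    IsQ fun e z => Q e z + R e z := by
  obtain ⟨K, hK⟩ := hQ
  obtain ⟨L, hL⟩ := hR
  exact ⟨K + L, fun e z => by
    beta_reduce
    rw [hK, hL, LinearMap.add_apply, add_mulVec, dotProduct_add]⟩

theorem IsQ.cmul {Q : E → (N → ℝ) → ℝ} (c : ℝ) (hQ : IsQ Q) : IsQ fun e z => c * Q e z := by
  obtain ⟨K, hK⟩ := hQ
  exact ⟨c • K, fun e z => by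
    beta_reduce
    rw [hK, LinearMap.smul_apply, smul_mulVec, dotProduct_smul, smul_eq_mul]⟩

theorem IsQ.sum {ι : Type} [Fintype ι] {Q : ι → E → (N → ℝ) → ℝ} (hQ : ∀ i, IsQ (Q i)) :
    IsQ fun e z => ∑ i, Q i e z := by
  choose K hK using hQ
  exact ⟨∑ i, K i, fun e z => by
    simp only [hK, LinearMap.sum_apply, sum_mulVec, dotProduct_sum]⟩

theorem IsQ.congr {Q R : E → (N → ℝ) → ℝ} (hQ : IsQ Q) (h : ∀ e z, R e z = Q e z) : IsQ R := by
  obtain ⟨K, hK⟩ := hQ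
  exact ⟨K, fun e z => by rw [h, hK]⟩

theorem IsQ.psd {Q : E → (N → ℝ) → ℝ} (hQ : IsQ Q) :
    ∃ M : E →ₗ[ℝ] Matrix N N ℝ, (∀ e, (M e).IsSymm) ∧
      ∀ e, (M e).PosSemidef ↔ ∀ z, 0 ≤ Q e z := by
  obtain ⟨K, hK⟩ := hQ
  have hs : ∀ e, (K e + (K e)ᵀ).IsSymm := fun e => isSymm_add_transpose_self _
  refine ⟨K + (transposeLinearEquiv N N ℝ ℝ).toLinearMap ∘ₗ K, hs, fun e => ?_⟩
  change (K e + (K e)ᵀ).PosSemidef ↔ _
  have h2 : ∀ z : N → ℝ, star z ⬝ᵥ (K e + (K e)ᵀ) *ᵥ z = 2 * Q e z := fun z => by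
    rw [star_trivial, add_mulVec, dotProduct_add, hK, mulVec_transpose, dotProduct_comm z (z ᵥ* _),
      ← dotProduct_mulVec]
    ring
  rw [posSemidef_iff_dotProduct_mulVec]
  simp only [h2]
  refine ⟨fun h z => by linarith [h.2 z], fun h => ⟨?_, fun z => by linarith [h z]⟩⟩
  exact hs e

/-- Predicates closed under linear combinations. -/
def Sub (P : E → Prop) : Prop := ∃ Z : Submodule ℝ E, ∀ e, P e ↔ e ∈ Z

theorem Sub.eq {f g : E → ℝ} (hf : Lin f) (hg : Lin g) : Sub fun e => f e = g e := by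
  obtain ⟨l, hl⟩ := hf.sub hg
  exact ⟨LinearMap.ker l, fun e => by rw [LinearMap.mem_ker, ← hl, sub_eq_zero]⟩

theorem Sub.and {P R : E → Prop} (hP : Sub P) (hR : Sub R) : Sub fun e => P e ∧ R e := by
  obtain ⟨Z, hZ⟩ := hP
  obtain ⟨W, hW⟩ := hR
  exact ⟨Z ⊓ W, fun e => by beta_reduce; rw [hZ, hW, Submodule.mem_inf]⟩

theorem Sub.all {ι : Type} {P : ι → E → Prop} (hP : ∀ i, Sub (P i)) : Sub fun e => ∀ i, P i e := by
  choose Z hZ using hP
  exact ⟨⨅ i, Z i, fun e => by simp only [hZ, Submodule.mem_iInf]⟩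

/-- Parametrisation of a subspace which projects onto the first factor. -/
theorem param {V : Type} [AddCommGroup V] [Module ℝ V] [FiniteDimensional ℝ V] {a b : ℕ}
    (Z : Submodule ℝ ((Fin a → ℝ) × V)) (hZ : ∀ x, ∃ v, (x, v) ∈ Z)
    (hV : Module.finrank ℝ V ≤ b) :
    ∃ (A : Fin a → (Fin a → ℝ) × V) (B : Fin b → (Fin a → ℝ) × V), ∀ x e,
      (e ∈ Z ∧ e.1 = x) ↔ ∃ u : Fin b → ℝ, ∑ ν, x ν • A ν + ∑ j, u j • B j = e := by
  classical
  choose sg hsg using hZ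
  set Z0 := Z.comap (LinearMap.inr ℝ (Fin a → ℝ) V) with hZ0
  have h1 : Module.finrank ℝ Z0 ≤ Module.finrank ℝ (Fin b → ℝ) := by
    rw [Module.finrank_fin_fun]
    exact (Submodule.finrank_le Z0).trans hV
  obtain ⟨f, hf⟩ := finrank_le_iff_exists_linearMap.1 h1
  obtain ⟨g, hg⟩ := f.exists_leftInverse_of_injective (LinearMap.ker_eq_bot.2 hf)
  set G : (Fin b → ℝ) →ₗ[ℝ] (Fin a → ℝ) × V :=
    LinearMap.inr ℝ (Fin a → ℝ) V ∘ₗ Z0.subtype ∘ₗ g with hG
  have hsum : ∀ u : Fin b → ℝ, ∑ j, u j • G (Pi.single j 1) = G u := fun u => by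
    simp only [← map_smul, ← map_sum]
    congr 1
    ext j
    simp [Finset.sum_apply, Pi.single_apply]
  have hA1 : ∀ x : Fin a → ℝ, ∑ ν, x ν • ((Pi.single ν 1 : Fin a → ℝ), sg (Pi.single ν 1)) ∈ Z :=
    fun x => Z.sum_mem fun ν _ => Z.smul_mem _ (hsg _)
  have hA2 : ∀ x : Fin a → ℝ,
      (∑ ν, x ν • ((Pi.single ν 1 : Fin a → ℝ), sg (Pi.single ν 1))).1 = x := fun x => by
    ext j
    simp [Prod.fst_sum, Finset.sum_apply, Pi.single_apply]
  refine ⟨fun ν => (Pi.single ν 1, sg (Pi.single ν 1)), fun j => G (Pi.single j 1), fun x e => ?_⟩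
  simp only [hsum]
  constructor
  · rintro ⟨he, hx⟩
    set w := e - ∑ ν, x ν • ((Pi.single ν 1 : Fin a → ℝ), sg (Pi.single ν 1)) with hw
    have hw1 : w = (0, w.2) := Prod.ext (by rw [hw, Prod.fst_sub, hA2, hx, sub_self]) rfl
    have hw2 : w.2 ∈ Z0 := by
      change ((0 : Fin a → ℝ), w.2) ∈ Z
      rw [← hw1]
      exact Z.sub_mem he (hA1 x)
    refine ⟨f ⟨w.2, hw2⟩, ?_⟩
    have h3 : g (f ⟨w.2, hw2⟩) = ⟨w.2, hw2⟩ := LinearMap.congr_fun hg _
    have h4 : G (f ⟨w.2, hw2⟩) = w := by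
      rw [hG, LinearMap.comp_apply, LinearMap.comp_apply, h3]
      exact hw1.symm
    rw [h4, hw, add_sub_cancel]
  · rintro ⟨u, rfl⟩
    refine ⟨Z.add_mem (hA1 x) (g u).2, ?_⟩
    rw [Prod.fst_add, hA2]
    exact add_zero x

end abstract

/-- The total space. -/
abbrev TE : Type := (Fin 23 → ℝ) × Aux

theorem lin_x (k : Fin 23) : Lin fun e : TE => e.1 k := Lin.of (fun _ _ => rfl) fun _ _ => rfl

theorem lin_xs (s : Fin 2) : Lin fun e : TE => xs e.1 s := by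
  fin_cases s <;> exact lin_x _

theorem lin_al (s : Fin 2) : Lin fun e : TE => al e.1 s := by
  fin_cases s <;> exact lin_x _

theorem lin_av (s : Fin 2) (j : Fin 3) : Lin fun e : TE => av e.1 s j := by
  fin_cases s <;> fin_cases j <;> exact lin_x _

theorem lin_yy (j : Fin 3) : Lin fun e : TE => yy e.1 j := by
  fin_cases j <;> exact lin_x _

theorem lin_G (s : Fin 2) (a b : Fin 3) : Lin fun e : TE => aG e.2 s a b :=
  Lin.of (fun _ _ => rfl) fun _ _ => rfl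

theorem lin_H (s : Fin 2) (j a b : Fin 3) : Lin fun e : TE => aH e.2 s j a b :=
  Lin.of (fun _ _ => rfl) fun _ _ => rfl

theorem lin_W (i a b : Fin 3) : Lin fun e : TE => aW e.2 i a b :=
  Lin.of (fun _ _ => rfl) fun _ _ => rfl

theorem lin_T (s : Fin 2) (j i a b : Fin 3) : Lin fun e : TE => aT e.2 s j i a b :=
  Lin.of (fun _ _ => rfl) fun _ _ => rfl

theorem lin_U (s : Fin 2) (a b : Fin 3) : Lin fun e : TE => aU e.2 s a b :=
  Lin.of (fun _ _ => rfl) fun _ _ => rfl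

theorem lin_Y (s : Fin 2) (a b : Fin 3) : Lin fun e : TE => aY e.2 s a b :=
  Lin.of (fun _ _ => rfl) fun _ _ => rfl

theorem lin_NN (c i a b : Fin 3) : Lin fun e : TE => NN e.2 c i a b :=
  (lin_T 0 c i a b).sub (lin_T 1 c i a b)

theorem lin_fh (κ : ℝ) (s : Fin 2) : Lin fun e : TE => fh κ e.1 e.2 s :=
  ((lin_al s).sub (Lin.sum fun j => lin_U s j j)).sub
    (Lin.cmul κ (Lin.sum fun i => lin_Y (1 - s) i i))

theorem lin_bordU (s : Fin 2) (j j' : Option (Fin 3)) :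
    Lin fun e : TE => bord (xs e.1 s) (av e.1 s) (aU e.2 s) j j' := by
  rcases j with _ | j <;> rcases j' with _ | j'
  exacts [lin_xs s, lin_av s j', lin_av s j, lin_U s j j']

theorem lin_bordY (s : Fin 2) (j j' : Option (Fin 3)) :
    Lin fun e : TE => bord (xs e.1 s) (yy e.1) (aY e.2 s) j j' := by
  rcases j with _ | j <;> rcases j' with _ | j'
  exacts [lin_xs s, lin_yy j', lin_yy j, lin_Y s j j']

theorem lin_Gam (s : Fin 2) (j i : Option (Fin 3)) (a b : Fin 3) :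
    Lin fun e : TE => Gam e.2 s j i a b := by
  rcases j with _ | j <;> rcases i with _ | i
  exacts [lin_G s a b, lin_W i a b, lin_H s j a b, lin_T s j i a b]

theorem lin_Sq (c : Fin 3) (r : Fin 12) : Lin fun e : TE => Sq (NN e.2 c) r := by
  have h := lin_NN c
  fin_cases r
  all_goals first
    | exact (h _ _ _).sub (h _ _ _)
    | exact (((h _ _ _).sub (h _ _ _)).add (h _ _ _)).sub (h _ _ _)

theorem sub_Con : Sub fun e : TE => Con e.1 e.2 :=
  (Sub.all fun s => Sub.all fun a => Sub.all fun b => Sub.eq (lin_G s a b) (lin_G s b a)).and <|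
  (Sub.all fun s => Sub.all fun j => Sub.all fun a => Sub.all fun b =>
    Sub.eq (lin_H s j a b) (lin_H s j b a)).and <|
  (Sub.all fun i => Sub.all fun a => Sub.all fun b => Sub.eq (lin_W i a b) (lin_W i b a)).and <|
  (Sub.all fun s => Sub.all fun a => Sub.all fun b => Sub.eq (lin_U s a b) (lin_U s b a)).and <|
  (Sub.all fun s => Sub.all fun a => Sub.all fun b => Sub.eq (lin_Y s a b) (lin_Y s b a)).and <|
  (Sub.all fun c => Sub.all fun i => Sub.all fun a => Sub.all fun b =>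
    Sub.eq (lin_NN c i a b) (lin_NN b i a c)).and <|
  (Sub.all fun s => Sub.eq (Lin.sum fun a => lin_G s a a) (lin_xs s)).and <|
  (Sub.all fun s => Sub.all fun j => Sub.eq (Lin.sum fun a => lin_H s j a a) (lin_av s j)).and <|
  Sub.all fun i => Sub.eq (Lin.sum fun a => lin_W i a a) (lin_yy i)

theorem exists_Con (x : Fin 23 → ℝ) : ∃ v, Con x v := by
  have h1 : ∀ (t : ℝ) (a b : Fin 3),
      (if a = b then t / 3 else 0) = if b = a then t / 3 else 0 := fun t a b => by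
    simp only [eq_comm]
  have h2 : ∀ t : ℝ, ∑ a : Fin 3, (if a = a then t / 3 else 0) = t := fun t => by
    simp only [if_true, Fin.sum_univ_three]
    ring
  exact ⟨(fun s a b => if a = b then xs x s / 3 else 0,
    fun s j a b => if a = b then av x s j / 3 else 0,
    fun i a b => if a = b then yy x i / 3 else 0, 0, 0, 0),
    fun _ _ _ => h1 _ _ _, fun _ _ _ _ => h1 _ _ _, fun _ _ _ => h1 _ _ _, fun _ _ _ => rfl,
    fun _ _ _ => rfl, fun _ _ _ _ => rfl, fun _ => h2 _, fun _ _ => h2 _, fun _ => h2 _⟩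

theorem finrank_Aux : Module.finrank ℝ Aux ≤ 307 := by
  simp [Module.finrank_prod, Module.finrank_pi_fintype]

theorem isQ_blk {N : Type} [Fintype N] [DecidableEq N] (s : Fin 2)
    (ip iq : Option (Fin 3) → Fin 3 → N) (iw : Fin 3 → N) :
    IsQ fun (e : TE) (z : N → ℝ) =>
      blk e.1 e.2 s (fun j a => z (ip j a)) (fun j a => z (iq j a)) fun c => z (iw c) :=
  (((((IsQ.sum fun a => IsQ.sum fun j => IsQ.sum fun j' =>
    IsQ.base (ip j a) (ip j' a) (lin_bordU s j j')).add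
  (IsQ.sum fun b => IsQ.sum fun i => IsQ.sum fun i' =>
    IsQ.base (iq i b) (iq i' b) (lin_bordY s i i'))).add
  (IsQ.sum fun c => IsQ.sum fun c' => IsQ.base (iw c) (iw c') (lin_G s c c'))).add
  (IsQ.cmul 2 (IsQ.sum fun j => IsQ.sum fun a => IsQ.sum fun i => IsQ.sum fun b =>
    IsQ.base (ip j a) (iq i b) (lin_Gam s j i a b)))).add
  (IsQ.cmul 2 (IsQ.sum fun j => IsQ.sum fun a => IsQ.sum fun c =>
    IsQ.base (ip j a) (iw c) (lin_Gam s j none a c)))).add
  (IsQ.cmul 2 (IsQ.sum fun i => IsQ.sum fun b => IsQ.sum fun c =>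
    IsQ.base (iq i b) (iw c) (lin_Gam s none i c b)))

theorem isQ_third {N : Type} [Fintype N] [DecidableEq N] (κ : ℝ) (ip : Fin 3 → N)
    (iq : Fin 12 → N) :
    IsQ fun (e : TE) (z : N → ℝ) =>
      fh κ e.1 e.2 0 * ((fun c => z (ip c)) ⬝ᵥ fun c => z (ip c)) +
        fh κ e.1 e.2 1 * ((fun r => z (iq r)) ⬝ᵥ fun r => z (iq r)) +
        2 * ∑ c, ∑ r, z (ip c) * z (iq r) * Sq (NN e.2 c) r := by
  refine (IsQ.add ?_ ?_).add (IsQ.cmul 2 (IsQ.sum fun c => IsQ.sum fun r =>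
    IsQ.base (ip c) (iq r) (lin_Sq c r)))
  · refine (IsQ.sum fun c => IsQ.base (ip c) (ip c) (lin_fh κ 0)).congr fun e z => ?_
    rw [dotProduct, mul_comm, Finset.sum_mul]
  · refine (IsQ.sum fun c => IsQ.base (iq c) (iq c) (lin_fh κ 1)).congr fun e z => ?_
    rw [dotProduct, mul_comm, Finset.sum_mul]

/-- The index set of one block of size `27`. -/
abbrev J : Type := (Option (Fin 3) × Fin 3) ⊕ (Option (Fin 3) × Fin 3) ⊕ Fin 3

/-- The index set of size `71`. -/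
abbrev I : Type := (J ⊕ J) ⊕ (Fin 3 ⊕ Fin 12) ⊕ Fin 2

theorem blk_zero (x : Fin 23 → ℝ) (v : Aux) (s : Fin 2) :
    blk x v s (fun _ _ => 0) (fun _ _ => 0) (fun _ => 0) = 0 := by
  simp [blk]

theorem exists_lmi (κ : ℝ) :
    ∃ M : TE →ₗ[ℝ] Matrix (Fin 100) (Fin 100) ℝ, (∀ e, (M e).IsSymm) ∧
      ∀ e : TE, Lft κ e.1 e.2 ↔ Con e.1 e.2 ∧ (M e).PosSemidef := by
  obtain ⟨ι⟩ : Nonempty (I ↪ Fin 100) := Function.Embedding.nonempty_of_card_le (by simp)
  obtain ⟨M, hM, hQ⟩ := ((((isQ_blk 0 (fun j a => ι (.inl (.inl (.inl (j, a)))))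
    (fun j a => ι (.inl (.inl (.inr (.inl (j, a)))))) fun c => ι (.inl (.inl (.inr (.inr c))))).add
    (isQ_blk 1 (fun j a => ι (.inl (.inr (.inl (j, a)))))
    (fun j a => ι (.inl (.inr (.inr (.inl (j, a)))))) fun c => ι (.inl (.inr (.inr (.inr c)))))).add
    (isQ_third κ (fun c => ι (.inr (.inl (.inl c)))) fun r => ι (.inr (.inl (.inr r))))).add
    (IsQ.sum fun s : Fin 2 => IsQ.base (ι (.inr (.inr s))) (ι (.inr (.inr s)))
      ((lin_fh κ s).sub (Lin.cmul κ (Lin.sum fun i => lin_Y (1 - s) i i))))).psd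
  refine ⟨M, hM, fun e => and_congr_right fun _ => ?_⟩
  rw [hQ]
  constructor
  · rintro ⟨h1, h2, h3⟩ z
    exact add_nonneg (add_nonneg (add_nonneg (h1 _ _ _ _) (h1 _ _ _ _)) (h2 _ _))
      (Finset.sum_nonneg fun s _ => mul_nonneg (mul_self_nonneg _) (sub_nonneg.2 (h3 s)))
  · intro h
    have hext : ∀ w : I → ℝ, ∃ z : Fin 100 → ℝ, ∀ i, z (ι i) = w i := fun w =>
      ⟨Function.extend ι w 0, fun i => ι.injective.extend_apply _ _ i⟩
    refine ⟨fun s p q w => ?_, fun p q => ?_, fun s => ?_⟩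
    · fin_cases s
      · obtain ⟨z, hz⟩ := hext (Sum.elim (Sum.elim (Sum.elim (fun t => p t.1 t.2)
          (Sum.elim (fun t => q t.1 t.2) w)) fun _ => 0) fun _ => 0)
        have := h z
        simp only [hz, Sum.elim_inl, Sum.elim_inr, blk_zero] at this
        simpa [dotProduct] using this
      · obtain ⟨z, hz⟩ := hext (Sum.elim (Sum.elim (fun _ => 0) (Sum.elim (fun t => p t.1 t.2)
          (Sum.elim (fun t => q t.1 t.2) w))) fun _ => 0)
        have := h z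
        simp only [hz, Sum.elim_inl, Sum.elim_inr, blk_zero] at this
        simpa [dotProduct] using this
    · obtain ⟨z, hz⟩ := hext (Sum.elim (fun _ => 0) (Sum.elim (Sum.elim p q) fun _ => 0))
      have := h z
      simp only [hz, Sum.elim_inl, Sum.elim_inr, blk_zero] at this
      simpa using this
    · obtain ⟨z, hz⟩ := hext (Sum.elim (fun _ => 0) (Sum.elim (fun _ => 0) (Pi.single s 1)))
      have := h z
      simp only [hz, Sum.elim_inl, Sum.elim_inr, blk_zero] at this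
      rw [Finset.sum_eq_single s (fun t _ ht => by rw [Pi.single_eq_of_ne ht, zero_mul, zero_mul])
        (fun hs => (hs (Finset.mem_univ s)).elim)] at this
      simpa [dotProduct] using this

end BRepAux

theorem exists_rep (κ : ℝ) :
    ∃ (A : Fin 23 → Matrix (Fin 100) (Fin 100) ℝ) (B : Fin 307 → Matrix (Fin 100) (Fin 100) ℝ),
      (∀ ν, (A ν).IsSymm) ∧ (∀ j, (B j).IsSymm) ∧ ∀ x : Fin 23 → ℝ, (∃ v, Lft κ x v) ↔
        ∃ v : Fin 307 → ℝ, (∑ ν, x ν • A ν + ∑ j, v j • B j).PosSemidef := by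
  obtain ⟨M, hM, hL⟩ := BRepAux.exists_lmi κ
  obtain ⟨Z, hZ⟩ := BRepAux.sub_Con
  obtain ⟨A, B, hAB⟩ := BRepAux.param Z
    (fun x => (BRepAux.exists_Con x).imp fun v hv => (hZ (x, v)).1 hv) BRepAux.finrank_Aux
  refine ⟨fun ν => M (A ν), fun j => M (B j), fun _ => hM _, fun _ => hM _, fun x => ?_⟩
  simp only [← map_smul, ← map_sum, ← map_add]
  constructor
  · rintro ⟨v, hv⟩
    obtain ⟨h1, h2⟩ := (hL (x, v)).1 hv
    obtain ⟨u, hu⟩ := (hAB x (x, v)).1 ⟨(hZ _).1 h1, rfl⟩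
    exact ⟨u, by rw [hu]; exact h2⟩
  · rintro ⟨u, hu⟩
    have h0 := fun e he => (hAB x e).2 ⟨u, he⟩
    generalize ∑ ν, x ν • A ν + ∑ j, u j • B j = e at h0 hu
    obtain ⟨h1, h2⟩ := h0 e rfl
    have h3 := (hL e).2 ⟨(hZ e).2 h1, hu⟩
    rw [h2] at h3
    exact ⟨_, h3⟩


end Crest.Agent.R237
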