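import Crest.Agent.R237.Taylor

/-!
# Row 237: the criterion for spectrahedral shadows
-/

set_option autoImplicit false
set_option linter.unusedSectionVars false

noncomputable section

namespace Crest.Agent.R237

open MvPolynomial Matrix

namespace CritAux

section mat

variable {n : Type} [Fintype n] [DecidableEq n]

open scoped MatrixOrder in
theorem fac {X : Matrix n n ℝ} (h : X.PosSemidef) : ∃ Z : Matrix n n ℝ, X = Zᵀ * Z := by
  obtain ⟨B, rfl⟩ := CStarAlgebra.nonneg_iff_eq_star_mul_self.mp h.nonneg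
  exact ⟨B, by rw [star_eq_conjTranspose, conjTranspose_eq_transpose_of_trivial]⟩

theorem ginv (Z : Matrix n n ℝ) : ∃ T : Matrix n n ℝ, Z * T * Z = Z := by
  obtain ⟨g, hg⟩ := (toLin' Z).rangeRestrict.exists_rightInverse_of_surjective
    (LinearMap.range_rangeRestrict _)
  obtain ⟨h, hh⟩ := g.exists_extend
  refine ⟨LinearMap.toMatrix' h, toLin'.injective (LinearMap.ext fun w => ?_)⟩
  have h1 := congrArg Subtype.val (LinearMap.congr_fun hg ⟨toLin' Z w, w, rfl⟩)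
  rw [← hh] at h1
  rw [toLin'_mul, toLin'_mul, toLin'_toMatrix']
  exact h1

theorem form_le (G : Matrix n n ℝ) (y : n → ℝ) :
    |y ⬝ᵥ G *ᵥ y| ≤ (∑ i, ∑ j, |G i j|) * (y ⬝ᵥ y) := by
  have h1 : ∀ i, y i ^ 2 ≤ y ⬝ᵥ y := fun i => by
    rw [sq]
    exact Finset.single_le_sum (f := fun i => y i * y i) (fun i _ => mul_self_nonneg _)
      (Finset.mem_univ i)
  generalize y ⬝ᵥ y = Y at h1 ⊢
  simp only [dotProduct, mulVec, Finset.mul_sum, Finset.sum_mul]
  refine (Finset.abs_sum_le_sum_abs _ _).trans (Finset.sum_le_sum fun i _ =>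
    (Finset.abs_sum_le_sum_abs _ _).trans (Finset.sum_le_sum fun j _ => ?_))
  rw [mul_left_comm, abs_mul]
  refine mul_le_mul_of_nonneg_left (abs_le.2 ⟨?_, ?_⟩) (abs_nonneg _)
  · nlinarith [h1 i, h1 j, sq_nonneg (y i + y j)]
  · nlinarith [h1 i, h1 j, sq_nonneg (y i - y j)]

theorem absorb {Z T E : Matrix n n ℝ} (hE : Eᵀ = E) (h : E * (1 - T * Z) = 0) :
    ∃ C : ℝ, 0 ≤ C ∧ ∀ w, |w ⬝ᵥ E *ᵥ w| ≤ C * (w ⬝ᵥ (Zᵀ * Z) *ᵥ w) := by
  have h1 : E = E * T * Z := by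
    rwa [Matrix.mul_sub, Matrix.mul_one, sub_eq_zero, ← Matrix.mul_assoc] at h
  have h2 : E = Zᵀ * (Tᵀ * E) := by
    have := congrArg transpose h1
    rwa [transpose_mul, transpose_mul, hE] at this
  have h3 : E = Zᵀ * (Tᵀ * E * T) * Z := by
    calc E = Zᵀ * (Tᵀ * E) * T * Z := by rw [← h2, ← h1]
      _ = _ := by simp only [Matrix.mul_assoc]
  have h4 : ∀ (w v : n → ℝ), w ⬝ᵥ Zᵀ *ᵥ v = Z *ᵥ w ⬝ᵥ v := fun w v => by
    rw [dotProduct_mulVec, vecMul_transpose]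
  refine ⟨∑ i, ∑ j, |(Tᵀ * E * T) i j|, by positivity, fun w => ?_⟩
  have := form_le (Tᵀ * E * T) (Z *ᵥ w)
  rwa [← h4, ← h4, mulVec_mulVec, mulVec_mulVec, mulVec_mulVec, ← h3] at this

theorem maxrank {S : Set (Matrix n n ℝ)} (h0 : S.Nonempty) (h1 : ∀ X ∈ S, X.PosSemidef)
    (h2 : ∀ X ∈ S, ∀ X' ∈ S, (1 / 2 : ℝ) • (X + X') ∈ S) :
    ∃ X ∈ S, ∀ X' ∈ S, ∀ N : Matrix n n ℝ, X * N = 0 → X' * N = 0 := by
  obtain ⟨X, hX, hmin⟩ := (measure fun X : Matrix n n ℝ =>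
    Module.finrank ℝ (LinearMap.ker (toLin' X))).wf.has_min S h0
  refine ⟨X, hX, fun X' hX' N hN => toLin'.injective (LinearMap.ext fun w => ?_)⟩
  have key : ∀ w, ((1 / 2 : ℝ) • (X + X')) *ᵥ w = 0 → X *ᵥ w = 0 ∧ X' *ᵥ w = 0 := fun w hw => by
    have e := congrArg (star w ⬝ᵥ ·) hw
    simp only [smul_mulVec, add_mulVec, dotProduct_smul, dotProduct_add, dotProduct_zero,
      smul_eq_mul] at e
    have p1 := (h1 X hX).dotProduct_mulVec_nonneg w
    have p2 := (h1 X' hX').dotProduct_mulVec_nonneg w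
    exact ⟨((h1 X hX).dotProduct_mulVec_zero_iff w).1 (by linarith),
      ((h1 X' hX').dotProduct_mulVec_zero_iff w).1 (by linarith)⟩
  have e := Submodule.eq_of_le_of_finrank_le (S₁ := LinearMap.ker (toLin' ((1 / 2 : ℝ) • (X + X'))))
    (S₂ := LinearMap.ker (toLin' X)) (fun w hw => (key w hw).1)
    (not_lt.1 (hmin _ (h2 X hX X' hX')))
  have h3 : N *ᵥ w ∈ LinearMap.ker (toLin' X) := by
    rw [LinearMap.mem_ker, toLin'_apply, mulVec_mulVec, hN, zero_mulVec]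
  rw [← e] at h3
  rw [toLin'_apply, ← mulVec_mulVec, (key _ h3).2, map_zero, LinearMap.zero_apply]

end mat

section poly

variable {ι : Type} [Fintype ι]

theorem rep (q : MvPolynomial ι ℝ ⧸ idealOfVars ι ℝ ^ 5) :
    ∃ g : MvPolynomial ι ℝ, g.totalDegree ≤ 4 ∧ Ideal.Quotient.mk _ g = q := by
  obtain ⟨p, rfl⟩ := Ideal.Quotient.mk_surjective q
  refine ⟨MvPowerSeries.truncTotal 5 (p : MvPowerSeries ι ℝ),
    Nat.lt_succ_iff.1 (MvPowerSeries.totalDegree_truncTotal_lt _ (by norm_num)), ?_⟩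
  rw [Ideal.Quotient.eq, mem_pow_idealOfVars_iff']
  intro x h
  rw [coeff_sub, sub_eq_zero, MvPowerSeries.coeff_truncTotal _ h, MvPolynomial.coeff_coe]

theorem eq_zero {g : MvPolynomial ι ℝ} (h : g.totalDegree ≤ 4)
    (h' : Ideal.Quotient.mk (idealOfVars ι ℝ ^ 5) g = 0) : g = 0 := by
  rw [Ideal.Quotient.eq_zero_iff_mem, mem_pow_idealOfVars_iff] at h'
  rw [← support_eq_empty, Finset.eq_empty_iff_forall_notMem]
  intro d hd
  have h1 : Finsupp.degree d ≤ g.totalDegree := le_totalDegree hd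
  have := h' d hd
  omega

theorem deg_aeval {φ : ι → MvPolynomial ι ℝ} (h : ∀ i, (φ i).totalDegree ≤ 1)
    (g : MvPolynomial ι ℝ) : (aeval φ g).totalDegree ≤ g.totalDegree := by
  rw [aeval_def, eval₂_eq]
  refine totalDegree_finsetSum_le fun d hd => (totalDegree_mul _ _).trans ?_
  rw [algebraMap_eq, totalDegree_C, zero_add]
  refine (totalDegree_finsetProd _ _).trans (le_trans (Finset.sum_le_sum fun i _ => ?_)
    (le_totalDegree hd))
  exact (totalDegree_pow _ _).trans (mul_le_of_le_one_right (Nat.zero_le _) (h i))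

theorem psi_eval {Q : Type} [CommRing Q] (π : MvPolynomial ι ℝ →+* Q) (Ψ : ℝ →+* Q) {a : ι → ℝ}
    {φ : ι → MvPolynomial ι ℝ} (ha : ∀ i, Ψ (a i) = π (φ i)) {g : MvPolynomial ι ℝ}
    (hg : ∀ d ∈ g.support, Ψ (g.coeff d) = π (C (g.coeff d))) : Ψ (eval a g) = π (aeval φ g) := by
  rw [eval_eq, aeval_def, eval₂_eq, map_sum, map_sum]
  refine Finset.sum_congr rfl fun d hd => ?_
  simp only [map_mul, map_prod, map_pow, ha, hg d hd, algebraMap_eq]

theorem scale_eq (Λ : MvPolynomial ι ℝ →ₗ[ℝ] ℝ) (ε : ℝ) {g : MvPolynomial ι ℝ}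
    {s : Finset (ι →₀ ℕ)} (hs : g.support ⊆ s) : Λ (aeval (fun i => C ε * X i) g) =
      ∑ μ ∈ s, ε ^ Finsupp.degree μ * Λ (monomial μ 1) * g.coeff μ := by
  have h1 : g = ∑ μ ∈ s, monomial μ (g.coeff μ) := by
    conv_lhs => rw [g.as_sum]
    exact Finset.sum_subset hs fun μ _ h => by rw [notMem_support_iff.1 h, monomial_zero]
  conv_lhs => rw [h1]
  rw [map_sum, map_sum]
  refine Finset.sum_congr rfl fun μ _ => ?_
  have h2 : aeval (fun i => C ε * X i) (monomial μ (g.coeff μ)) =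
      (ε ^ Finsupp.degree μ * g.coeff μ) • (monomial μ 1 : MvPolynomial ι ℝ) := by
    rw [aeval_monomial, monomial_eq, smul_eq_C_mul, algebraMap_eq, Finsupp.degree_apply]
    simp only [Finsupp.prod, mul_pow, Finset.prod_mul_distrib, Finset.prod_pow_eq_pow_sum, map_mul,
      map_pow, map_one]
    ring
  rw [h2, map_smul, smul_eq_mul]
  ring

variable {n : Type} [Fintype n] [DecidableEq n]

theorem absorb_poly (Λ : MvPolynomial ι ℝ →ₗ[ℝ] ℝ) {Z T : Matrix n n ℝ}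
    {E : Matrix n n (MvPolynomial ι ℝ)} (hE : Eᵀ = E) (h5 : ∀ i j, E i j ∈ idealOfVars ι ℝ ^ 5)
    (hN : E * (1 - T * Z).map C = 0) : ∃ c : ℝ, 0 ≤ c ∧ ∀ ε : ℝ, 0 < ε → ε ≤ 1 → ∀ w,
      |w ⬝ᵥ (E.map fun g => Λ (aeval (fun i => C ε * X i) g)) *ᵥ w| ≤
        c * ε ^ 5 * (w ⬝ᵥ (Zᵀ * Z) *ᵥ w) := by
  classical
  have h1 : ∀ μ : ι →₀ ℕ, ∃ C : ℝ, 0 ≤ C ∧
      ∀ w, |w ⬝ᵥ (E.map (coeff μ)) *ᵥ w| ≤ C * (w ⬝ᵥ (Zᵀ * Z) *ᵥ w) := fun μ => by
    refine absorb (T := T) (by rw [← transpose_map, hE]) ?_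
    ext i j
    have := congrArg (coeff μ) (congrFun (congrFun hN i) j)
    simpa only [mul_apply, map_apply, coeff_sum, mul_comm (E _ _), coeff_C_mul, Matrix.zero_apply,
      coeff_zero, mul_comm (coeff μ _)] using this
  choose c hc0 hc using h1
  set s : Finset (ι →₀ ℕ) := Finset.univ.biUnion fun p : n × n => (E p.1 p.2).support
  refine ⟨∑ μ ∈ s, |Λ (monomial μ 1)| * c μ,
    Finset.sum_nonneg fun μ _ => mul_nonneg (abs_nonneg _) (hc0 μ), fun ε h0 h1 w => ?_⟩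
  have e : (E.map fun g => Λ (aeval (fun i => C ε * X i) g)) =
      ∑ μ ∈ s, (ε ^ Finsupp.degree μ * Λ (monomial μ 1)) • E.map (coeff μ) := by
    ext i j
    rw [map_apply, scale_eq Λ ε (s := s) (Finset.subset_biUnion_of_mem
      (fun p : n × n => (E p.1 p.2).support) (Finset.mem_univ (i, j))), Matrix.sum_apply]
    rfl
  rw [e, sum_mulVec, dotProduct_sum, Finset.sum_mul, Finset.sum_mul]
  refine (Finset.abs_sum_le_sum_abs _ _).trans (Finset.sum_le_sum fun μ hμ => ?_)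
  obtain ⟨p, -, hp⟩ := Finset.mem_biUnion.1 hμ
  have h2 : ε ^ Finsupp.degree μ ≤ ε ^ 5 :=
    pow_le_pow_of_le_one h0.le h1 ((mem_pow_idealOfVars_iff _ _).1 (h5 p.1 p.2) μ hp)
  rw [smul_mulVec, dotProduct_smul, smul_eq_mul, abs_mul, abs_mul, abs_of_pos (pow_pos h0 _)]
  calc _ ≤ ε ^ 5 * |Λ (monomial μ 1)| * (c μ * (w ⬝ᵥ (Zᵀ * Z) *ᵥ w)) := by gcongr; exact hc μ w
    _ = _ := by ring

theorem psd_sq (L : MvPolynomial ι ℝ →ₗ[ℝ] ℝ)
    (hL : ∀ g : MvPolynomial ι ℝ, g.totalDegree ≤ 4 → 0 ≤ L (g ^ 2))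
    {Z : Matrix n n (MvPolynomial ι ℝ)} (hZ : ∀ i j, (Z i j).totalDegree ≤ 4) (w : n → ℝ) :
    0 ≤ w ⬝ᵥ ((Zᵀ * Z).map L) *ᵥ w := by
  have e : w ⬝ᵥ ((Zᵀ * Z).map L) *ᵥ w = ∑ l, L ((∑ i, w i • Z l i) ^ 2) := by
    simp only [sq, Finset.sum_mul_sum]
    simp only [dotProduct, mulVec, map_apply, mul_apply, transpose_apply, map_sum,
      smul_mul_smul_comm, map_smul, smul_eq_mul, Finset.mul_sum, Finset.sum_mul]
    refine Eq.trans ?_ Finset.sum_comm
    refine Finset.sum_congr rfl fun i _ => Finset.sum_comm.trans ?_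
    exact Finset.sum_congr rfl fun l _ => Finset.sum_congr rfl fun j _ => by ring
  rw [e]
  exact Finset.sum_nonneg fun l _ => hL _ (totalDegree_finsetSum_le fun i _ =>
    (totalDegree_smul_le _ _).trans (hZ l i))

theorem mul_eq_zero {P : Matrix n n (MvPolynomial ι ℝ)} (hP : ∀ i j, (P i j).totalDegree ≤ 4)
    {Ψ : ℝ →+* MvPolynomial ι ℝ ⧸ idealOfVars ι ℝ ^ 5} {X N : Matrix n n ℝ}
    (h1 : P.map (Ideal.Quotient.mk _) = X.map Ψ)
    (h2 : ∀ i j, Ψ (N i j) = Ideal.Quotient.mk _ (C (N i j))) (h : X * N = 0) :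
    P * N.map C = 0 := by
  have h3 : (N.map C).map (Ideal.Quotient.mk (idealOfVars ι ℝ ^ 5)) = N.map Ψ := by
    ext i j; exact (h2 i j).symm
  have h4 : (P * N.map C).map (Ideal.Quotient.mk (idealOfVars ι ℝ ^ 5)) = 0 := by
    rw [Matrix.map_mul, h1, h3, ← Matrix.map_mul, h, Matrix.map_zero _ (map_zero Ψ)]
  ext1 i j
  refine eq_zero (totalDegree_finsetSum_le fun l _ => (totalDegree_mul _ _).trans ?_)
    (congrFun (congrFun h4 i) j)
  exact (congrArg (_ + ·) (totalDegree_C (N l j))).le.trans (hP i l)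

end poly

end CritAux

theorem crit {ι σ : Type} [Fintype ι] [Fintype σ] (u : σ → MvPolynomial ι ℝ)
    (hu : ∀ v, (u v).totalDegree ≤ 4) {K : Set (σ → ℝ)} (hK : Shadow K)
    (hd : ∀ a : ι → ℝ, (fun v => eval a (u v)) ∈ K) (f : MvPolynomial ι ℝ)
    (hξ : ∀ a : ι → ℝ, ∃ ξ : ℝ → σ → ℝ, Continuous ξ ∧ ∀ ε : ℝ, 0 < ε →
      (∀ x ∈ K, 0 ≤ ∑ v, ξ ε v * x v) ∧ ∀ z : ι → ℝ,
        ∑ v, ξ ε v * eval (fun i => a i + ε * z i) (u v) = ε ^ 4 * eval z f)
    (Λ : MvPolynomial ι ℝ →ₗ[ℝ] ℝ)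
    (hΛ : ∀ g : MvPolynomial ι ℝ, g.totalDegree ≤ 4 → 0 ≤ Λ (g ^ 2)) (h1 : 0 < Λ 1) :
    0 ≤ Λ f := by
  obtain ⟨k, m, A₀, A, B, hA₀, hA, hB, rfl⟩ := hK
  -- a point of maximal rank
  obtain ⟨_, ⟨hX, x₀, y₀, rfl⟩, hmax⟩ := CritAux.maxrank
    (S := {M | M.PosSemidef ∧ ∃ (x : σ → ℝ) (y : Fin m → ℝ),
      A₀ + ∑ i, x i • A i + ∑ j, y j • B j = M})
    (let ⟨y, hy⟩ := hd 0; ⟨_, hy, _, y, rfl⟩) (fun _ h => h.1) (by
      rintro _ ⟨h, x, y, rfl⟩ _ ⟨h', x', y', rfl⟩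
      refine ⟨(h.add h').smul (by norm_num), fun i => (1 / 2) * (x i + x' i),
        fun j => (1 / 2) * (y j + y' j), ?_⟩
      simp only [mul_smul, add_smul, ← Finset.smul_sum, Finset.sum_add_distrib]
      module)
  obtain ⟨Z₀, hZ₀⟩ := CritAux.fac hX
  obtain ⟨T, hT⟩ := CritAux.ginv Z₀
  have hN : (A₀ + ∑ i, x₀ i • A i + ∑ j, y₀ j • B j) * (1 - T * Z₀) = 0 := by
    rw [hZ₀, Matrix.mul_assoc, Matrix.mul_sub, Matrix.mul_one, ← Matrix.mul_assoc Z₀, hT, sub_self,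
      Matrix.mul_zero]
  -- the Taylor expansion
  obtain ⟨a, Ψ, hΨ, ha⟩ := exists_taylor ι (s := (Set.range fun p : Fin k × Fin k => A₀ p.1 p.2) ∪
      (Set.range fun p : σ × Fin k × Fin k => A p.1 p.2.1 p.2.2) ∪
      (Set.range fun p : Fin m × Fin k × Fin k => B p.1 p.2.1 p.2.2) ∪
      (Set.range fun p : Fin k × Fin k => (1 - T * Z₀) p.1 p.2) ∪
      ⋃ v, (u v).coeff '' (u v).support)
    (((((Set.finite_range _).union (Set.finite_range _)).union (Set.finite_range _)).union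
      (Set.finite_range _)).union
        (Set.finite_iUnion fun v => (u v).support.finite_toSet.image _)) 5
  have p0 : ∀ i j, Ψ (A₀ i j) = Ideal.Quotient.mk _ (C (A₀ i j)) := fun i j =>
    hΨ _ (.inl (.inl (.inl (.inl ⟨(i, j), rfl⟩))))
  have p1 : ∀ v i j, Ψ (A v i j) = Ideal.Quotient.mk _ (C (A v i j)) := fun v i j =>
    hΨ _ (.inl (.inl (.inl (.inr ⟨(v, i, j), rfl⟩))))
  have p2 : ∀ v i j, Ψ (B v i j) = Ideal.Quotient.mk _ (C (B v i j)) := fun v i j =>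
    hΨ _ (.inl (.inl (.inr ⟨(v, i, j), rfl⟩)))
  have p3 : ∀ i j, Ψ ((1 - T * Z₀) i j) = Ideal.Quotient.mk _ (C ((1 - T * Z₀) i j)) := fun i j =>
    hΨ _ (.inl (.inr ⟨(i, j), rfl⟩))
  set U : σ → MvPolynomial ι ℝ := fun v => aeval (fun i => C (a i) + X i) (u v) with hU
  have p4 : ∀ v, Ψ (eval a (u v)) = Ideal.Quotient.mk _ (U v) := fun v =>
    CritAux.psi_eval _ Ψ ha fun d hd => hΨ _ (.inr (Set.mem_iUnion.2 ⟨v, d, hd, rfl⟩))
  have dU : ∀ v, (U v).totalDegree ≤ 4 := fun v => (CritAux.deg_aeval (fun i =>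
    (totalDegree_add _ _).trans (by simp)) _).trans (hu v)
  obtain ⟨y, hy⟩ := hd a
  obtain ⟨Z, hZ⟩ := CritAux.fac hy
  have hN1 := hmax _ ⟨hy, _, y, rfl⟩ _ hN
  have hN2 : Z * (1 - T * Z₀) = 0 := by
    rwa [hZ, ← conjTranspose_eq_transpose_of_trivial, conjTranspose_mul_self_mul_eq_zero] at hN1
  choose V dV hV using fun j => CritAux.rep (Ψ (y j))
  choose W dW hW using fun i j => CritAux.rep (Ψ (Z i j))
  set P : Matrix (Fin k) (Fin k) (MvPolynomial ι ℝ) := Matrix.of fun i j =>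
    A₀ i j • 1 + ∑ v, A v i j • U v + ∑ l, B l i j • V l with hP
  have dP : ∀ i j, (P i j).totalDegree ≤ 4 := fun i j =>
    (totalDegree_add _ _).trans (max_le ((totalDegree_add _ _).trans (max_le
      ((totalDegree_smul_le _ _).trans (by simp))
      (totalDegree_finsetSum_le fun v _ => (totalDegree_smul_le _ _).trans (dU v))))
      (totalDegree_finsetSum_le fun v _ => (totalDegree_smul_le _ _).trans (dV v)))
  have mP : P.map (Ideal.Quotient.mk _) =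
      (A₀ + ∑ v, eval a (u v) • A v + ∑ j, y j • B j).map Ψ := by
    ext i j
    simp only [hP, map_apply, of_apply, Matrix.add_apply, Matrix.sum_apply, Matrix.smul_apply,
      smul_eq_mul, smul_eq_C_mul, map_add, map_sum, map_mul, p0, p1, p2, p4, hV, map_one, one_mul,
      mul_comm]
  have mW : (Matrix.of W).map (Ideal.Quotient.mk _) = Z.map Ψ := by
    ext i j; exact hW i j
  obtain ⟨c, hc0, hc⟩ := CritAux.absorb_poly Λ (Z := Z₀) (T := T)
    (E := P - (Matrix.of W)ᵀ * Matrix.of W) (by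
      rw [transpose_sub, transpose_mul, transpose_transpose]
      congr 1
      ext1 i j
      simp only [hP, transpose_apply, of_apply, hA₀.apply i j, fun v => (hA v).apply i j,
        fun v => (hB v).apply i j]) (fun i j => by
      rw [← Ideal.Quotient.eq_zero_iff_mem]
      have : (P - (Matrix.of W)ᵀ * Matrix.of W).map (Ideal.Quotient.mk (idealOfVars ι ℝ ^ 5)) = 0 := by
        rw [Matrix.map_sub _ (map_sub _), Matrix.map_mul, transpose_map, mP, mW, hZ, Matrix.map_mul,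
          transpose_map, sub_self]
      exact congrFun (congrFun this i) j) (by
      rw [Matrix.sub_mul, Matrix.mul_assoc, CritAux.mul_eq_zero dP mP p3 hN1,
        CritAux.mul_eq_zero (P := Matrix.of W) dW mW p3 hN2, Matrix.mul_zero, sub_self])
  rw [← hZ₀] at hc
  obtain ⟨ξ, hξc, hξ⟩ := hξ a
  have main : ∀ ε : ℝ, 0 < ε → ε ≤ 1 → 0 ≤ Λ f + c * ε * ∑ v, ξ ε v * x₀ v := fun ε h0 h1' => by
    set L : MvPolynomial ι ℝ →ₗ[ℝ] ℝ := Λ ∘ₗ (aeval fun i => C ε * X i).toLinearMap with hL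
    have hL1 : L 1 = Λ 1 := by simp [hL]
    have hsq := CritAux.psd_sq L (fun g hg => by
      have := hΛ _ ((CritAux.deg_aeval (φ := fun i => C ε * X i) (fun i =>
        (totalDegree_mul _ _).trans (by simp)) g).trans hg)
      simpa [hL] using this) (Z := Matrix.of W) dW
    have hd0 : 0 < Λ 1 + c * ε ^ 5 := by positivity
    have e1 : P.map L = Λ 1 • A₀ + ∑ v, L (U v) • A v + ∑ l, L (V l) • B l := by
      ext i j
      simp only [hP, map_apply, of_apply, Matrix.add_apply, Matrix.sum_apply, Matrix.smul_apply,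
        smul_eq_mul, map_add, map_sum, map_smul, hL1, mul_comm]
    have e2 : A₀ + ∑ v, ((Λ 1 + c * ε ^ 5)⁻¹ * (L (U v) + c * ε ^ 5 * x₀ v)) • A v +
        ∑ l, ((Λ 1 + c * ε ^ 5)⁻¹ * (L (V l) + c * ε ^ 5 * y₀ l)) • B l =
        (Λ 1 + c * ε ^ 5)⁻¹ •
          (P.map L + (c * ε ^ 5) • (A₀ + ∑ i, x₀ i • A i + ∑ j, y₀ j • B j)) := by
      rw [e1]
      generalize c * ε ^ 5 = t at hd0 ⊢
      simp only [mul_smul, add_smul, ← Finset.smul_sum, Finset.sum_add_distrib]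
      match_scalars <;> field_simp
    have hmem := (hξ ε h0).1 (fun v => (Λ 1 + c * ε ^ 5)⁻¹ * (L (U v) + c * ε ^ 5 * x₀ v))
      ⟨fun l => (Λ 1 + c * ε ^ 5)⁻¹ * (L (V l) + c * ε ^ 5 * y₀ l), .of_dotProduct_mulVec_nonneg (by
        simp only [IsHermitian, conjTranspose_eq_transpose_of_trivial, transpose_add, transpose_sum,
          transpose_smul, hA₀.eq, fun v => (hA v).eq, fun v => (hB v).eq]) fun w => by
        rw [e2, star_trivial, smul_mulVec, dotProduct_smul, add_mulVec, dotProduct_add,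
          smul_mulVec, dotProduct_smul, smul_eq_mul, smul_eq_mul]
        refine mul_nonneg (inv_pos.2 hd0).le ?_
        have q1 := (abs_le.1 (hc ε h0 h1' w)).1
        have q2 := hsq w
        change _ ≤ w ⬝ᵥ ((P - (Matrix.of W)ᵀ * Matrix.of W).map L) *ᵥ w at q1
        rw [Matrix.map_sub _ (map_sub _), sub_mulVec, dotProduct_sub] at q1
        linarith⟩
    have e3 : ∑ v, ξ ε v • aeval (fun i => C ε * X i) (U v) = ε ^ 4 • f := by
      refine MvPolynomial.funext fun z => ?_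
      rw [smul_eval, ← (hξ ε h0).2 z, map_sum]
      refine Finset.sum_congr rfl fun v _ => ?_
      rw [smul_eval, hU, comp_aeval_apply, ← aeval_eq_eval, ← aeval_eq_eval, comp_aeval_apply]
      simp
    have e4 : ∑ v, ξ ε v * L (U v) = ε ^ 4 * Λ f := by
      have := congrArg Λ e3
      simpa [hL] using this
    have e5 : ∑ v, ξ ε v * ((Λ 1 + c * ε ^ 5)⁻¹ * (L (U v) + c * ε ^ 5 * x₀ v)) =
        (Λ 1 + c * ε ^ 5)⁻¹ * ε ^ 4 * (Λ f + c * ε * ∑ v, ξ ε v * x₀ v) := by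
      rw [mul_assoc, mul_add, ← e4, Finset.mul_sum, Finset.mul_sum, ← Finset.sum_add_distrib,
        Finset.mul_sum]
      exact Finset.sum_congr rfl fun v _ => by ring
    rw [e5] at hmem
    exact nonneg_of_mul_nonneg_right hmem (by positivity)
  have hcont : Continuous fun ε : ℝ => Λ f + c * ε * ∑ v, ξ ε v * x₀ v := by fun_prop
  have ht := (hcont.tendsto 0).mono_left (nhdsWithin_le_nhds (s := Set.Ioi 0))
  rw [mul_zero, zero_mul, add_zero] at ht
  exact ge_of_tendsto ht (Filter.mem_of_superset (Ioc_mem_nhdsGT one_pos) fun ε h => main ε h.1 h.2)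


end Crest.Agent.R237
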