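import Mathlib
import Crest.Prelude.Def_Hyperbolic

/-!
# Row 237 (hyperbolicity cones): definitions

Part A (`S0367`): a translation invariant hyperbolicity cone in the space of moments of degree `≤ 4`.
Part B (`S0368`): a cone in 13 of the 23 variables built from the Choi–Lam form.
DO NOT change a definition of this file.
-/

set_option autoImplicit false

noncomputable section

namespace Crest.Agent.R237

open MvPolynomial Matrix

section general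

variable {σ : Type}

/-- `IsHyperbolic` for an arbitrary index type. -/
def Hyp (p : MvPolynomial σ ℝ) (e : σ → ℝ) : Prop :=
  (∃ d : ℕ, p.IsHomogeneous d) ∧ 0 < eval e p ∧
    ∀ (x : σ → ℝ) (z : ℂ), aeval (fun i => z * (e i : ℂ) - (x i : ℂ)) p = 0 → z.im = 0

/-- `closedCone` for an arbitrary index type. -/
def Cone (p : MvPolynomial σ ℝ) (e : σ → ℝ) : Set (σ → ℝ) :=
  {x | ∀ t : ℝ, eval (fun i => t * e i - x i) p = 0 → 0 ≤ t}

/-- `IsSpectrahedralShadow` for an arbitrary finite index type. -/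
def Shadow [Fintype σ] (S : Set (σ → ℝ)) : Prop :=
  ∃ (k a : ℕ) (A₀ : Matrix (Fin k) (Fin k) ℝ) (A : σ → Matrix (Fin k) (Fin k) ℝ)
    (B : Fin a → Matrix (Fin k) (Fin k) ℝ),
    A₀.IsSymm ∧ (∀ i, (A i).IsSymm) ∧ (∀ j, (B j).IsSymm) ∧
    S = {x | ∃ u : Fin a → ℝ, (A₀ + ∑ i, x i • A i + ∑ j, u j • B j).PosSemidef}

end general

/-! ## Part A -/

section partA

/-- The variables: `inl 0 = L(1)`, `inl 1 = L(c)`, `inl 2 = L(|x|⁴)`, `L(xᵢ)`, `L(|x|² xᵢ)`,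
and half of the second moments. -/
abbrev Var (ι : Type) : Type := Fin 3 ⊕ ι ⊕ ι ⊕ ι × ι

/-- The index set of the quadratic form: `inl 0 = σ`, `inl 1 = λ`, `inr i = bᵢ`. -/
abbrev Idx (ι : Type) : Type := Fin 2 ⊕ ι

variable {ι : Type} [Fintype ι] {R : Type} [CommRing R] [Algebra ℝ R]

/-- Symmetric 3-tensors. -/
def Sym3 (C : ι → ι → ι → ℝ) : Prop := (∀ i j k, C i j k = C j i k) ∧ ∀ i j k, C i j k = C i k j

/-- The trilinear form of a tensor. -/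
def c3 (C : ι → ι → ι → ℝ) (u v w : ι → R) : R :=
  ∑ i, ∑ j, ∑ k, algebraMap ℝ R (C i j k) * (u i * v j * w k)

/-- The tensor paired with a vector and a matrix. -/
def cM (C : ι → ι → ι → ℝ) (u : ι → R) (M : ι → ι → R) : R :=
  ∑ i, ∑ j, ∑ k, algebraMap ℝ R (C i j k) * (u i * M j k)

/-- Injective norm at most one. -/
def Inj (C : ι → ι → ι → ℝ) : Prop :=
  ∀ u h : ι → ℝ, c3 C u h h ^ 2 ≤ (u ⬝ᵥ u) * (h ⬝ᵥ h) ^ 2

def m0 (L : Var ι → R) : R := L (.inl 0)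
def sv (L : Var ι → R) : R := L (.inl 1)
def yv (L : Var ι → R) : R := L (.inl 2)
def m1 (L : Var ι → R) (i : ι) : R := L (.inr (.inl i))
def tv (L : Var ι → R) (i : ι) : R := L (.inr (.inr (.inl i)))
def m2 (L : Var ι → R) (i j : ι) : R := L (.inr (.inr (.inr (i, j)))) + L (.inr (.inr (.inr (j, i))))

/-- `m₀ m₂ - m₁ m₁ᵀ`. -/
def Hm (L : Var ι → R) (i j : ι) : R := m0 L * m2 L i j - m1 L i * m1 L j

/-- The trace of `Hm`. -/
def Tr (L : Var ι → R) : R := ∑ i, Hm L i i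

/-- The trace of the square of `Hm`. -/
def H2 (L : Var ι → R) : R := ∑ i, ∑ j, Hm L i j * Hm L i j

/-- The square of `Hm`. -/
def HH (L : Var ι → R) (i j : ι) : R := ∑ k, Hm L i k * Hm L k j

/-- The bilinear form of a matrix. -/
def qf (u : ι → R) (M : ι → ι → R) (v : ι → R) : R := ∑ i, ∑ j, u i * M i j * v j

def sg (ζ : Idx ι → R) : R := ζ (.inl 0)
def lm (ζ : Idx ι → R) : R := ζ (.inl 1)
def bv (ζ : Idx ι → R) (i : ι) : R := ζ (.inr i)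

/-- `σ m₁ - m₀ b`. -/
def Vv (L : Var ι → R) (ζ : Idx ι → R) (i : ι) : R := sg ζ * m1 L i - bv ζ i * m0 L

def LF (C : ι → ι → ι → ℝ) (L : Var ι → R) (ζ : Idx ι → R) : R :=
  30 * sg ζ ^ 2 * yv L - 120 * sg ζ * (bv ζ ⬝ᵥ tv L) +
    30 * (2 * (bv ζ ⬝ᵥ bv ζ) * ∑ i, m2 L i i + 4 * qf (bv ζ) (m2 L) (bv ζ)) -
    2 * sg ζ * lm ζ * sv L + 6 * lm ζ * cM C (bv ζ) (m2 L) + 6 * lm ζ ^ 2 * ∑ i, m2 L i i

def FH (C : ι → ι → ι → ℝ) (L : Var ι → R) (ζ : Idx ι → R) : R :=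
  30 * sg ζ ^ 2 * (m1 L ⬝ᵥ m1 L) ^ 2 - 120 * m0 L * sg ζ * (bv ζ ⬝ᵥ m1 L) * (m1 L ⬝ᵥ m1 L) +
    30 * m0 L ^ 2 * (2 * (bv ζ ⬝ᵥ bv ζ) * (m1 L ⬝ᵥ m1 L) + 4 * (bv ζ ⬝ᵥ m1 L) ^ 2) -
    2 * m0 L * sg ζ * lm ζ * c3 C (m1 L) (m1 L) (m1 L) +
    6 * m0 L ^ 2 * lm ζ * c3 C (bv ζ) (m1 L) (m1 L) + 6 * m0 L ^ 2 * lm ζ ^ 2 * (m1 L ⬝ᵥ m1 L)

/-- The part which is not divisible by `Tr`. -/
def Br (C : ι → ι → ι → ℝ) (L : Var ι → R) (ζ : Idx ι → R) : R :=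
  4 * (Vv L ζ ⬝ᵥ Vv L ζ) * H2 L - 2 * m0 L * lm ζ * cM C (Vv L ζ) (HH L) +
    m0 L ^ 2 * lm ζ ^ 2 * H2 L

/-- The quadratic form in `ζ` (multiplied by the denominator `m₀³ Tr`); degree `6` in `L`. -/
def Eh (C : ι → ι → ι → ℝ) (L : Var ι → R) (ζ : Idx ι → R) : R :=
  m0 L ^ 3 * Tr L * LF C L ζ - Tr L * FH C L ζ -
    Tr L * (sg ζ ^ 2 * (24 * Tr L ^ 2 + 6 * H2 L) + 52 * (Vv L ζ ⬝ᵥ Vv L ζ) * Tr L +
      4 * qf (Vv L ζ) (Hm L) (Vv L ζ)) - Br C L ζ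

/-- The moments of the Dirac measure at `x`. -/
def dirac (C : ι → ι → ι → ℝ) (x : ι → R) : Var ι → R :=
  Sum.elim ![1, c3 C x x x, (x ⬝ᵥ x) ^ 2]
    (Sum.elim x (Sum.elim (fun i => (x ⬝ᵥ x) * x i)
      fun q => algebraMap ℝ R (1 / 2) * (x q.1 * x q.2)))

/-- The direction of hyperbolicity. -/
def ev (ι : Type) [Fintype ι] [DecidableEq ι] : Var ι → ℝ :=
  Sum.elim ![Fintype.card ι, 0, Fintype.card ι + 1]
    (Sum.elim (fun _ => 0) (Sum.elim (fun _ => 0) fun q => if q.1 = q.2 then 1 / 2 else 0))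

/-- The complex line `L₀ + ε e / n`. -/
def line [DecidableEq ι] (L₀ : Var ι → ℝ) (ε : ℂ) (v : Var ι) : ℂ :=
  (L₀ v : ℂ) + ε * ((ev ι v / Fintype.card ι : ℝ) : ℂ)

/-- The matrix `σ A - b hᵀ - h bᵀ`. -/
def Ap (L : Var ι → ℝ) (ζ : Idx ι → ℝ) (i j : ι) : ℝ :=
  sg ζ * m2 L i j - bv ζ i * m1 L j - m1 L i * bv ζ j

/-- The lowest coefficient of `Eh` along `line`. -/
def Nzero (C : ι → ι → ι → ℝ) (L : Var ι → ℝ) (ζ : Idx ι → ℝ) : ℝ :=
  (m1 L ⬝ᵥ m1 L) * (20 * (∑ i, Ap L ζ i i) ^ 2 + 2 * ∑ i, ∑ j, Ap L ζ i j * Ap L ζ i j) +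
    8 * (∑ i, Ap L ζ i i) * qf (m1 L) (Ap L ζ) (m1 L) -
    2 * lm ζ * (2 * c3 C (fun i => ∑ j, Ap L ζ i j * m1 L j) (m1 L) (m1 L) -
      c3 C (m1 L) (m1 L) (m1 L) * ∑ i, Ap L ζ i i) +
    5 * (m1 L ⬝ᵥ m1 L) ^ 2 * lm ζ ^ 2

/-- The highest coefficient of `Eh` along `line`. -/
def Nfour (C : ι → ι → ι → ℝ) (ζ : Idx ι → ℝ) : ℝ :=
  sg ζ ^ 2 * (6 + 24 / Fintype.card ι) + (bv ζ ⬝ᵥ bv ζ) * (8 + 112 / Fintype.card ι) +
    lm ζ ^ 2 * (6 - 1 / Fintype.card ι) +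
    lm ζ * (∑ i, ∑ j, C i j j * bv ζ i) / Fintype.card ι * (6 - 2 / Fintype.card ι)

/-- The quartic `30 |x|⁴ - 2 λ c(x) + 6 λ² |x|²`. -/
def fpol (C : ι → ι → ι → ℝ) (x : ι → R) (lam : R) : R :=
  30 * (x ⬝ᵥ x) ^ 2 - 2 * lam * c3 C x x x + 6 * lam ^ 2 * (x ⬝ᵥ x)

/-- The linear functional `L ↦ L (fpol (x - b) λ)`. -/
def xi (C : ι → ι → ι → ℝ) (b : ι → ℝ) (lam : ℝ) (L : Var ι → ℝ) : ℝ :=
  30 * (yv L - 4 * (b ⬝ᵥ tv L) + 2 * (b ⬝ᵥ b) * ∑ i, m2 L i i + 4 * qf b (m2 L) b -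
      4 * (b ⬝ᵥ b) * (b ⬝ᵥ m1 L) + (b ⬝ᵥ b) ^ 2 * m0 L) -
    2 * lam * (sv L - 3 * cM C b (m2 L) + 3 * c3 C b b (m1 L) - c3 C b b b * m0 L) +
    6 * lam ^ 2 * (∑ i, m2 L i i - 2 * (b ⬝ᵥ m1 L) + (b ⬝ᵥ b) * m0 L)

/-- The sign of a bit. -/
def sgn (b : Bool) : ℝ := if b then 1 else -1

/-- Sign tensors. -/
abbrev Ten (d : ℕ) : Type := Fin d → Fin d → Fin d → Bool

/-- The injective norm of the sign tensor is at most `√(c d)`. -/
def Good (c : ℝ) {d : ℕ} (T : Ten d) : Prop :=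
  ∀ x y z : Fin d → ℝ, (∑ i, ∑ j, ∑ k, sgn (T i j k) * (x i * y j * z k)) ^ 2 ≤
    c * d * ((x ⬝ᵥ x) * (y ⬝ᵥ y) * (z ⬝ᵥ z))

/-- The slices of a sign tensor. -/
def sl {d : ℕ} (T : Ten d) (i : Fin d) : Matrix (Fin d) (Fin d) ℝ := Matrix.of fun j k => sgn (T i j k)

/-- The eighth moment. -/
def mom {d : ℕ} (T : Ten d) : ℝ :=
  ∑ i, ∑ j, ∑ k, ∑ l, (sl T i * (sl T j)ᵀ * sl T k * (sl T l)ᵀ).trace ^ 2

end partA

/-! ## Part B -/

section partB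

variable {R : Type} [CommRing R]

/-- Twice the Choi–Lam form. -/
def bq (y d : Fin 3 → R) : R :=
  2 * (y 0 ^ 2 * (d 0 ^ 2 + d 1 ^ 2) + y 1 ^ 2 * (d 1 ^ 2 + d 2 ^ 2) + y 2 ^ 2 * (d 2 ^ 2 + d 0 ^ 2) -
    2 * (y 0 * y 1 * d 0 * d 1 + y 0 * y 2 * d 0 * d 2 + y 1 * y 2 * d 1 * d 2))

/-- `(x, a, α)`. -/
abbrev Lor : Type := ℝ × (Fin 3 → ℝ) × ℝ

/-- `α - |a|² / x - κ |y|² / x'`. -/
def ff (κ : ℝ) (X : Lor) (x' : ℝ) (y : Fin 3 → ℝ) : ℝ :=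
  X.2.2 - X.2.1 ⬝ᵥ X.2.1 / X.1 - κ * (y ⬝ᵥ y) / x'

/-- The part of the cone with `x₁, x₂ > 0`. -/
def KoP (κ : ℝ) (X Z : Lor) (y : Fin 3 → ℝ) : Prop :=
  0 < X.1 ∧ 0 < Z.1 ∧ κ * (y ⬝ᵥ y) / Z.1 ≤ ff κ X Z.1 y ∧ κ * (y ⬝ᵥ y) / X.1 ≤ ff κ Z X.1 y ∧
    bq y (fun i => X.2.1 i / X.1 - Z.2.1 i / Z.1) ≤ ff κ X Z.1 y * ff κ Z X.1 y

/-- `x₁, x₂`. -/
def xs (x : Fin 23 → R) : Fin 2 → R := ![x 0, x 1]
/-- `α, α'`. -/
def al (x : Fin 23 → R) : Fin 2 → R := ![x 2, x 3]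
/-- `a, a'`. -/
def av (x : Fin 23 → R) : Fin 2 → Fin 3 → R := ![![x 4, x 5, x 6], ![x 7, x 8, x 9]]
/-- `y`. -/
def yy (x : Fin 23 → R) : Fin 3 → R := ![x 10, x 11, x 12]

def Ko (κ : ℝ) (x : Fin 23 → ℝ) : Prop :=
  KoP κ (xs x 0, av x 0, al x 0) (xs x 1, av x 1, al x 1) (yy x)

/-- The point with the given coordinates. -/
def pt (X Z : Lor) (y : Fin 3 → ℝ) : Fin 23 → ℝ :=
  ![X.1, Z.1, X.2.2, Z.2.2, X.2.1 0, X.2.1 1, X.2.1 2, Z.2.1 0, Z.2.1 1, Z.2.1 2, y 0, y 1, y 2,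
    0, 0, 0, 0, 0, 0, 0, 0, 0, 0]

/-- The direction of hyperbolicity. -/
def eB : Fin 23 → ℝ := pt (1, 0, 1) (1, 0, 1) 0

/-- A boundary direction. -/
def eB0 : Fin 23 → ℝ := pt (1, 0, 0) (1, 0, 0) 0

variable [Algebra ℝ R]

/-- `x₁ x₂ f` (with the constant `κ`). -/
def F0 (κ : ℝ) (x : Fin 23 → R) : R :=
  xs x 0 * xs x 1 * al x 0 - xs x 1 * (av x 0 ⬝ᵥ av x 0) - algebraMap ℝ R κ * xs x 0 * (yy x ⬝ᵥ yy x)

/-- `x₁ x₂ f'`. -/
def F1 (κ : ℝ) (x : Fin 23 → R) : R :=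
  xs x 0 * xs x 1 * al x 1 - xs x 0 * (av x 1 ⬝ᵥ av x 1) - algebraMap ℝ R κ * xs x 1 * (yy x ⬝ᵥ yy x)

/-- The sextic. -/
def P6 (κ : ℝ) (x : Fin 23 → R) : R :=
  F0 κ x * F1 κ x - bq (yy x) fun i => xs x 1 * av x 0 i - xs x 0 * av x 1 i

/-- The polynomial of degree `16`. -/
def q16 (κ : ℝ) (x : Fin 23 → R) : R :=
  xs x 0 ^ 2 * xs x 1 ^ 2 * F0 (2 * κ) x * F1 (2 * κ) x * P6 κ x

/-- The polynomial of degree `20`. -/
def p20 (κ : ℝ) (x : Fin 23 → R) : R := xs x 0 ^ 2 * xs x 1 ^ 2 * q16 κ x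

abbrev M3 : Type := Fin 3 → Fin 3 → ℝ

/-- The auxiliary variables (dimension `297`). -/
abbrev Aux : Type := (Fin 2 → M3) × (Fin 2 → Fin 3 → M3) × (Fin 3 → M3) ×
  (Fin 2 → Fin 3 → Fin 3 → M3) × (Fin 2 → M3) × (Fin 2 → M3)

/-- `xₛ φ φᵀ`. -/
def aG (v : Aux) : Fin 2 → M3 := v.1
/-- `aₛⱼ φ φᵀ`. -/
def aH (v : Aux) : Fin 2 → Fin 3 → M3 := v.2.1
/-- `yᵢ φ φᵀ`. -/
def aW (v : Aux) : Fin 3 → M3 := v.2.2.1
/-- `aₛⱼ yᵢ φ φᵀ / xₛ`. -/
def aT (v : Aux) : Fin 2 → Fin 3 → Fin 3 → M3 := v.2.2.2.1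
/-- `aₛ aₛᵀ / xₛ`. -/
def aU (v : Aux) : Fin 2 → M3 := v.2.2.2.2.1
/-- `y yᵀ / xₛ`. -/
def aY (v : Aux) : Fin 2 → M3 := v.2.2.2.2.2

/-- The bordered matrix `[[x, aᵀ], [a, U]]`. -/
def bord (x : ℝ) (a : Fin 3 → ℝ) (U : M3) (j j' : Option (Fin 3)) : ℝ :=
  j.elim (j'.elim x a) fun k => j'.elim (a k) (U k)

/-- The cross terms. -/
def Gam (v : Aux) (s : Fin 2) (j i : Option (Fin 3)) : M3 :=
  j.elim (i.elim (aG v s) (aW v)) fun k => i.elim (aH v s k) (aT v s k)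

/-- The quadratic form of the block of size `27`. -/
def blk (x : Fin 23 → ℝ) (v : Aux) (s : Fin 2) (p q : Option (Fin 3) → Fin 3 → ℝ)
    (w : Fin 3 → ℝ) : ℝ :=
  ∑ a, ∑ j, ∑ j', p j a * p j' a * bord (xs x s) (av x s) (aU v s) j j' +
    ∑ b, ∑ i, ∑ i', q i b * q i' b * bord (xs x s) (yy x) (aY v s) i i' +
    ∑ c, ∑ c', w c * w c' * aG v s c c' +
    2 * ∑ j, ∑ a, ∑ i, ∑ b, p j a * q i b * Gam v s j i a b +
    2 * ∑ j, ∑ a, ∑ c, p j a * w c * Gam v s j none a c +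
    2 * ∑ i, ∑ b, ∑ c, q i b * w c * Gam v s none i c b

/-- The twelve linear forms with `∑ᵣ Sq (yᵢ dₐ d_b) r ^ 2 = |d|² bq y d`. -/
def Sq (N : Fin 3 → Fin 3 → Fin 3 → ℝ) : Fin 12 → ℝ :=
  ![N 0 0 0 - N 1 0 1, N 0 1 1 - N 2 0 2, N 0 0 0 - N 1 0 1 + N 0 1 1 - N 2 0 2,
    N 1 1 1 - N 2 1 2, N 1 2 2 - N 0 0 1, N 1 1 1 - N 2 1 2 + N 1 2 2 - N 0 0 1,
    N 2 2 2 - N 0 0 2, N 2 0 0 - N 1 1 2, N 2 2 2 - N 0 0 2 + N 2 0 0 - N 1 1 2,
    N 0 1 2 - N 1 0 2, N 1 0 2 - N 2 0 1, N 2 0 1 - N 0 1 2]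

/-- `yᵢ φₐ φ_b d_c`. -/
def NN (v : Aux) (c i a b : Fin 3) : ℝ := aT v 0 c i a b - aT v 1 c i a b

/-- The lifted `f`, `f'`. -/
def fh (κ : ℝ) (x : Fin 23 → ℝ) (v : Aux) (s : Fin 2) : ℝ :=
  al x s - ∑ j, aU v s j j - κ * ∑ i, aY v (1 - s) i i

/-- The linear constraints. -/
def Con (x : Fin 23 → ℝ) (v : Aux) : Prop :=
  (∀ s a b, aG v s a b = aG v s b a) ∧ (∀ s j a b, aH v s j a b = aH v s j b a) ∧
    (∀ i a b, aW v i a b = aW v i b a) ∧ (∀ s a b, aU v s a b = aU v s b a) ∧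
    (∀ s a b, aY v s a b = aY v s b a) ∧ (∀ c i a b, NN v c i a b = NN v b i a c) ∧
    (∀ s, ∑ a, aG v s a a = xs x s) ∧ (∀ s j, ∑ a, aH v s j a a = av x s j) ∧
    ∀ i, ∑ a, aW v i a a = yy x i

/-- The lifted cone. -/
def Lft (κ : ℝ) (x : Fin 23 → ℝ) (v : Aux) : Prop :=
  Con x v ∧ (∀ s p q w, 0 ≤ blk x v s p q w) ∧
    (∀ (p : Fin 3 → ℝ) (q : Fin 12 → ℝ), 0 ≤ fh κ x v 0 * (p ⬝ᵥ p) + fh κ x v 1 * (q ⬝ᵥ q) +
      2 * ∑ c, ∑ r, p c * q r * Sq (NN v c) r) ∧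
    ∀ s, κ * ∑ i, aY v (1 - s) i i ≤ fh κ x v s

/-- A block representation of the cone. -/
def Blk (κ : ℝ) {n m : ℕ} (L₁ : Lor →ₗ[ℝ] Matrix (Fin n) (Fin n) ℝ)
    (L₂ : Lor →ₗ[ℝ] Matrix (Fin m) (Fin m) ℝ) (Cy : (Fin 3 → ℝ) →ₗ[ℝ] Matrix (Fin n) (Fin m) ℝ) :
    Prop :=
  (∀ X, (L₁ X).IsSymm) ∧ (∀ Z, (L₂ Z).IsSymm) ∧ (L₁ (1, 0, 1)).PosDef ∧ (L₂ (1, 0, 1)).PosDef ∧
    ∀ (X Z : Lor) (y : Fin 3 → ℝ), 0 < X.1 → 0 < Z.1 → (KoP κ X Z y ↔
      ∀ v w, 0 ≤ v ⬝ᵥ L₁ X *ᵥ v + w ⬝ᵥ L₂ Z *ᵥ w + 2 * (v ⬝ᵥ Cy y *ᵥ w))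

end partB

/-- Realise the auxiliary lemmas once. -/
theorem anchor : True := by
  have := @Hyp.eq_1
  have := @Hyp.eq_def
  have := @Hyp.eq_unfold
  have := @Hyp.congr_simp
  have := @Cone.eq_1
  have := @Cone.eq_def
  have := @Cone.eq_unfold
  have := @Cone.congr_simp
  have := @Shadow.eq_1
  have := @Shadow.eq_def
  have := @Shadow.eq_unfold
  have := @Shadow.congr_simp
  have := @Var.eq_1
  have := @Var.eq_def
  have := @Var.eq_unfold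
  have := @Var.congr_simp
  have := @Idx.eq_1
  have := @Idx.eq_def
  have := @Idx.eq_unfold
  have := @Idx.congr_simp
  have := @Sym3.eq_1
  have := @Sym3.eq_def
  have := @Sym3.eq_unfold
  have := @Sym3.congr_simp
  have := @c3.eq_1
  have := @c3.eq_def
  have := @c3.eq_unfold
  have := @c3.congr_simp
  have := @cM.eq_1
  have := @cM.eq_def
  have := @cM.eq_unfold
  have := @cM.congr_simp
  have := @Inj.eq_1
  have := @Inj.eq_def
  have := @Inj.eq_unfold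
  have := @Inj.congr_simp
  have := @m0.eq_1
  have := @m0.eq_def
  have := @m0.eq_unfold
  have := @m0.congr_simp
  have := @sv.eq_1
  have := @sv.eq_def
  have := @sv.eq_unfold
  have := @sv.congr_simp
  have := @yv.eq_1
  have := @yv.eq_def
  have := @yv.eq_unfold
  have := @yv.congr_simp
  have := @m1.eq_1
  have := @m1.eq_def
  have := @m1.eq_unfold
  have := @m1.congr_simp
  have := @tv.eq_1
  have := @tv.eq_def
  have := @tv.eq_unfold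
  have := @tv.congr_simp
  have := @m2.eq_1
  have := @m2.eq_def
  have := @m2.eq_unfold
  have := @m2.congr_simp
  have := @Hm.eq_1
  have := @Hm.eq_def
  have := @Hm.eq_unfold
  have := @Hm.congr_simp
  have := @Tr.eq_1
  have := @Tr.eq_def
  have := @Tr.eq_unfold
  have := @Tr.congr_simp
  have := @H2.eq_1
  have := @H2.eq_def
  have := @H2.eq_unfold
  have := @H2.congr_simp
  have := @HH.eq_1
  have := @HH.eq_def
  have := @HH.eq_unfold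
  have := @HH.congr_simp
  have := @qf.eq_1
  have := @qf.eq_def
  have := @qf.eq_unfold
  have := @qf.congr_simp
  have := @sg.eq_1
  have := @sg.eq_def
  have := @sg.eq_unfold
  have := @sg.congr_simp
  have := @lm.eq_1
  have := @lm.eq_def
  have := @lm.eq_unfold
  have := @lm.congr_simp
  have := @bv.eq_1
  have := @bv.eq_def
  have := @bv.eq_unfold
  have := @bv.congr_simp
  have := @Vv.eq_1
  have := @Vv.eq_def
  have := @Vv.eq_unfold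
  have := @Vv.congr_simp
  have := @LF.eq_1
  have := @LF.eq_def
  have := @LF.eq_unfold
  have := @LF.congr_simp
  have := @FH.eq_1
  have := @FH.eq_def
  have := @FH.eq_unfold
  have := @FH.congr_simp
  have := @Br.eq_1
  have := @Br.eq_def
  have := @Br.eq_unfold
  have := @Br.congr_simp
  have := @Eh.eq_1
  have := @Eh.eq_def
  have := @Eh.eq_unfold
  have := @Eh.congr_simp
  have := @dirac.eq_1
  have := @dirac.eq_def
  have := @dirac.eq_unfold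
  have := @dirac.congr_simp
  have := @ev.eq_1
  have := @ev.eq_def
  have := @ev.eq_unfold
  have := @ev.congr_simp
  have := @line.eq_1
  have := @line.eq_def
  have := @line.eq_unfold
  have := @line.congr_simp
  have := @Ap.eq_1
  have := @Ap.eq_def
  have := @Ap.eq_unfold
  have := @Ap.congr_simp
  have := @Nzero.eq_1
  have := @Nzero.eq_def
  have := @Nzero.eq_unfold
  have := @Nzero.congr_simp
  have := @Nfour.eq_1
  have := @Nfour.eq_def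
  have := @Nfour.eq_unfold
  have := @Nfour.congr_simp
  have := @fpol.eq_1
  have := @fpol.eq_def
  have := @fpol.eq_unfold
  have := @fpol.congr_simp
  have := @xi.eq_1
  have := @xi.eq_def
  have := @xi.eq_unfold
  have := @xi.congr_simp
  have := @sgn.eq_1
  have := @sgn.eq_def
  have := @sgn.eq_unfold
  have := @sgn.congr_simp
  have := @Ten.eq_1
  have := @Ten.eq_def
  have := @Ten.eq_unfold
  have := @Ten.congr_simp
  have := @Good.eq_1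
  have := @Good.eq_def
  have := @Good.eq_unfold
  have := @Good.congr_simp
  have := @sl.eq_1
  have := @sl.eq_def
  have := @sl.eq_unfold
  have := @sl.congr_simp
  have := @mom.eq_1
  have := @mom.eq_def
  have := @mom.eq_unfold
  have := @mom.congr_simp
  have := @bq.eq_1
  have := @bq.eq_def
  have := @bq.eq_unfold
  have := @bq.congr_simp
  have := @Lor.eq_1
  have := @Lor.eq_def
  have := @Lor.eq_unfold
  have := @Lor.congr_simp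
  have := @ff.eq_1
  have := @ff.eq_def
  have := @ff.eq_unfold
  have := @ff.congr_simp
  have := @KoP.eq_1
  have := @KoP.eq_def
  have := @KoP.eq_unfold
  have := @KoP.congr_simp
  have := @xs.eq_1
  have := @xs.eq_def
  have := @xs.eq_unfold
  have := @xs.congr_simp
  have := @al.eq_1
  have := @al.eq_def
  have := @al.eq_unfold
  have := @al.congr_simp
  have := @av.eq_1
  have := @av.eq_def
  have := @av.eq_unfold
  have := @av.congr_simp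
  have := @yy.eq_1
  have := @yy.eq_def
  have := @yy.eq_unfold
  have := @yy.congr_simp
  have := @Ko.eq_1
  have := @Ko.eq_def
  have := @Ko.eq_unfold
  have := @Ko.congr_simp
  have := @pt.eq_1
  have := @pt.eq_def
  have := @pt.eq_unfold
  have := @pt.congr_simp
  have := @eB.eq_1
  have := @eB.eq_def
  have := @eB.eq_unfold
  have := @eB.congr_simp
  have := @eB0.eq_1
  have := @eB0.eq_def
  have := @eB0.eq_unfold
  have := @eB0.congr_simp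
  have := @F0.eq_1
  have := @F0.eq_def
  have := @F0.eq_unfold
  have := @F0.congr_simp
  have := @F1.eq_1
  have := @F1.eq_def
  have := @F1.eq_unfold
  have := @F1.congr_simp
  have := @P6.eq_1
  have := @P6.eq_def
  have := @P6.eq_unfold
  have := @P6.congr_simp
  have := @q16.eq_1
  have := @q16.eq_def
  have := @q16.eq_unfold
  have := @q16.congr_simp
  have := @p20.eq_1
  have := @p20.eq_def
  have := @p20.eq_unfold
  have := @p20.congr_simp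
  have := @M3.eq_1
  have := @M3.eq_def
  have := @M3.eq_unfold
  have := @M3.congr_simp
  have := @Aux.eq_1
  have := @Aux.eq_def
  have := @Aux.eq_unfold
  have := @Aux.congr_simp
  have := @aG.eq_1
  have := @aG.eq_def
  have := @aG.eq_unfold
  have := @aG.congr_simp
  have := @aH.eq_1
  have := @aH.eq_def
  have := @aH.eq_unfold
  have := @aH.congr_simp
  have := @aW.eq_1
  have := @aW.eq_def
  have := @aW.eq_unfold
  have := @aW.congr_simp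
  have := @aT.eq_1
  have := @aT.eq_def
  have := @aT.eq_unfold
  have := @aT.congr_simp
  have := @aU.eq_1
  have := @aU.eq_def
  have := @aU.eq_unfold
  have := @aU.congr_simp
  have := @aY.eq_1
  have := @aY.eq_def
  have := @aY.eq_unfold
  have := @aY.congr_simp
  have := @bord.eq_1
  have := @bord.eq_def
  have := @bord.eq_unfold
  have := @bord.congr_simp
  have := @Gam.eq_1
  have := @Gam.eq_def
  have := @Gam.eq_unfold
  have := @Gam.congr_simp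
  have := @blk.eq_1
  have := @blk.eq_def
  have := @blk.eq_unfold
  have := @blk.congr_simp
  have := @Sq.eq_1
  have := @Sq.eq_def
  have := @Sq.eq_unfold
  have := @Sq.congr_simp
  have := @NN.eq_1
  have := @NN.eq_def
  have := @NN.eq_unfold
  have := @NN.congr_simp
  have := @fh.eq_1
  have := @fh.eq_def
  have := @fh.eq_unfold
  have := @fh.congr_simp
  have := @Con.eq_1
  have := @Con.eq_def
  have := @Con.eq_unfold
  have := @Con.congr_simp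
  have := @Lft.eq_1
  have := @Lft.eq_def
  have := @Lft.eq_unfold
  have := @Lft.congr_simp
  have := @Blk.eq_1
  have := @Blk.eq_def
  have := @Blk.eq_unfold
  have := @Blk.congr_simp
  trivial

end Crest.Agent.R237
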