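import Crest.Agent.R237.Pos

/-!
# Row 237: functionals in the dual cone
-/

set_option autoImplicit false
set_option linter.unusedSectionVars false

noncomputable section

namespace Crest.Agent.R237

open MvPolynomial Matrix

variable {ι : Type} [Fintype ι] [DecidableEq ι] [Nonempty ι] {C : ι → ι → ι → ℝ}

namespace DualAux

theorem swap23 (hC : Sym3 C) (u v w : ι → ℝ) : c3 C u v w = c3 C u w v := by
  unfold c3
  refine Finset.sum_congr rfl fun i _ => ?_
  rw [Finset.sum_comm]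
  refine Finset.sum_congr rfl fun j _ => Finset.sum_congr rfl fun k _ => ?_
  rw [hC.2 i k j]
  ring

theorem swap12 (hC : Sym3 C) (u v w : ι → ℝ) : c3 C u v w = c3 C v u w := by
  unfold c3
  rw [Finset.sum_comm]
  refine Finset.sum_congr rfl fun i _ => Finset.sum_congr rfl fun j _ =>
    Finset.sum_congr rfl fun k _ => ?_
  rw [hC.1 j i k]
  ring

theorem c3_exp (hC : Sym3 C) (x b : ι → ℝ) (a : ℝ) :
    c3 C (fun i => x i - b i * a) (fun i => x i - b i * a) (fun i => x i - b i * a) =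
      c3 C x x x - 3 * a * c3 C b x x + 3 * a ^ 2 * c3 C b b x - a ^ 3 * c3 C b b b := by
  have h : c3 C (fun i => x i - b i * a) (fun i => x i - b i * a) (fun i => x i - b i * a) =
      c3 C x x x - a * c3 C b x x - a * c3 C x b x - a * c3 C x x b + a ^ 2 * c3 C b b x +
        a ^ 2 * c3 C b x b + a ^ 2 * c3 C x b b - a ^ 3 * c3 C b b b := by
    simp only [c3, Finset.mul_sum, ← Finset.sum_add_distrib, ← Finset.sum_sub_distrib]
    refine Finset.sum_congr rfl fun i _ => Finset.sum_congr rfl fun j _ =>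
      Finset.sum_congr rfl fun k _ => ?_
    ring
  rw [h, swap23 hC x x b, swap12 hC x b x, swap12 hC x b b, swap23 hC b x b]
  ring

theorem dot_exp (x b : ι → ℝ) (a : ℝ) :
    (fun i => x i - b i * a) ⬝ᵥ (fun i => x i - b i * a) =
      x ⬝ᵥ x - 2 * a * (b ⬝ᵥ x) + a ^ 2 * (b ⬝ᵥ b) := by
  simp only [dotProduct, Finset.mul_sum, ← Finset.sum_add_distrib, ← Finset.sum_sub_distrib]
  exact Finset.sum_congr rfl fun i _ => by ring

theorem qf_sq_le (L : Var ι → ℝ) (V : ι → ℝ) :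
    qf V (Hm L) V ^ 2 ≤ (V ⬝ᵥ V) ^ 2 * H2 L := by
  have h := Finset.sum_mul_sq_le_sq_mul_sq Finset.univ (fun p : ι × ι => V p.1 * V p.2)
    fun p : ι × ι => Hm L p.1 p.2
  simp only [Fintype.sum_prod_type] at h
  have e1 : qf V (Hm L) V = ∑ i, ∑ j, V i * V j * Hm L i j :=
    Finset.sum_congr rfl fun i _ => Finset.sum_congr rfl fun j _ => by ring
  have e2 : (V ⬝ᵥ V) ^ 2 = ∑ i, ∑ j, (V i * V j) ^ 2 := by
    rw [sq, dotProduct, Finset.sum_mul_sum]
    exact Finset.sum_congr rfl fun i _ => Finset.sum_congr rfl fun j _ => by ring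
  have e3 : H2 L = ∑ i, ∑ j, Hm L i j ^ 2 :=
    Finset.sum_congr rfl fun i _ => Finset.sum_congr rfl fun j _ => by ring
  rw [e1, e2, e3]
  exact h

theorem scalar {r q T H : ℝ} (hr : 0 ≤ r) (h : q ^ 2 ≤ r ^ 2 * H) :
    0 ≤ 52 * r * T ^ 2 + 4 * T * q + 3 * r * H := by
  rcases hr.eq_or_lt with rfl | hr
  · have : q = 0 := by nlinarith [sq_nonneg q]
    simp [this]
  · refine le_of_mul_le_mul_left (a := r) ?_ hr
    nlinarith [sq_nonneg (r * T), sq_nonneg (2 * r * T + q), sq_nonneg q]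

theorem ident (hC : Sym3 C) (L : Var ι → ℝ) (b : ι → ℝ) (lam : ℝ) :
    m0 L ^ 3 * Tr L * xi C b lam L = Eh C L (Sum.elim ![1, lam] b) +
      Tr L * fpol C (Vv L (Sum.elim ![1, lam] b)) (m0 L * lam) +
      Tr L * (24 * Tr L ^ 2 + 6 * H2 L +
        52 * (Vv L (Sum.elim ![1, lam] b) ⬝ᵥ Vv L (Sum.elim ![1, lam] b)) * Tr L +
        4 * qf (Vv L (Sum.elim ![1, lam] b)) (Hm L) (Vv L (Sum.elim ![1, lam] b))) +
      Br C L (Sum.elim ![1, lam] b) := by
  have h1 : sg (Sum.elim ![1, lam] b : Idx ι → ℝ) = 1 := rfl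
  have h2 : lm (Sum.elim ![1, lam] b : Idx ι → ℝ) = lam := rfl
  have h3 : bv (Sum.elim ![1, lam] b : Idx ι → ℝ) = b := rfl
  have h4 : Vv L (Sum.elim ![1, lam] b) = fun i => m1 L i - b i * m0 L := by
    funext i
    rw [Vv, h1, h3, one_mul]
  have h5 := c3_exp hC (m1 L) b (m0 L)
  have h6 := dot_exp (m1 L) b (m0 L)
  rw [← h4] at h5 h6
  rw [fpol, h5, Eh, LF, FH, xi, h1, h2, h3, h6]
  ring

theorem xi_add (C : ι → ι → ι → ℝ) (b : ι → ℝ) (lam : ℝ) (L L' : Var ι → ℝ) :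
    xi C b lam (L + L') = xi C b lam L + xi C b lam L' := by
  have e1 : b ⬝ᵥ tv (L + L') = b ⬝ᵥ tv L + b ⬝ᵥ tv L' := dotProduct_add b (tv L) (tv L')
  have e2 : b ⬝ᵥ m1 (L + L') = b ⬝ᵥ m1 L + b ⬝ᵥ m1 L' := dotProduct_add b (m1 L) (m1 L')
  have e0 : ∀ i j, m2 (L + L') i j = m2 L i j + m2 L' i j := fun i j => by
    simp only [m2, Pi.add_apply]
    ring
  have e3 : ∑ i, m2 (L + L') i i = ∑ i, m2 L i i + ∑ i, m2 L' i i := by
    simp only [e0, Finset.sum_add_distrib]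
  have e4 : qf b (m2 (L + L')) b = qf b (m2 L) b + qf b (m2 L') b := by
    simp only [qf, e0, mul_add, add_mul, Finset.sum_add_distrib]
  have e5 : cM C b (m2 (L + L')) = cM C b (m2 L) + cM C b (m2 L') := by
    simp only [cM, e0, mul_add, Finset.sum_add_distrib]
  have e6 : c3 C b b (m1 (L + L')) = c3 C b b (m1 L) + c3 C b b (m1 L') := by
    simp only [c3, m1, Pi.add_apply, mul_add, Finset.sum_add_distrib]
  have e7 : yv (L + L') = yv L + yv L' := rfl
  have e8 : sv (L + L') = sv L + sv L' := rfl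
  have e9 : m0 (L + L') = m0 L + m0 L' := rfl
  simp only [xi]
  rw [e1, e2, e3, e4, e5, e6, e7, e8, e9]
  ring

theorem xi_smul (C : ι → ι → ι → ℝ) (b : ι → ℝ) (lam a : ℝ) (L : Var ι → ℝ) :
    xi C b lam (a • L) = a * xi C b lam L := by
  have e1 : b ⬝ᵥ tv (a • L) = a * (b ⬝ᵥ tv L) := dotProduct_smul a b (tv L)
  have e2 : b ⬝ᵥ m1 (a • L) = a * (b ⬝ᵥ m1 L) := dotProduct_smul a b (m1 L)
  have e0 : ∀ i j, m2 (a • L) i j = a * m2 L i j := fun i j => by
    simp only [m2, Pi.smul_apply, smul_eq_mul]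
    ring
  have e3 : ∑ i, m2 (a • L) i i = a * ∑ i, m2 L i i := by
    simp only [e0, Finset.mul_sum]
  have e4 : qf b (m2 (a • L)) b = a * qf b (m2 L) b := by
    simp only [qf, e0, Finset.mul_sum]
    exact Finset.sum_congr rfl fun i _ => Finset.sum_congr rfl fun j _ => by ring
  have e5 : cM C b (m2 (a • L)) = a * cM C b (m2 L) := by
    simp only [cM, e0, Finset.mul_sum]
    exact Finset.sum_congr rfl fun i _ => Finset.sum_congr rfl fun j _ =>
      Finset.sum_congr rfl fun k _ => by ring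
  have e6 : c3 C b b (m1 (a • L)) = a * c3 C b b (m1 L) := by
    simp only [c3, m1, Pi.smul_apply, smul_eq_mul, Finset.mul_sum]
    exact Finset.sum_congr rfl fun i _ => Finset.sum_congr rfl fun j _ =>
      Finset.sum_congr rfl fun k _ => by ring
  have e7 : yv (a • L) = a * yv L := rfl
  have e8 : sv (a • L) = a * sv L := rfl
  have e9 : m0 (a • L) = a * m0 L := rfl
  simp only [xi]
  rw [e1, e2, e3, e4, e5, e6, e7, e8, e9]
  ring

end DualAux

theorem xi_nonneg (hC : Sym3 C) (hI : Inj C) {L : Var ι → ℝ} (hm : 0 < m0 L) (hT : 0 < Tr L)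
    (b : ι → ℝ) (lam : ℝ) (h : 0 ≤ Eh C L (Sum.elim ![1, lam] b)) : 0 ≤ xi C b lam L := by
  have h1 := DualAux.ident hC L b lam
  have h2 := mul_nonneg hT.le (fpol_nonneg hI (Vv L (Sum.elim ![1, lam] b)) (m0 L * lam))
  have h3 := le_Br hI L (Sum.elim ![1, lam] b)
  have h4 := DualAux.scalar (T := Tr L)
    (show 0 ≤ Vv L (Sum.elim ![1, lam] b) ⬝ᵥ Vv L (Sum.elim ![1, lam] b) from
      Finset.sum_nonneg fun i _ => mul_self_nonneg _)
    (DualAux.qf_sq_le L (Vv L (Sum.elim ![1, lam] b)))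
  have h5 := mul_nonneg hT.le (H2_nonneg L)
  have h6 : 0 ≤ Tr L ^ 3 := by positivity
  refine le_of_mul_le_mul_left (a := m0 L ^ 3 * Tr L) ?_ (by positivity)
  rw [h1]
  nlinarith

theorem xi_dirac (hC : Sym3 C) (b x : ι → ℝ) (lam : ℝ) :
    xi C b lam (dirac C x) = fpol C (fun i => x i - b i) lam := by
  have h0 : (fun i => x i - b i) = fun i => x i - b i * 1 := by simp
  have e0 : ∀ i j, m2 (dirac C x) i j = x i * x j := fun i j => by
    simp only [m2, dirac, Sum.elim_inr, Algebra.algebraMap_self, RingHom.id_apply]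
    ring
  have e1 : b ⬝ᵥ tv (dirac C x) = (x ⬝ᵥ x) * (b ⬝ᵥ x) := dotProduct_smul (x ⬝ᵥ x) b x
  have e2 : m1 (dirac C x) = x := rfl
  have e3 : ∑ i, m2 (dirac C x) i i = x ⬝ᵥ x := by simp only [e0, dotProduct]
  have e4 : qf b (m2 (dirac C x)) b = (b ⬝ᵥ x) ^ 2 := by
    rw [sq, dotProduct, Finset.sum_mul_sum]
    simp only [qf, e0]
    exact Finset.sum_congr rfl fun i _ => Finset.sum_congr rfl fun j _ => by ring
  have e5 : cM C b (m2 (dirac C x)) = c3 C b x x := by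
    simp only [cM, c3, e0, mul_assoc]
  have e7 : yv (dirac C x) = (x ⬝ᵥ x) ^ 2 := rfl
  have e8 : sv (dirac C x) = c3 C x x x := rfl
  have e9 : m0 (dirac C x) = 1 := rfl
  rw [h0, fpol, DualAux.c3_exp hC, DualAux.dot_exp, xi, e1, e2, e3, e4, e5, e7, e8, e9]
  ring

theorem fpol_smul (C : ι → ι → ι → ℝ) (z : ι → ℝ) (ε : ℝ) :
    fpol C (fun i => ε * z i) ε = ε ^ 4 * fpol C z 1 := by
  have e1 : (fun i => ε * z i) ⬝ᵥ (fun i => ε * z i) = ε ^ 2 * (z ⬝ᵥ z) := by
    simp only [dotProduct, Finset.mul_sum]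
    exact Finset.sum_congr rfl fun i _ => by ring
  have e2 : c3 C (fun i => ε * z i) (fun i => ε * z i) (fun i => ε * z i) = ε ^ 3 * c3 C z z z := by
    simp only [c3, Finset.mul_sum]
    exact Finset.sum_congr rfl fun i _ => Finset.sum_congr rfl fun j _ =>
      Finset.sum_congr rfl fun k _ => by ring
  rw [fpol, fpol, e1, e2]
  ring

theorem exists_xi (C : ι → ι → ι → ℝ) (b : ι → ℝ) : ∃ ξ : ℝ → Var ι → ℝ, Continuous ξ ∧
    ∀ (lam : ℝ) (L : Var ι → ℝ), xi C b lam L = ∑ v, ξ lam v * L v := by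
  refine ⟨fun lam v => xi C b lam fun j => if v = j then 1 else 0, continuous_pi fun v => ?_,
    fun lam L => ?_⟩
  · unfold xi
    fun_prop
  · let f : (Var ι → ℝ) →ₗ[ℝ] ℝ :=
      { toFun := xi C b lam
        map_add' := DualAux.xi_add C b lam
        map_smul' := DualAux.xi_smul C b lam }
    refine (LinearMap.pi_apply_eq_sum_univ f L).trans (Finset.sum_congr rfl fun v _ => ?_)
    rw [smul_eq_mul, mul_comm]
    rfl

end Crest.Agent.R237
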