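import Crest.Agent.R237.Defs

/-!
# Row 237: expansion of `Eh` along a line
-/

set_option autoImplicit false
set_option linter.unusedSectionVars false

noncomputable section

namespace Crest.Agent.R237

open MvPolynomial Matrix

variable {ι : Type} [Fintype ι] [DecidableEq ι] [Nonempty ι]

namespace ExpAux

section generic

variable {R : Type} [CommRing R] [Algebra ℝ R]

theorem dot_lin (a a' : R) (u u' v : ι → R) :
    (fun i => a * u i - u' i * a') ⬝ᵥ v = a * (u ⬝ᵥ v) - a' * (u' ⬝ᵥ v) := by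
  simp only [dotProduct, Finset.mul_sum, ← Finset.sum_sub_distrib]
  exact Finset.sum_congr rfl fun i _ => by ring

theorem dot_self_lin (a a' : R) (u u' : ι → R) :
    (fun i => a * u i - u' i * a') ⬝ᵥ (fun i => a * u i - u' i * a') =
      a ^ 2 * (u ⬝ᵥ u) - 2 * a * a' * (u' ⬝ᵥ u) + a' ^ 2 * (u' ⬝ᵥ u') := by
  simp only [dotProduct, Finset.mul_sum, ← Finset.sum_sub_distrib, ← Finset.sum_add_distrib]
  exact Finset.sum_congr rfl fun i _ => by ring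

theorem qf_symm {A : ι → ι → R} (hA : ∀ i j, A i j = A j i) (u v : ι → R) :
    qf u A v = qf v A u := by
  unfold qf
  rw [Finset.sum_comm]
  exact Finset.sum_congr rfl fun i _ => Finset.sum_congr rfl fun j _ => by rw [hA j i]; ring

theorem qf_lin {A : ι → ι → R} (hA : ∀ i j, A i j = A j i) (a a' : R) (u u' : ι → R) :
    qf (fun i => a * u i - u' i * a') A (fun i => a * u i - u' i * a') =
      a ^ 2 * qf u A u - 2 * a * a' * qf u' A u + a' ^ 2 * qf u' A u' := by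
  have h : qf (fun i => a * u i - u' i * a') A (fun i => a * u i - u' i * a') =
      a ^ 2 * qf u A u - a * a' * qf u' A u - a * a' * qf u A u' + a' ^ 2 * qf u' A u' := by
    simp only [qf, Finset.mul_sum, ← Finset.sum_sub_distrib, ← Finset.sum_add_distrib]
    exact Finset.sum_congr rfl fun i _ => Finset.sum_congr rfl fun j _ => by ring
  rw [h, qf_symm hA u u']
  ring

theorem qf_shift (A : ι → ι → R) (c : R) (u v : ι → R) :
    qf u (fun i j => A i j + if i = j then c else 0) v = qf u A v + c * (u ⬝ᵥ v) := by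
  simp only [qf, dotProduct, Finset.mul_sum, ← Finset.sum_add_distrib]
  refine Finset.sum_congr rfl fun i _ => ?_
  simp only [mul_add, add_mul, Finset.sum_add_distrib, mul_ite, ite_mul, mul_zero, zero_mul,
    Finset.sum_ite_eq, Finset.mem_univ, if_true]
  ring

theorem qf_H (B : ι → ι → R) (e : R) (h u : ι → R) :
    qf u (fun i j => e * B i j - h i * h j) u = e * qf u B u - (u ⬝ᵥ h) ^ 2 := by
  rw [sq, dotProduct, Finset.sum_mul_sum]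
  simp only [qf, Finset.mul_sum, ← Finset.sum_sub_distrib]
  exact Finset.sum_congr rfl fun i _ => Finset.sum_congr rfl fun j _ => by ring

theorem sq_H (B : ι → ι → R) (e : R) (h : ι → R) :
    ∑ i, ∑ j, (e * B i j - h i * h j) * (e * B i j - h i * h j) =
      e ^ 2 * (∑ i, ∑ j, B i j * B i j) - 2 * e * qf h B h + (h ⬝ᵥ h) ^ 2 := by
  rw [sq (h ⬝ᵥ h), dotProduct, Finset.sum_mul_sum]
  simp only [qf, Finset.mul_sum, ← Finset.sum_sub_distrib, ← Finset.sum_add_distrib]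
  exact Finset.sum_congr rfl fun i _ => Finset.sum_congr rfl fun j _ => by ring

theorem sq_shift (A : ι → ι → R) (c : R) :
    ∑ i, ∑ j, (A i j + if i = j then c else 0) * (A i j + if i = j then c else 0) =
      (∑ i, ∑ j, A i j * A i j) + 2 * c * (∑ i, A i i) + (Fintype.card ι : R) * c ^ 2 := by
  have h : ∀ i : ι, ∑ j, (A i j + if i = j then c else 0) * (A i j + if i = j then c else 0) =
      (∑ j, A i j * A i j) + 2 * c * A i i + c ^ 2 := by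
    intro i
    have h1 : ∀ j : ι, (A i j + if i = j then c else 0) * (A i j + if i = j then c else 0) =
        A i j * A i j + if i = j then 2 * c * A i j + c ^ 2 else 0 := by
      intro j
      split_ifs <;> ring
    simp only [h1, Finset.sum_add_distrib, Finset.sum_ite_eq, Finset.mem_univ, if_true]
    ring
  simp only [h, Finset.sum_add_distrib, ← Finset.mul_sum, Finset.sum_const, Finset.card_univ,
    nsmul_eq_mul]

theorem tr_shift (A : ι → ι → R) (c : R) :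
    ∑ i, (A i i + if i = i then c else 0) = (∑ i, A i i) + (Fintype.card ι : R) * c := by
  simp only [if_true, Finset.sum_add_distrib, Finset.sum_const, Finset.card_univ, nsmul_eq_mul]

theorem tr_H (B : ι → ι → R) (e : R) (h : ι → R) :
    ∑ i, (e * B i i - h i * h i) = e * (∑ i, B i i) - h ⬝ᵥ h := by
  simp only [dotProduct, Finset.mul_sum, Finset.sum_sub_distrib]

theorem cM_lin (C : ι → ι → ι → ℝ) (a a' : R) (u u' : ι → R) (M : ι → ι → R) :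
    cM C (fun i => a * u i - u' i * a') M = a * cM C u M - a' * cM C u' M := by
  simp only [cM, Finset.mul_sum, ← Finset.sum_sub_distrib]
  exact Finset.sum_congr rfl fun i _ => Finset.sum_congr rfl fun j _ =>
    Finset.sum_congr rfl fun k _ => by ring

theorem cM_diag (C : ι → ι → ι → ℝ) (u : ι → R) (c : R) :
    cM C u (fun i j => if i = j then c else 0) =
      c * ∑ i, ∑ j, algebraMap ℝ R (C i j j) * u i := by
  simp only [cM, Finset.mul_sum, mul_ite, mul_zero, Finset.sum_ite_eq, Finset.mem_univ, if_true]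
  exact Finset.sum_congr rfl fun i _ => Finset.sum_congr rfl fun j _ => by ring

theorem cM_shift (C : ι → ι → ι → ℝ) (u : ι → R) (A : ι → ι → R) (c : R) :
    cM C u (fun i j => A i j + if i = j then c else 0) =
      cM C u A + c * ∑ i, ∑ j, algebraMap ℝ R (C i j j) * u i := by
  rw [← cM_diag]
  simp only [cM, mul_add, Finset.sum_add_distrib]

theorem c3_swap {C : ι → ι → ι → ℝ} (hC : Sym3 C) (u v w : ι → R) :
    c3 C u v w = c3 C u w v := by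
  unfold c3
  refine Finset.sum_congr rfl fun i _ => ?_
  rw [Finset.sum_comm]
  exact Finset.sum_congr rfl fun j _ => Finset.sum_congr rfl fun k _ => by
    rw [hC.2 i k j]; ring

theorem c3_swap' {C : ι → ι → ι → ℝ} (hC : Sym3 C) (u v w : ι → R) :
    c3 C u v w = c3 C v u w := by
  unfold c3
  rw [Finset.sum_comm]
  exact Finset.sum_congr rfl fun i _ => Finset.sum_congr rfl fun j _ =>
    Finset.sum_congr rfl fun k _ => by rw [hC.1 j i k]; ring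

theorem c3_comb (C : ι → ι → ι → ℝ) (x y z v w : ι → R) (a b c : R) :
    c3 C (fun i => a * x i - b * y i - c * z i) v w =
      a * c3 C x v w - b * c3 C y v w - c * c3 C z v w := by
  simp only [c3, Finset.mul_sum, ← Finset.sum_sub_distrib]
  exact Finset.sum_congr rfl fun i _ => Finset.sum_congr rfl fun j _ =>
    Finset.sum_congr rfl fun k _ => by ring

theorem HH_entry {A : ι → ι → R} (hA : ∀ i j, A i j = A j i) (e c : R) (h : ι → R) (i j : ι) :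
    ∑ k, (e * (A i k + if i = k then c else 0) - h i * h k) *
        (e * (A k j + if k = j then c else 0) - h k * h j) =
      e ^ 2 * (∑ k, A i k * A k j) + 2 * e ^ 2 * c * A i j +
        (if i = j then e ^ 2 * c ^ 2 else 0) - e * ((∑ k, A i k * h k) * h j) -
        e * (h i * ∑ k, A j k * h k) + (h ⬝ᵥ h - 2 * e * c) * (h i * h j) := by
  have h1 : ∀ k : ι, (e * (A i k + if i = k then c else 0) - h i * h k) *
      (e * (A k j + if k = j then c else 0) - h k * h j) =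
      (e ^ 2 * (A i k * A k j) - e * (A i k * h k * h j) - e * (h i * (A j k * h k)) +
        h k * h k * (h i * h j)) +
      (if i = k then e * c * (e * A k j - h k * h j) else 0) +
      (if k = j then e * c * (e * A i k - h i * h k) else 0) +
      (if i = k then (if k = j then e ^ 2 * c ^ 2 else 0) else 0) := by
    intro k
    rw [hA j k]
    split_ifs <;> ring
  simp only [h1, Finset.sum_add_distrib, Finset.sum_sub_distrib, Finset.sum_ite_eq,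
    Finset.sum_ite_eq', Finset.mem_univ, if_true, ← Finset.mul_sum, ← Finset.sum_mul, dotProduct]
  ring

theorem cM_comb (C : ι → ι → ι → ℝ) (u x h : ι → R) (M1 M2 M3 : ι → ι → R) (a1 a2 e η : R) :
    cM C u (fun i j => a1 * M1 i j + a2 * M2 i j + M3 i j - e * (x i * h j) - e * (h i * x j) +
        η * (h i * h j)) =
      a1 * cM C u M1 + a2 * cM C u M2 + cM C u M3 - e * c3 C u x h - e * c3 C u h x +
        η * c3 C u h h := by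
  simp only [cM, c3, Finset.mul_sum, ← Finset.sum_sub_distrib, ← Finset.sum_add_distrib]
  exact Finset.sum_congr rfl fun i _ => Finset.sum_congr rfl fun j _ =>
    Finset.sum_congr rfl fun k _ => by ring

theorem cM_HH {C : ι → ι → ι → ℝ} (hC : Sym3 C) {A : ι → ι → R} (hA : ∀ i j, A i j = A j i)
    (e c : R) (h u : ι → R) :
    cM C u (fun i j => ∑ k, (e * (A i k + if i = k then c else 0) - h i * h k) *
        (e * (A k j + if k = j then c else 0) - h k * h j)) =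
      e ^ 2 * cM C u (fun i j => ∑ k, A i k * A k j) + 2 * e ^ 2 * c * cM C u A +
        e ^ 2 * c ^ 2 * (∑ i, ∑ j, algebraMap ℝ R (C i j j) * u i) -
        2 * e * c3 C u h (fun i => ∑ k, A i k * h k) + (h ⬝ᵥ h - 2 * e * c) * c3 C u h h := by
  have h1 : cM C u (fun i j => ∑ k, (e * (A i k + if i = k then c else 0) - h i * h k) *
        (e * (A k j + if k = j then c else 0) - h k * h j)) =
      e ^ 2 * cM C u (fun i j => ∑ k, A i k * A k j) + 2 * e ^ 2 * c * cM C u A +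
        cM C u (fun i j => if i = j then e ^ 2 * c ^ 2 else 0) -
        e * c3 C u (fun i => ∑ k, A i k * h k) h -
        e * c3 C u h (fun i => ∑ k, A i k * h k) + (h ⬝ᵥ h - 2 * e * c) * c3 C u h h := by
    simp only [HH_entry hA]
    exact cM_comb C u (fun i => ∑ k, A i k * h k) h (fun i j => ∑ k, A i k * A k j) A
      (fun i j => if i = j then e ^ 2 * c ^ 2 else 0) _ _ _ _
  rw [h1, cM_diag, c3_swap hC u (fun i => ∑ k, A i k * h k) h]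
  ring

/-- The scalar identity behind the expansion. -/
theorem poly_id (e ni s l trA trB hAh bAh bAb bh bb bt eta sv yv chh cbh chA cbA dh db dh2 db2
    dhI dbI c T H VV : R) (hc : c = e * ni) (hT : T = e * (trA + e) - eta)
    (hH : H = e ^ 2 * (trB + 2 * c * trA + e * c) - 2 * e * (hAh + c * eta) + eta ^ 2)
    (hV : VV = s ^ 2 * eta - 2 * s * e * bh + e ^ 2 * bb) :
    e ^ 3 * T * (30 * s ^ 2 * (yv + e * (1 + ni)) - 120 * s * bt +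
        30 * (2 * bb * (trA + e) + 4 * (bAb + c * bb)) - 2 * s * l * sv +
        6 * l * (db + c * dbI) + 6 * l ^ 2 * (trA + e)) -
      T * (30 * s ^ 2 * eta ^ 2 - 120 * e * s * bh * eta +
        30 * e ^ 2 * (2 * bb * eta + 4 * bh ^ 2) - 2 * e * s * l * chh +
        6 * e ^ 2 * l * cbh + 6 * e ^ 2 * l ^ 2 * eta) -
      T * (s ^ 2 * (24 * T ^ 2 + 6 * H) + 52 * VV * T +
        4 * (e * (s ^ 2 * hAh - 2 * s * e * bAh + e ^ 2 * bAb + c * VV) - (s * eta - e * bh) ^ 2)) -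
      (4 * VV * H - 2 * e * l *
        (s * (e ^ 2 * dh2 + 2 * e ^ 2 * c * dh + e ^ 2 * c ^ 2 * dhI - 2 * e * chA +
            (eta - 2 * e * c) * chh) -
          e * (e ^ 2 * db2 + 2 * e ^ 2 * c * db + e ^ 2 * c ^ 2 * dbI - 2 * e * cbA +
            (eta - 2 * e * c) * cbh)) + e ^ 2 * l ^ 2 * H) =
    e ^ 2 * ((eta * (20 * (s * trA - 2 * bh) ^ 2 +
          2 * (s ^ 2 * trB - 4 * s * bAh + 2 * bb * eta + 2 * bh ^ 2)) +
        8 * (s * trA - 2 * bh) * (s * hAh - 2 * bh * eta) -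
        2 * l * (2 * (s * chA - eta * cbh - bh * chh) - chh * (s * trA - 2 * bh)) +
        5 * eta ^ 2 * l ^ 2) +
      (-116 * bAb * eta + 8 * bAh * s * trA - 16 * bb * eta * trA + 8 * bb * hAh - 24 * bh *
        eta * ni * s - 96 * bh * eta * s + 104 * bh * s * trA ^ 2 + 8 * bh * s * trB - 116 * bh
        ^ 2 * trA + 120 * bt * eta * s + 4 * cbA * l - 6 * cbh * l * trA - 4 * chh * l * ni * s
        + 2 * chh * l * s - 6 * db * eta * l + 2 * dh2 * l * s + 2 * eta * l * s * sv - 12 * eta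
        * l ^ 2 * trA + 12 * eta * ni * s ^ 2 * trA + 40 * eta * s ^ 2 * trA - 30 * eta * s ^ 2
        * yv + 2 * hAh * l ^ 2 + 8 * hAh * s ^ 2 - 6 * s ^ 2 * trA * trB - 24 * s ^ 2 * trA ^ 3) * e +
      (116 * bAb * trA + 8 * bAh * s - 16 * bb * eta - 108 * bb * eta * ni + 8 * bb * trA ^ 2 -
        4 * bb * trB + 24 * bh * ni * s * trA + 208 * bh * s * trA - 116 * bh ^ 2 - 120 * bt * s
        * trA - 6 * cbh * l + 4 * cbh * l * ni + 6 * db * l * trA - 2 * db2 * l - 6 * dbI * eta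
        * l * ni + 4 * dh * l * ni * s - 12 * eta * l ^ 2 + 2 * eta * l ^ 2 * ni - 20 * eta * ni
        * s ^ 2 - 10 * eta * s ^ 2 - 2 * l * s * sv * trA + 6 * l ^ 2 * trA ^ 2 - l ^ 2 * trB -
        12 * ni * s ^ 2 * trA ^ 2 + 30 * s ^ 2 * trA * yv - 72 * s ^ 2 * trA ^ 2 - 6 * s ^ 2 *
        trB) * e ^ 2 +
      (116 * bAb + 108 * bb * ni * trA + 16 * bb * trA + 16 * bh * ni * s + 104 * bh * s - 120
        * bt * s + 6 * db * l - 4 * db * l * ni + 6 * dbI * l * ni * trA + 2 * dhI * l * ni ^ 2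
        * s - 2 * l * s * sv - 2 * l ^ 2 * ni * trA + 12 * l ^ 2 * trA + 12 * ni * s ^ 2 * trA -
        42 * s ^ 2 * trA + 30 * s ^ 2 * yv) * e ^ 3 +
      (s ^ 2 * (6 + 24 * ni) + bb * (8 + 112 * ni) + l ^ 2 * (6 - ni) +
        l * dbI * ni * (6 - 2 * ni)) * e ^ 4) := by
  subst hH hV hT hc
  ring

/-- `Eh` in terms of scalars. -/
theorem Eh_eq {C : ι → ι → ι → ℝ} (hC : Sym3 C) (L : Var ι → R) (ζ : Idx ι → R)
    {A : ι → ι → R} (hA : ∀ i j, A i j = A j i) (e c : R) (hn : (Fintype.card ι : R) * c = e)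
    (h0 : m0 L = e) (h2 : m2 L = fun i j => A i j + if i = j then c else 0) :
    (∑ i, m2 L i i = (∑ i, A i i) + e) ∧
    (Tr L = e * ((∑ i, A i i) + e) - m1 L ⬝ᵥ m1 L) ∧
    (H2 L = e ^ 2 * ((∑ i, ∑ j, A i j * A i j) + 2 * c * (∑ i, A i i) + e * c) -
      2 * e * (qf (m1 L) A (m1 L) + c * (m1 L ⬝ᵥ m1 L)) + (m1 L ⬝ᵥ m1 L) ^ 2) ∧
    (Vv L ζ ⬝ᵥ Vv L ζ = sg ζ ^ 2 * (m1 L ⬝ᵥ m1 L) - 2 * sg ζ * e * (bv ζ ⬝ᵥ m1 L) +
      e ^ 2 * (bv ζ ⬝ᵥ bv ζ)) ∧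
    (qf (bv ζ) (m2 L) (bv ζ) = qf (bv ζ) A (bv ζ) + c * (bv ζ ⬝ᵥ bv ζ)) ∧
    (cM C (bv ζ) (m2 L) = cM C (bv ζ) A + c * ∑ i, ∑ j, algebraMap ℝ R (C i j j) * bv ζ i) ∧
    (qf (Vv L ζ) (Hm L) (Vv L ζ) = e * (sg ζ ^ 2 * qf (m1 L) A (m1 L) -
      2 * sg ζ * e * qf (bv ζ) A (m1 L) + e ^ 2 * qf (bv ζ) A (bv ζ) + c * (Vv L ζ ⬝ᵥ Vv L ζ)) -
      (sg ζ * (m1 L ⬝ᵥ m1 L) - e * (bv ζ ⬝ᵥ m1 L)) ^ 2) ∧
    (cM C (Vv L ζ) (HH L) =
      sg ζ * (e ^ 2 * cM C (m1 L) (fun i j => ∑ k, A i k * A k j) + 2 * e ^ 2 * c * cM C (m1 L) A +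
        e ^ 2 * c ^ 2 * (∑ i, ∑ j, algebraMap ℝ R (C i j j) * m1 L i) -
        2 * e * c3 C (m1 L) (m1 L) (fun i => ∑ k, A i k * m1 L k) +
        (m1 L ⬝ᵥ m1 L - 2 * e * c) * c3 C (m1 L) (m1 L) (m1 L)) -
      e * (e ^ 2 * cM C (bv ζ) (fun i j => ∑ k, A i k * A k j) + 2 * e ^ 2 * c * cM C (bv ζ) A +
        e ^ 2 * c ^ 2 * (∑ i, ∑ j, algebraMap ℝ R (C i j j) * bv ζ i) -
        2 * e * c3 C (bv ζ) (m1 L) (fun i => ∑ k, A i k * m1 L k) +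
        (m1 L ⬝ᵥ m1 L - 2 * e * c) * c3 C (bv ζ) (m1 L) (m1 L))) := by
  have hH : Hm L = fun i j => e * (A i j + if i = j then c else 0) - m1 L i * m1 L j := by
    funext i j
    rw [Hm, h0, h2]
  have hV : Vv L ζ = fun i => sg ζ * m1 L i - bv ζ i * e := by
    funext i
    rw [Vv, h0]
  have hHH : HH L = fun i j => ∑ k, (e * (A i k + if i = k then c else 0) - m1 L i * m1 L k) *
      (e * (A k j + if k = j then c else 0) - m1 L k * m1 L j) := by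
    funext i j
    rw [HH, hH]
  have htr : ∑ i, (A i i + if i = i then c else 0) = (∑ i, A i i) + e := by
    rw [tr_shift, hn]
  refine ⟨?_, ?_, ?_, ?_, ?_, ?_, ?_, ?_⟩
  · rw [h2]
    exact htr
  · rw [Tr, hH, ← htr]
    exact tr_H (fun i j => A i j + if i = j then c else 0) e (m1 L)
  · rw [H2, hH]
    refine (sq_H (fun i j => A i j + if i = j then c else 0) e (m1 L)).trans ?_
    rw [qf_shift, sq_shift, sq c, ← mul_assoc, hn]
  · rw [hV, dot_self_lin]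
  · rw [h2, qf_shift]
  · rw [h2, cM_shift]
  · rw [hH]
    refine (qf_H (fun i j => A i j + if i = j then c else 0) e (m1 L) _).trans ?_
    have e1 : qf (Vv L ζ) A (Vv L ζ) = sg ζ ^ 2 * qf (m1 L) A (m1 L) -
        2 * sg ζ * e * qf (bv ζ) A (m1 L) + e ^ 2 * qf (bv ζ) A (bv ζ) := by
      rw [hV, qf_lin hA]
    have e2 : Vv L ζ ⬝ᵥ m1 L = sg ζ * (m1 L ⬝ᵥ m1 L) - e * (bv ζ ⬝ᵥ m1 L) := by
      rw [hV, dot_lin]
    rw [qf_shift, e1, e2]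
  · rw [hHH, hV, cM_lin, cM_HH hC hA, cM_HH hC hA]

end generic

/-! Real scalars of `Nzero`. -/

theorem tr_Ap (L : Var ι → ℝ) (ζ : Idx ι → ℝ) :
    ∑ i, Ap L ζ i i = sg ζ * (∑ i, m2 L i i) - 2 * (bv ζ ⬝ᵥ m1 L) := by
  simp only [Ap, dotProduct, Finset.mul_sum, ← Finset.sum_sub_distrib]
  exact Finset.sum_congr rfl fun i _ => by ring

theorem m2_symm {R : Type} [CommRing R] (L : Var ι → R) (i j : ι) : m2 L i j = m2 L j i :=
  add_comm _ _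

theorem sq_Ap (L : Var ι → ℝ) (ζ : Idx ι → ℝ) :
    ∑ i, ∑ j, Ap L ζ i j * Ap L ζ i j = sg ζ ^ 2 * (∑ i, ∑ j, m2 L i j * m2 L i j) -
      4 * sg ζ * qf (bv ζ) (m2 L) (m1 L) + 2 * (bv ζ ⬝ᵥ bv ζ) * (m1 L ⬝ᵥ m1 L) +
      2 * (bv ζ ⬝ᵥ m1 L) ^ 2 := by
  have h : ∑ i, ∑ j, Ap L ζ i j * Ap L ζ i j = sg ζ ^ 2 * (∑ i, ∑ j, m2 L i j * m2 L i j) -
      2 * sg ζ * qf (bv ζ) (m2 L) (m1 L) - 2 * sg ζ * qf (m1 L) (m2 L) (bv ζ) +
      (∑ i, bv ζ i * bv ζ i) * (∑ j, m1 L j * m1 L j) +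
      (∑ i, m1 L i * m1 L i) * (∑ j, bv ζ j * bv ζ j) +
      2 * ((∑ i, bv ζ i * m1 L i) * (∑ j, bv ζ j * m1 L j)) := by
    rw [Finset.sum_mul_sum, Finset.sum_mul_sum, Finset.sum_mul_sum]
    simp only [Ap, qf, Finset.mul_sum, ← Finset.sum_sub_distrib, ← Finset.sum_add_distrib]
    exact Finset.sum_congr rfl fun i _ => Finset.sum_congr rfl fun j _ => by ring
  rw [h, qf_symm (m2_symm L) (m1 L) (bv ζ)]
  simp only [dotProduct]
  ring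

theorem qf_Ap (L : Var ι → ℝ) (ζ : Idx ι → ℝ) :
    qf (m1 L) (Ap L ζ) (m1 L) = sg ζ * qf (m1 L) (m2 L) (m1 L) -
      2 * (bv ζ ⬝ᵥ m1 L) * (m1 L ⬝ᵥ m1 L) := by
  have h : qf (m1 L) (Ap L ζ) (m1 L) = sg ζ * qf (m1 L) (m2 L) (m1 L) -
      (∑ i, bv ζ i * m1 L i) * (∑ j, m1 L j * m1 L j) -
      (∑ i, m1 L i * m1 L i) * (∑ j, bv ζ j * m1 L j) := by
    rw [Finset.sum_mul_sum, Finset.sum_mul_sum]
    simp only [Ap, qf, Finset.mul_sum, ← Finset.sum_sub_distrib]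
    exact Finset.sum_congr rfl fun i _ => Finset.sum_congr rfl fun j _ => by ring
  rw [h]
  simp only [dotProduct]
  ring

theorem c3_Ap {C : ι → ι → ι → ℝ} (hC : Sym3 C) (L : Var ι → ℝ) (ζ : Idx ι → ℝ) :
    c3 C (fun i => ∑ j, Ap L ζ i j * m1 L j) (m1 L) (m1 L) =
      sg ζ * c3 C (m1 L) (m1 L) (fun i => ∑ k, m2 L i k * m1 L k) -
        (m1 L ⬝ᵥ m1 L) * c3 C (bv ζ) (m1 L) (m1 L) -
        (bv ζ ⬝ᵥ m1 L) * c3 C (m1 L) (m1 L) (m1 L) := by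
  have h : (fun i => ∑ j, Ap L ζ i j * m1 L j) = fun i => sg ζ * (∑ k, m2 L i k * m1 L k) -
      (m1 L ⬝ᵥ m1 L) * bv ζ i - (bv ζ ⬝ᵥ m1 L) * m1 L i := by
    funext i
    simp only [Ap, dotProduct, Finset.mul_sum, Finset.sum_mul, ← Finset.sum_sub_distrib]
    exact Finset.sum_congr rfl fun j _ => by ring
  rw [h, c3_swap hC (m1 L) (m1 L) (fun i => ∑ k, m2 L i k * m1 L k),
    c3_swap' hC (m1 L) (fun i => ∑ k, m2 L i k * m1 L k) (m1 L)]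
  exact c3_comb C (fun i => ∑ k, m2 L i k * m1 L k) (bv ζ) (m1 L) _ _ _ _ _

/-! Compatibility with the cast `ℝ → ℂ`. -/

theorem dot_cast (u v : ι → ℝ) :
    (fun i => (u i : ℂ)) ⬝ᵥ (fun i => (v i : ℂ)) = ((u ⬝ᵥ v : ℝ) : ℂ) := by
  simp only [dotProduct]
  push_cast
  rfl

theorem qf_cast (u v : ι → ℝ) (A : ι → ι → ℝ) :
    qf (fun i => (u i : ℂ)) (fun i j => (A i j : ℂ)) (fun i => (v i : ℂ)) =
      ((qf u A v : ℝ) : ℂ) := by
  simp only [qf]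
  push_cast
  rfl

theorem cM_cast (C : ι → ι → ι → ℝ) (u : ι → ℝ) (A : ι → ι → ℝ) :
    cM C (fun i => (u i : ℂ)) (fun i j => (A i j : ℂ)) = ((cM C u A : ℝ) : ℂ) := by
  simp only [cM, Complex.coe_algebraMap, Algebra.algebraMap_self, RingHom.id_apply]
  push_cast
  rfl

theorem c3_cast (C : ι → ι → ι → ℝ) (u v w : ι → ℝ) :
    c3 C (fun i => (u i : ℂ)) (fun i => (v i : ℂ)) (fun i => (w i : ℂ)) =
      ((c3 C u v w : ℝ) : ℂ) := by
  simp only [c3, Complex.coe_algebraMap, Algebra.algebraMap_self, RingHom.id_apply]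
  push_cast
  rfl

theorem card_ne : (Fintype.card ι : ℂ) ≠ 0 := Nat.cast_ne_zero.2 Fintype.card_ne_zero

theorem m1_line (L₀ : Var ι → ℝ) (ε : ℂ) : m1 (line L₀ ε) = fun i => ((m1 L₀ i : ℝ) : ℂ) := by
  funext i
  simp [m1, line, ev]

theorem tv_line (L₀ : Var ι → ℝ) (ε : ℂ) : tv (line L₀ ε) = fun i => ((tv L₀ i : ℝ) : ℂ) := by
  funext i
  simp [tv, line, ev]

theorem sv_line (L₀ : Var ι → ℝ) (ε : ℂ) : sv (line L₀ ε) = ((sv L₀ : ℝ) : ℂ) := by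
  simp [sv, line, ev]

theorem yv_line (L₀ : Var ι → ℝ) (ε : ℂ) :
    yv (line L₀ ε) = ((yv L₀ : ℝ) : ℂ) + ε * (1 + (((Fintype.card ι : ℝ)⁻¹ : ℝ) : ℂ)) := by
  have := card_ne (ι := ι)
  simp only [yv, line, ev, Sum.elim_inl]
  congr 2
  simp
  field_simp

theorem m2_line (L₀ : Var ι → ℝ) (ε : ℂ) : m2 (line L₀ ε) = fun i j =>
    ((m2 L₀ i j : ℝ) : ℂ) + if i = j then ε * (((Fintype.card ι : ℝ)⁻¹ : ℝ) : ℂ) else 0 := by
  funext i j
  simp only [m2, line, ev, Sum.elim_inr]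
  by_cases h : i = j
  · subst h
    simp only [if_true]
    push_cast
    ring
  · simp only [h, Ne.symm h, if_false]
    push_cast
    ring

theorem card_mul (ε : ℂ) :
    (Fintype.card ι : ℂ) * (ε * (((Fintype.card ι : ℝ)⁻¹ : ℝ) : ℂ)) = ε := by
  have := card_ne (ι := ι)
  push_cast
  field_simp

end ExpAux


theorem m0_line {L₀ : Var ι → ℝ} (h0 : m0 L₀ = 0) (ε : ℂ) : m0 (line L₀ ε) = ε := by
  have h1 : L₀ (.inl 0) = 0 := h0
  simp only [m0, line, ev, Sum.elim_inl, h1]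
  simp

theorem Tr_line {L₀ : Var ι → ℝ} (h0 : m0 L₀ = 0) (ε : ℂ) :
    Tr (line L₀ ε) = ε ^ 2 + (∑ i, m2 L₀ i i : ℝ) * ε - (m1 L₀ ⬝ᵥ m1 L₀ : ℝ) := by
  have hC : Sym3 (fun _ _ _ : ι => (0 : ℝ)) := ⟨fun _ _ _ => rfl, fun _ _ _ => rfl⟩
  have h := (ExpAux.Eh_eq hC (line L₀ ε) (fun _ => 0) (A := fun i j => ((m2 L₀ i j : ℝ) : ℂ))
    (fun i j => by rw [ExpAux.m2_symm L₀ i j]) ε _ (ExpAux.card_mul ε) (m0_line h0 ε)
    (ExpAux.m2_line L₀ ε)).2.1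
  rw [h, ExpAux.m1_line, ExpAux.dot_cast]
  push_cast
  ring

theorem exp_Eh {C : ι → ι → ι → ℝ} (hC : Sym3 C) {L₀ : Var ι → ℝ} (h0 : m0 L₀ = 0)
    (ζ : Idx ι → ℝ) : ∃ N1 N2 N3 : ℝ, ∀ ε : ℂ, Eh C (line L₀ ε) (fun i => (ζ i : ℂ)) =
      ε ^ 2 * ((Nzero C L₀ ζ : ℝ) + N1 * ε + N2 * ε ^ 2 + N3 * ε ^ 3 + (Nfour C ζ : ℝ) * ε ^ 4) := by
  obtain ⟨ni, hni⟩ : ∃ x : ℝ, x = (Fintype.card ι : ℝ)⁻¹ := ⟨_, rfl⟩
  obtain ⟨s, hs⟩ : ∃ x : ℝ, x = sg ζ := ⟨_, rfl⟩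
  obtain ⟨l, hl⟩ : ∃ x : ℝ, x = lm ζ := ⟨_, rfl⟩
  obtain ⟨trA, htrA⟩ : ∃ x : ℝ, x = ∑ i, m2 L₀ i i := ⟨_, rfl⟩
  obtain ⟨trB, htrB⟩ : ∃ x : ℝ, x = ∑ i, ∑ j, m2 L₀ i j * m2 L₀ i j := ⟨_, rfl⟩
  obtain ⟨hAh, hhAh⟩ : ∃ x : ℝ, x = qf (m1 L₀) (m2 L₀) (m1 L₀) := ⟨_, rfl⟩
  obtain ⟨bAh, hbAh⟩ : ∃ x : ℝ, x = qf (bv ζ) (m2 L₀) (m1 L₀) := ⟨_, rfl⟩
  obtain ⟨bAb, hbAb⟩ : ∃ x : ℝ, x = qf (bv ζ) (m2 L₀) (bv ζ) := ⟨_, rfl⟩
  obtain ⟨bh, hbh⟩ : ∃ x : ℝ, x = bv ζ ⬝ᵥ m1 L₀ := ⟨_, rfl⟩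
  obtain ⟨bb, hbb⟩ : ∃ x : ℝ, x = bv ζ ⬝ᵥ bv ζ := ⟨_, rfl⟩
  obtain ⟨bt, hbt⟩ : ∃ x : ℝ, x = bv ζ ⬝ᵥ tv L₀ := ⟨_, rfl⟩
  obtain ⟨eta, heta⟩ : ∃ x : ℝ, x = m1 L₀ ⬝ᵥ m1 L₀ := ⟨_, rfl⟩
  obtain ⟨s0, hs0⟩ : ∃ x : ℝ, x = sv L₀ := ⟨_, rfl⟩
  obtain ⟨y0, hy0⟩ : ∃ x : ℝ, x = yv L₀ := ⟨_, rfl⟩
  obtain ⟨chh, hchh⟩ : ∃ x : ℝ, x = c3 C (m1 L₀) (m1 L₀) (m1 L₀) := ⟨_, rfl⟩
  obtain ⟨cbh, hcbh⟩ : ∃ x : ℝ, x = c3 C (bv ζ) (m1 L₀) (m1 L₀) := ⟨_, rfl⟩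
  obtain ⟨chA, hchA⟩ : ∃ x : ℝ,
    x = c3 C (m1 L₀) (m1 L₀) (fun i => ∑ k, m2 L₀ i k * m1 L₀ k) := ⟨_, rfl⟩
  obtain ⟨cbA, hcbA⟩ : ∃ x : ℝ,
    x = c3 C (bv ζ) (m1 L₀) (fun i => ∑ k, m2 L₀ i k * m1 L₀ k) := ⟨_, rfl⟩
  obtain ⟨dh, hdh⟩ : ∃ x : ℝ, x = cM C (m1 L₀) (m2 L₀) := ⟨_, rfl⟩
  obtain ⟨db, hdb⟩ : ∃ x : ℝ, x = cM C (bv ζ) (m2 L₀) := ⟨_, rfl⟩
  obtain ⟨dh2, hdh2⟩ : ∃ x : ℝ,
    x = cM C (m1 L₀) (fun i j => ∑ k, m2 L₀ i k * m2 L₀ k j) := ⟨_, rfl⟩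
  obtain ⟨db2, hdb2⟩ : ∃ x : ℝ,
    x = cM C (bv ζ) (fun i j => ∑ k, m2 L₀ i k * m2 L₀ k j) := ⟨_, rfl⟩
  obtain ⟨dhI, hdhI⟩ : ∃ x : ℝ, x = ∑ i, ∑ j, C i j j * m1 L₀ i := ⟨_, rfl⟩
  obtain ⟨dbI, hdbI⟩ : ∃ x : ℝ, x = ∑ i, ∑ j, C i j j * bv ζ i := ⟨_, rfl⟩
  have hN0 : Nzero C L₀ ζ = eta * (20 * (s * trA - 2 * bh) ^ 2 +
        2 * (s ^ 2 * trB - 4 * s * bAh + 2 * bb * eta + 2 * bh ^ 2)) +
      8 * (s * trA - 2 * bh) * (s * hAh - 2 * bh * eta) -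
      2 * l * (2 * (s * chA - eta * cbh - bh * chh) - chh * (s * trA - 2 * bh)) +
      5 * eta ^ 2 * l ^ 2 := by
    rw [Nzero, ExpAux.tr_Ap, ExpAux.sq_Ap, ExpAux.qf_Ap, ExpAux.c3_Ap hC, hs, hl, htrA, htrB, hhAh,
      hbAh, hbh, hbb, heta, hchh, hcbh, hchA]
  have hN4 : Nfour C ζ = s ^ 2 * (6 + 24 * ni) + bb * (8 + 112 * ni) + l ^ 2 * (6 - ni) +
      l * dbI * ni * (6 - 2 * ni) := by
    rw [Nfour, hs, hl, hbb, hdbI, hni]
    ring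
  refine ⟨-116 * bAb * eta + 8 * bAh * s * trA - 16 * bb * eta * trA + 8 * bb * hAh - 24 * bh * eta
      * ni * s - 96 * bh * eta * s + 104 * bh * s * trA ^ 2 + 8 * bh * s * trB - 116 * bh ^ 2 *
      trA + 120 * bt * eta * s + 4 * cbA * l - 6 * cbh * l * trA - 4 * chh * l * ni * s + 2 *
      chh * l * s - 6 * db * eta * l + 2 * dh2 * l * s + 2 * eta * l * s * s0 - 12 * eta * l ^ 2
      * trA + 12 * eta * ni * s ^ 2 * trA + 40 * eta * s ^ 2 * trA - 30 * eta * s ^ 2 * y0 + 2 *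
      hAh * l ^ 2 + 8 * hAh * s ^ 2 - 6 * s ^ 2 * trA * trB - 24 * s ^ 2 * trA ^ 3,
    116 * bAb * trA + 8 * bAh * s - 16 * bb * eta - 108 * bb * eta * ni + 8 * bb * trA ^ 2 - 4
      * bb * trB + 24 * bh * ni * s * trA + 208 * bh * s * trA - 116 * bh ^ 2 - 120 * bt * s *
      trA - 6 * cbh * l + 4 * cbh * l * ni + 6 * db * l * trA - 2 * db2 * l - 6 * dbI * eta * l
      * ni + 4 * dh * l * ni * s - 12 * eta * l ^ 2 + 2 * eta * l ^ 2 * ni - 20 * eta * ni * s ^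
      2 - 10 * eta * s ^ 2 - 2 * l * s * s0 * trA + 6 * l ^ 2 * trA ^ 2 - l ^ 2 * trB - 12 * ni
      * s ^ 2 * trA ^ 2 + 30 * s ^ 2 * trA * y0 - 72 * s ^ 2 * trA ^ 2 - 6 * s ^ 2 * trB,
    116 * bAb + 108 * bb * ni * trA + 16 * bb * trA + 16 * bh * ni * s + 104 * bh * s - 120 *
      bt * s + 6 * db * l - 4 * db * l * ni + 6 * dbI * l * ni * trA + 2 * dhI * l * ni ^ 2 * s
      - 2 * l * s * s0 - 2 * l ^ 2 * ni * trA + 12 * l ^ 2 * trA + 12 * ni * s ^ 2 * trA - 42 *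
      s ^ 2 * trA + 30 * s ^ 2 * y0, fun ε => ?_⟩
  have hsg : sg (fun i => (ζ i : ℂ)) = (s : ℂ) := by rw [hs]; rfl
  have hlm : lm (fun i => (ζ i : ℂ)) = (l : ℂ) := by rw [hl]; rfl
  have hbv : bv (fun i => (ζ i : ℂ)) = fun i => ((bv ζ i : ℝ) : ℂ) := rfl
  have hm0 := m0_line h0 ε
  have hm1 := ExpAux.m1_line L₀ ε
  have hx : (fun i => ∑ k, ((m2 L₀ i k : ℝ) : ℂ) * ((m1 L₀ k : ℝ) : ℂ)) =
      fun i => ((∑ k, m2 L₀ i k * m1 L₀ k : ℝ) : ℂ) := by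
    funext i
    push_cast
    rfl
  have hA2 : (fun i j => ∑ k, ((m2 L₀ i k : ℝ) : ℂ) * ((m2 L₀ k j : ℝ) : ℂ)) =
      fun i j => ((∑ k, m2 L₀ i k * m2 L₀ k j : ℝ) : ℂ) := by
    funext i j
    push_cast
    rfl
  have c1 : ∑ i, ((m2 L₀ i i : ℝ) : ℂ) = (trA : ℂ) := by
    rw [htrA]
    push_cast
    rfl
  have c2 : ∑ i, ∑ j, ((m2 L₀ i j : ℝ) : ℂ) * ((m2 L₀ i j : ℝ) : ℂ) = (trB : ℂ) := by
    rw [htrB]
    push_cast
    rfl
  have c3' : ∑ i, ∑ j, algebraMap ℝ ℂ (C i j j) * ((m1 L₀ i : ℝ) : ℂ) = (dhI : ℂ) := by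
    rw [hdhI]
    push_cast
    rfl
  have c4 : ∑ i, ∑ j, algebraMap ℝ ℂ (C i j j) * ((bv ζ i : ℝ) : ℂ) = (dbI : ℂ) := by
    rw [hdbI]
    push_cast
    rfl
  obtain ⟨e1, e2, e3, e4, e5, e6, e7, e8⟩ := ExpAux.Eh_eq hC (line L₀ ε) (fun i => (ζ i : ℂ))
    (A := fun i j => ((m2 L₀ i j : ℝ) : ℂ))
    (fun i j => by rw [ExpAux.m2_symm L₀ i j]) ε _ (ExpAux.card_mul ε) hm0 (ExpAux.m2_line L₀ ε)
  rw [Eh, LF, FH, Br, e1, e5, e6, e7, e8, hm0, ExpAux.yv_line, ExpAux.sv_line, ExpAux.tv_line]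
  generalize Tr (line L₀ ε) = T at e2 ⊢
  generalize H2 (line L₀ ε) = H at e3 ⊢
  generalize Vv (line L₀ ε) (fun i => (ζ i : ℂ)) ⬝ᵥ Vv (line L₀ ε) (fun i => (ζ i : ℂ)) = VV
    at e4 ⊢
  simp only [hm1, hsg, hlm, hbv, hx, hA2, c1, c2, c3', c4, ExpAux.dot_cast, ExpAux.qf_cast,
    ExpAux.cM_cast, ExpAux.c3_cast, ← hni, ← hhAh, ← hbAh, ← hbAb, ← hbh, ← hbb, ← hbt, ← heta,
    ← hs0, ← hy0, ← hchh, ← hcbh, ← hchA, ← hcbA, ← hdh, ← hdb, ← hdh2, ← hdb2] at e2 e3 e4 ⊢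
  rw [hN0, hN4]
  push_cast
  exact ExpAux.poly_id ε ni s l trA trB hAh bAh bAb bh bb bt eta s0 y0 chh cbh chA cbA dh db dh2
    db2 dhI dbI _ T H VV rfl e2 e3 e4


end Crest.Agent.R237
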