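import Crest.Agent.R237.Mat

/-!
# Row 237: the shape of a sum of squares decomposition
-/

set_option autoImplicit false
set_option linter.unusedSectionVars false

noncomputable section

namespace Crest.Agent.R237

open MvPolynomial Matrix

variable {ι : Type} [Fintype ι] [DecidableEq ι]

namespace ExtrAux

theorem mono (s : ι →₀ ℕ) (hs : (s.sum fun _ e => e) ≤ 2) (a : ℝ) :
    ∃ (c : ℝ) (l : ι → ℝ) (A : Matrix ι ι ℝ), ∀ x : ι → ℝ,
      eval x (monomial s a) = c + l ⬝ᵥ x + x ⬝ᵥ A *ᵥ x := by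
  obtain ⟨M, rfl⟩ := Multiset.toFinsupp.surjective s
  have h1 : Multiset.card M ≤ 2 := by
    rw [← Multiset.toFinsupp_toMultiset M, Finsupp.card_toMultiset]
    exact hs
  obtain h | h | h : Multiset.card M = 0 ∨ Multiset.card M = 1 ∨ Multiset.card M = 2 := by omega
  · rw [Multiset.card_eq_zero.1 h]
    exact ⟨a, 0, 0, fun x => by simp⟩
  · obtain ⟨i, rfl⟩ := Multiset.card_eq_one.1 h
    exact ⟨0, Pi.single i a, 0, fun x => by simp [eval_monomial]⟩
  · obtain ⟨i, j, rfl⟩ := Multiset.card_eq_two.1 h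
    refine ⟨0, 0, Matrix.single i j a, fun x => ?_⟩
    rw [Multiset.insert_eq_cons, ← Multiset.singleton_add, Multiset.toFinsupp_add,
      Multiset.toFinsupp_singleton, Multiset.toFinsupp_singleton, monomial_single_add,
      Matrix.single_mulVec]
    change _ = 0 + 0 ⬝ᵥ x + x ⬝ᵥ Pi.single i (a * x j)
    simp [eval_monomial]

theorem shape {p : MvPolynomial ι ℝ} (hp : p.totalDegree ≤ 2) :
    ∃ (c : ℝ) (l : ι → ℝ) (A : Matrix ι ι ℝ), A.IsSymm ∧ ∀ x : ι → ℝ,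
      eval x p = c + l ⬝ᵥ x + x ⬝ᵥ A *ᵥ x := by
  choose c l A h using fun s : p.support => mono s.1 ((le_totalDegree s.2).trans hp) (coeff s.1 p)
  refine ⟨∑ s, c s, ∑ s, l s, (1 / 2 : ℝ) • (∑ s, A s + (∑ s, A s)ᵀ),
    (isSymm_add_transpose_self _).smul _, fun x => ?_⟩
  rw [smul_mulVec, add_mulVec, dotProduct_smul, dotProduct_add, dotProduct_transpose_mulVec,
    smul_eq_mul, ← two_mul, ← mul_assoc, one_div_mul_cancel two_ne_zero, one_mul, sum_mulVec,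
    dotProduct_sum, sum_dotProduct, ← Finset.sum_add_distrib, ← Finset.sum_add_distrib]
  conv_lhs => rw [p.as_sum, map_sum, ← Finset.sum_coe_sort]
  exact Finset.sum_congr rfl fun s _ => h s x

end ExtrAux

theorem sos_degree {m : ℕ} (g : Fin m → MvPolynomial ι ℝ) (h : (∑ j, g j ^ 2).totalDegree ≤ 4)
    (j : Fin m) : (g j).totalDegree ≤ 2 := by
  cases exists_wellFoundedGT ι
  obtain ⟨k, -, hk⟩ := Finset.exists_max_image Finset.univ
    (fun j => MonomialOrder.degLex.toSyn (MonomialOrder.degLex.degree (g j))) ⟨j, Finset.mem_univ j⟩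
  refine (degLex_totalDegree_monotone (hk j (Finset.mem_univ j))).trans ?_
  by_cases h0 : g k = 0
  · simp [h0]
  have h1 : 0 < coeff (MonomialOrder.degLex.degree (g k) + MonomialOrder.degLex.degree (g k))
      (∑ j, g j ^ 2) := by
    rw [coeff_sum]
    simp only [sq, fun j => MonomialOrder.coeff_mul_of_add_of_degree_le (hk j (Finset.mem_univ j))
      (hk j (Finset.mem_univ j))]
    exact Finset.sum_pos' (fun j _ => mul_self_nonneg _) ⟨k, Finset.mem_univ k,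
      mul_self_pos.2 (MonomialOrder.coeff_degree_ne_zero_iff.2 h0)⟩
  have h2 : Finsupp.degree _ ≤ 4 := (le_totalDegree (mem_support_iff.2 h1.ne')).trans h
  rw [map_add, degree_degLexDegree] at h2
  omega

theorem sos_extract {C : ι → ι → ι → ℝ} {m : ℕ} {g : Fin m → MvPolynomial ι ℝ}
    (h : fpol C (X : ι → MvPolynomial ι ℝ) 1 = ∑ j, g j ^ 2) :
    ∃ (A : Fin m → Matrix ι ι ℝ) (l : Fin m → ι → ℝ), (∀ j, (A j).IsSymm) ∧
      (∀ x : ι → ℝ, ∑ j, (x ⬝ᵥ A j *ᵥ x) ^ 2 = 30 * (x ⬝ᵥ x) ^ 2) ∧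
      (∀ x : ι → ℝ, ∑ j, (l j ⬝ᵥ x) * (x ⬝ᵥ A j *ᵥ x) = c3 C x x x) ∧
      ∀ x : ι → ℝ, ∑ j, (l j ⬝ᵥ x) ^ 2 = 6 * (x ⬝ᵥ x) := by
  choose c l A hA he using fun j => ExtrAux.shape (sos_degree g (h ▸ totalDegree_fpol C) j)
  have h1 : ∀ x : ι → ℝ, ∑ j, (c j + l j ⬝ᵥ x + x ⬝ᵥ A j *ᵥ x) ^ 2 =
      30 * (x ⬝ᵥ x) ^ 2 - 2 * c3 C x x x + 6 * (x ⬝ᵥ x) := fun x => by
    have h2 := congrArg (aeval x) h
    rw [map_fpol, map_sum] at h2
    simp only [aeval_X, map_one, map_pow, fpol, mul_one, one_pow] at h2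
    simp only [← he]
    exact h2.symm
  have hc : ∀ j, c j = 0 := fun j => by
    have h2 := h1 0
    simp only [dotProduct_zero, mulVec_zero, add_zero, c3, Pi.zero_apply, mul_zero,
      Finset.sum_const_zero, ne_eq, OfNat.ofNat_ne_zero, not_false_eq_true, zero_pow,
      sub_zero] at h2
    exact pow_eq_zero_iff two_ne_zero |>.1
      ((Finset.sum_eq_zero_iff_of_nonneg fun j _ => sq_nonneg _).1 h2 j (Finset.mem_univ j))
  have h3 : ∀ (x : ι → ℝ) (t : ℝ), t ^ 2 * ∑ j, (l j ⬝ᵥ x) ^ 2 +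
      2 * t ^ 3 * ∑ j, (l j ⬝ᵥ x) * (x ⬝ᵥ A j *ᵥ x) + t ^ 4 * ∑ j, (x ⬝ᵥ A j *ᵥ x) ^ 2 =
      30 * t ^ 4 * (x ⬝ᵥ x) ^ 2 - 2 * t ^ 3 * c3 C x x x + 6 * t ^ 2 * (x ⬝ᵥ x) := fun x t => by
    have h2 := h1 (t • x)
    have h4 : c3 C (t • x) (t • x) (t • x) = t ^ 3 * c3 C x x x := by
      simp only [c3, Finset.mul_sum, Pi.smul_apply, smul_eq_mul]
      exact Finset.sum_congr rfl fun _ _ => Finset.sum_congr rfl fun _ _ =>
        Finset.sum_congr rfl fun _ _ => by ring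
    simp only [h4, hc, zero_add, mulVec_smul, dotProduct_smul, smul_dotProduct, smul_eq_mul] at h2
    simp only [Finset.mul_sum, ← Finset.sum_add_distrib]
    rw [Finset.sum_congr rfl fun j _ => show _ = (t * (l j ⬝ᵥ x) + t * (t * (x ⬝ᵥ A j *ᵥ x))) ^ 2 by
      ring, h2]
    ring
  refine ⟨A, fun j => -l j, hA, fun x => ?_, fun x => ?_, fun x => ?_⟩
  · linarith [h3 x 1, h3 x (-1), h3 x 2]
  · simp only [neg_dotProduct, neg_mul, Finset.sum_neg_distrib]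
    linarith [h3 x 1, h3 x (-1)]
  · simp only [neg_dotProduct, neg_sq]
    linarith [h3 x 1, h3 x (-1), h3 x 2]


end Crest.Agent.R237
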