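import Crest.Agent.R237.Polar

/-!
# Row 237: the deterministic inequality
-/

set_option autoImplicit false
set_option linter.unusedSectionVars false

noncomputable section

namespace Crest.Agent.R237

open MvPolynomial Matrix

variable {ι : Type} [Fintype ι] [DecidableEq ι] {m : ℕ} {A : Fin m → Matrix ι ι ℝ}
  {l : Fin m → ι → ℝ}

namespace GapDetAux

open scoped Kronecker

theorem vec_ineq {κ : Type} [Fintype κ] {K : Matrix κ κ ℝ} (hK : K.IsSymm) (a : κ → ℝ) {θ : ℝ}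
    (hθ : 0 < θ) :
    -(a ⬝ᵥ K *ᵥ a) ≤ θ * (a ⬝ᵥ a) + 1 / θ ^ 3 * ∑ p, ((K * K) *ᵥ a) p ^ 2 := by
  rw [← mulVec_mulVec]
  have h1 : a ⬝ᵥ K *ᵥ (K *ᵥ a) = (K *ᵥ a) ⬝ᵥ (K *ᵥ a) := by
    rw [dotProduct_mulVec, ← mulVec_transpose, hK.eq]
  generalize K *ᵥ (K *ᵥ a) = c at h1
  generalize K *ᵥ a = b at h1
  have h2 : 0 ≤ ∑ p, ((c p - θ ^ 2 * a p / 2) ^ 2 + θ ^ 2 * (b p + θ * a p / 2) ^ 2 +
      θ ^ 4 * a p ^ 2 / 2) := Finset.sum_nonneg fun p _ => by positivity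
  have h3 : ∑ p, ((c p - θ ^ 2 * a p / 2) ^ 2 + θ ^ 2 * (b p + θ * a p / 2) ^ 2 +
      θ ^ 4 * a p ^ 2 / 2) = ∑ p, c p ^ 2 - θ ^ 2 * (a ⬝ᵥ c) + θ ^ 2 * (b ⬝ᵥ b) +
        θ ^ 3 * (a ⬝ᵥ b) + θ ^ 4 * (a ⬝ᵥ a) := by
    simp only [dotProduct, Finset.mul_sum, ← Finset.sum_add_distrib, ← Finset.sum_sub_distrib]
    exact Finset.sum_congr rfl fun p _ => by ring
  rw [h3, h1] at h2
  have h4 : 0 < θ ^ 3 := by positivity
  refine le_of_mul_le_mul_left ?_ h4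
  rw [mul_add, ← mul_assoc (θ ^ 3) (1 / θ ^ 3), mul_one_div_cancel h4.ne']
  linarith

theorem tr_eq {A G : Matrix ι ι ℝ} (hA : A.IsSymm) (hG : G.IsSymm) :
    (A * G * A * G).trace =
      (fun p : ι × ι => A p.1 p.2) ⬝ᵥ (G ⊗ₖ G) *ᵥ fun p : ι × ι => A p.1 p.2 := by
  simp only [trace, diag, mul_apply, dotProduct, mulVec, Fintype.sum_prod_type,
    kroneckerMap_apply, Finset.sum_mul, Finset.mul_sum]
  refine Finset.sum_congr rfl fun x _ => ?_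
  rw [Finset.sum_congr rfl fun w _ => Finset.sum_comm, Finset.sum_comm]
  refine Finset.sum_congr rfl fun y _ => Finset.sum_congr rfl fun w _ =>
    Finset.sum_congr rfl fun z _ => ?_
  rw [hA.apply w z, hG.apply x w]
  ring

theorem tr_mul {κ : Type} [Fintype κ] (A : Matrix κ κ ℝ) {G : Matrix κ κ ℝ} (hG : G.IsSymm) :
    (A * G).trace = ∑ a, ∑ b, A a b * G a b := by
  simp only [trace, diag, mul_apply]
  exact Finset.sum_congr rfl fun a _ => Finset.sum_congr rfl fun b _ => by rw [hG.apply a b]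

end GapDetAux

open GapDetAux in
open scoped Kronecker in
/-- The crossed term. -/
theorem cross_le (hA : ∀ j, (A j).IsSymm)
    (h : ∀ x : ι → ℝ, ∑ j, (x ⬝ᵥ A j *ᵥ x) ^ 2 = 30 * (x ⬝ᵥ x) ^ 2) {τ : Type} (s : Finset τ)
    (G : τ → Matrix ι ι ℝ) (hG : ∀ i, (G i).IsSymm) {θ : ℝ} (hθ : 0 < θ) :
    -∑ i ∈ s, ∑ j, (A j * G i * A j * G i).trace ≤ 45 * (Fintype.card ι : ℝ) ^ 2 * θ +
      30 * Fintype.card ι / θ ^ 3 *
        ∑ i ∈ s, ∑ j ∈ s, ∑ k ∈ s, ∑ l ∈ s, (G i * G j * G k * G l).trace ^ 2 := by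
  obtain ⟨K, hK⟩ : ∃ K : Matrix (ι × ι) (ι × ι) ℝ, K = ∑ i ∈ s, G i ⊗ₖ G i := ⟨_, rfl⟩
  have hs : K.IsSymm := by
    rw [hK, Matrix.IsSymm, transpose_sum]
    exact Finset.sum_congr rfl fun i _ => by rw [← kroneckerMap_transpose, (hG i).eq]
  have hs2 : (K * K).IsSymm := by rw [Matrix.IsSymm, transpose_mul, hs.eq]
  have h1 : ∑ i ∈ s, ∑ j, (A j * G i * A j * G i).trace =
      ∑ j, (fun p : ι × ι => A j p.1 p.2) ⬝ᵥ K *ᵥ fun p : ι × ι => A j p.1 p.2 := by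
    rw [Finset.sum_comm]
    refine Finset.sum_congr rfl fun j _ => ?_
    rw [hK, sum_mulVec, dotProduct_sum]
    exact Finset.sum_congr rfl fun i _ => tr_eq (hA j) (hG i)
  have h2 : ∑ i ∈ s, ∑ j ∈ s, ∑ k ∈ s, ∑ l ∈ s, (G i * G j * G k * G l).trace ^ 2 =
      ∑ p, ∑ a, ∑ b, (K * K) p (a, b) ^ 2 := by
    have e1 : ∑ p, ∑ a, ∑ b, (K * K) p (a, b) ^ 2 = (K * K * (K * K)).trace := by
      rw [tr_mul _ hs2]
      exact Finset.sum_congr rfl fun p _ => by simp only [Fintype.sum_prod_type, sq]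
    rw [e1, ← mul_assoc]
    conv_rhs => rw [mul_assoc, mul_assoc, hK, Finset.sum_mul, trace_sum]
    refine Finset.sum_congr rfl fun i _ => ?_
    rw [Finset.sum_mul, Finset.mul_sum, trace_sum]
    refine Finset.sum_congr rfl fun j _ => ?_
    rw [Finset.sum_mul, Finset.mul_sum, Finset.mul_sum, trace_sum]
    refine Finset.sum_congr rfl fun k _ => ?_
    rw [Finset.mul_sum, Finset.mul_sum, Finset.mul_sum, trace_sum]
    refine Finset.sum_congr rfl fun l _ => ?_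
    rw [← mul_kronecker_mul, ← mul_kronecker_mul, ← mul_kronecker_mul, trace_kronecker, sq,
      mul_assoc, mul_assoc]
  have h3 : ∑ j, ∑ p, ((K * K) *ᵥ fun p : ι × ι => A j p.1 p.2) p ^ 2 ≤
      30 * Fintype.card ι * ∑ p, ∑ a, ∑ b, (K * K) p (a, b) ^ 2 := by
    rw [Finset.sum_comm, Finset.mul_sum]
    refine Finset.sum_le_sum fun p _ => le_of_eq_of_le ?_ (gram_le hA h fun a b => (K * K) p (a, b))
    refine Finset.sum_congr rfl fun j _ => ?_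
    simp only [mulVec, dotProduct, Fintype.sum_prod_type, mul_comm]
  have h4 : ∑ j, (fun p : ι × ι => A j p.1 p.2) ⬝ᵥ (fun p : ι × ι => A j p.1 p.2) ≤
      45 * (Fintype.card ι : ℝ) ^ 2 := by
    refine le_of_eq_of_le ?_ (frob_le hA h)
    simp only [dotProduct, Fintype.sum_prod_type, sq]
  rw [h1, h2, ← Finset.sum_neg_distrib]
  refine (Finset.sum_le_sum fun j _ => vec_ineq hs _ hθ).trans ?_
  rw [Finset.sum_add_distrib, ← Finset.mul_sum, ← Finset.mul_sum]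
  refine add_le_add ?_ ?_
  · rw [mul_comm]
    exact mul_le_mul_of_nonneg_right h4 hθ.le
  · refine (mul_le_mul_of_nonneg_left h3 (by positivity)).trans (le_of_eq ?_)
    ring

open GapDetAux in
theorem gap_ineq [Nonempty ι] (hA : ∀ j, (A j).IsSymm) {Γ : ι → ι → ι → ℝ} (hΓ : Sym3 Γ)
    {lam : ℝ} (hlam : 0 < lam)
    (h4 : ∀ x : ι → ℝ, ∑ j, (x ⬝ᵥ A j *ᵥ x) ^ 2 = 30 * (x ⬝ᵥ x) ^ 2)
    (h3 : ∀ x : ι → ℝ, ∑ j, (l j ⬝ᵥ x) * (x ⬝ᵥ A j *ᵥ x) = c3 (fun i a b => Γ i a b / lam) x x x)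
    (h2 : ∀ x : ι → ℝ, ∑ j, (l j ⬝ᵥ x) ^ 2 = 6 * (x ⬝ᵥ x)) (h0 : ∀ i, ∑ a, Γ i a a = 0)
    (ty : ι → Fin 3) {D θ : ℝ} (hθ : 0 < θ)
    (hD : ∀ t, ∑ i with ty i = t, ∑ j with ty j = t, ∑ k with ty k = t, ∑ l with ty l = t,
      (Matrix.of (Γ i) * Matrix.of (Γ j) * Matrix.of (Γ k) * Matrix.of (Γ l)).trace ^ 2 ≤ D) :
    (∑ i, ∑ a, ∑ b, Γ i a b ^ 2) ^ 2 / (6 * Fintype.card ι * lam ^ 2) ≤
      60 * ∑ i, ∑ a, ∑ b, Γ i a b ^ 2 +
        6 * (45 * (Fintype.card ι : ℝ) ^ 2 * θ + 30 * Fintype.card ι / θ ^ 3 * D) := by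
  have hG : ∀ i, (Matrix.of (Γ i)).IsSymm := fun i => Matrix.IsSymm.ext fun a b => hΓ.2 i b a
  have hn : (0 : ℝ) < Fintype.card ι := Nat.cast_pos.2 Fintype.card_pos
  have e1 := polar3 hA (C := fun i a b => Γ i a b / lam)
    ⟨fun i j k => by simp only [hΓ.1 i j k], fun i j k => by simp only [hΓ.2 i j k]⟩ hΓ h3
  have e2 : ∑ i, ∑ a, ∑ b, Γ i a b / lam * Γ i a b = (∑ i, ∑ a, ∑ b, Γ i a b ^ 2) / lam := by
    simp only [Finset.sum_div]
    exact Finset.sum_congr rfl fun i _ => Finset.sum_congr rfl fun a _ =>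
      Finset.sum_congr rfl fun b _ => by ring
  have e3 := Finset.sum_mul_sq_le_sq_mul_sq (Finset.univ : Finset (ι × Fin m))
    (fun p => l p.2 p.1) fun p => ∑ a, ∑ b, A p.2 a b * Γ p.1 a b
  simp only [Fintype.sum_prod_type] at e3
  rw [e1, e2, polar2 h2] at e3
  have e4 : ∀ i, ∑ j, (∑ a, ∑ b, A j a b * Γ i a b) ^ 2 = 60 * ∑ a, ∑ b, Γ i a b ^ 2 +
      2 * -∑ j, (A j * Matrix.of (Γ i) * A j * Matrix.of (Γ i)).trace := by
    intro i
    have := polar4 hA h4 (hG i)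
    have t0 : (Matrix.of (Γ i)).trace = 0 := h0 i
    rw [tr_mul (Matrix.of (Γ i)) (hG i)] at this
    simp only [tr_mul (A _) (hG i), of_apply, t0,
      Finset.sum_add_distrib, ← Finset.mul_sum, ← sq] at this
    linarith
  have e5 : -∑ i, ∑ j, (A j * Matrix.of (Γ i) * A j * Matrix.of (Γ i)).trace ≤
      3 * (45 * (Fintype.card ι : ℝ) ^ 2 * θ + 30 * Fintype.card ι / θ ^ 3 * D) := by
    rw [← Finset.sum_fiberwise Finset.univ ty, ← Finset.sum_neg_distrib]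
    refine (Finset.sum_le_card_nsmul _ _ _ fun t _ => (cross_le hA h4 _ _ hG hθ).trans
      (add_le_add le_rfl (mul_le_mul_of_nonneg_left (hD t) (by positivity)))).trans (le_of_eq ?_)
    rw [Finset.card_univ, Fintype.card_fin, nsmul_eq_mul, Nat.cast_ofNat]
  rw [Finset.sum_congr rfl fun i _ => e4 i, Finset.sum_add_distrib, ← Finset.mul_sum,
    ← Finset.mul_sum, Finset.sum_neg_distrib, div_pow, div_le_iff₀ (by positivity)] at e3
  rw [div_le_iff₀ (by positivity)]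
  refine e3.trans ?_
  rw [mul_comm (6 * _) (60 * _ + _), mul_assoc]
  exact mul_le_mul_of_nonneg_right (by linarith) (by positivity)


end Crest.Agent.R237
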