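import Crest.Agent.R237.Defs

/-!
# Row 237: the eighth moment of a random sign tensor
-/

set_option autoImplicit false
set_option linter.unusedSectionVars false

noncomputable section

namespace Crest.Agent.R237

open MvPolynomial Matrix

namespace MomAux

variable {d : ℕ} {K L : ℝ} {A B : Matrix (Fin d) (Fin d) ℝ}

theorem dot_nonneg (z : Fin d → ℝ) : 0 ≤ z ⬝ᵥ z := Finset.sum_nonneg fun _ _ => mul_self_nonneg _

theorem op_vec (hK : 0 ≤ K) (h : ∀ y z, (y ⬝ᵥ A *ᵥ z) ^ 2 ≤ K * ((y ⬝ᵥ y) * (z ⬝ᵥ z)))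
    (z : Fin d → ℝ) : (A *ᵥ z) ⬝ᵥ (A *ᵥ z) ≤ K * (z ⬝ᵥ z) := by
  rcases (dot_nonneg (A *ᵥ z)).eq_or_lt with h0 | h0
  · rw [← h0]
    exact mul_nonneg hK (dot_nonneg z)
  · refine le_of_mul_le_mul_left ?_ h0
    linarith [h (A *ᵥ z) z]

theorem op_mul (hK : 0 ≤ K) (hL : 0 ≤ L)
    (h : ∀ y z, (y ⬝ᵥ A *ᵥ z) ^ 2 ≤ K * ((y ⬝ᵥ y) * (z ⬝ᵥ z)))
    (h' : ∀ y z, (y ⬝ᵥ B *ᵥ z) ^ 2 ≤ L * ((y ⬝ᵥ y) * (z ⬝ᵥ z))) (y z : Fin d → ℝ) :
    (y ⬝ᵥ (A * B) *ᵥ z) ^ 2 ≤ K * L * ((y ⬝ᵥ y) * (z ⬝ᵥ z)) := by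
  rw [← mulVec_mulVec]
  refine (h _ _).trans ((mul_le_mul_of_nonneg_left
    (mul_le_mul_of_nonneg_left (op_vec hL h' z) (dot_nonneg y)) hK).trans_eq (by ring))

theorem op_tr (h : ∀ y z, (y ⬝ᵥ A *ᵥ z) ^ 2 ≤ K * ((y ⬝ᵥ y) * (z ⬝ᵥ z))) (y z : Fin d → ℝ) :
    (y ⬝ᵥ Aᵀ *ᵥ z) ^ 2 ≤ K * ((y ⬝ᵥ y) * (z ⬝ᵥ z)) := by
  rw [mulVec_transpose, dotProduct_comm, ← dotProduct_mulVec, mul_comm (y ⬝ᵥ y)]
  exact h z y

theorem op_frob (hK : 0 ≤ K) (h : ∀ y z, (y ⬝ᵥ A *ᵥ z) ^ 2 ≤ K * ((y ⬝ᵥ y) * (z ⬝ᵥ z))) :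
    ∑ p : Fin d × Fin d, A p.1 p.2 ^ 2 ≤ d * K := by
  rw [Fintype.sum_prod_type_right]
  refine (Finset.sum_le_card_nsmul _ _ K fun k _ => ?_).trans (by simp)
  simpa [dotProduct, sq, Pi.single_apply] using op_vec hK h (Pi.single k 1)

theorem op_trace (h : ∀ y z, (y ⬝ᵥ A *ᵥ z) ^ 2 ≤ K * ((y ⬝ᵥ y) * (z ⬝ᵥ z))) :
    A.trace ^ 2 ≤ d * (d * K) := by
  refine sq_sum_le_card_mul_sum_sq.trans ?_
  rw [Finset.card_univ, Fintype.card_fin]
  refine mul_le_mul_of_nonneg_left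
    ((Finset.sum_le_card_nsmul _ _ K fun k _ => ?_).trans (by simp)) d.cast_nonneg
  simpa using h (Pi.single k 1) (Pi.single k 1)

theorem op_good {c : ℝ} {T : Ten d} (h : Good c T) (i : Fin d) (y z : Fin d → ℝ) :
    (y ⬝ᵥ sl T i *ᵥ z) ^ 2 ≤ c * d * ((y ⬝ᵥ y) * (z ⬝ᵥ z)) := by
  have h1 := h (Pi.single i 1) y z
  rw [Finset.sum_eq_single i (fun b _ hb => by simp [hb]) (by simp)] at h1
  simpa [dotProduct, mulVec, sl, Finset.mul_sum, mul_left_comm, Pi.single_apply] using h1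

/-- The signs of one slice are orthonormal. -/
theorem orth (a : Fin d) (M : Ten d → Fin d × Fin d → ℝ)
    (hM : ∀ T T', (∀ b, b ≠ a → T b = T' b) → M T = M T') :
    ∑ T : Ten d, (∑ p : Fin d × Fin d, sgn (T a p.1 p.2) * M T p) ^ 2 = ∑ T, ∑ p, M T p ^ 2 := by
  simp only [sq, Finset.sum_mul_sum]
  rw [Finset.sum_comm, Finset.sum_comm (s := Finset.univ (α := Ten d))]
  refine Finset.sum_congr rfl fun p _ => ?_
  rw [Finset.sum_comm, Finset.sum_eq_single_of_mem p (Finset.mem_univ _)]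
  · refine Finset.sum_congr rfl fun T _ => ?_
    cases T a p.1 p.2 <;> simp [sgn]
  · intro q _ hq
    have hi : Function.Involutive fun (T : Ten d) (i j k : Fin d) =>
        if i = a ∧ (j, k) = p then !T i j k else T i j k := fun T => by
      funext i j k
      by_cases h : i = a ∧ (j, k) = p <;> simp [h]
    have h1 := Equiv.sum_comp hi.toPerm
      fun T => sgn (T a p.1 p.2) * M T p * (sgn (T a q.1 q.2) * M T q)
    rw [← CharZero.eq_neg_self_iff, ← Finset.sum_neg_distrib, ← h1]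
    refine Finset.sum_congr rfl fun T _ => ?_
    rw [hM (Function.Involutive.toPerm _ hi T) T fun b hb => by funext j k; simp [hb]]
    cases h : T a p.1 p.2 <;> cases h' : T a q.1 q.2 <;> simp [sgn, h, h', hq]

open Classical in
theorem key {c : ℝ} (hc : 0 ≤ c) {i j k l : Fin d} (h : j ≠ i ∧ k ≠ i ∧ l ≠ i) :
    ∑ T ∈ (Finset.univ : Finset (Ten d)).filter (Good c),
      (sl T i * (sl T j)ᵀ * sl T k * (sl T l)ᵀ).trace ^ 2 ≤
        Fintype.card (Ten d) * (d * (c * d * (c * d) * (c * d))) := by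
  have h0 : 0 ≤ c * d := mul_nonneg hc d.cast_nonneg
  have h1 := orth i (fun T p => if ∀ b, b ≠ i → ∀ y z,
      (y ⬝ᵥ sl T b *ᵥ z) ^ 2 ≤ c * d * ((y ⬝ᵥ y) * (z ⬝ᵥ z)) then
        (sl T l * (sl T k)ᵀ * sl T j) p.1 p.2 else 0) fun T T' hT => by
    have e : ∀ b, b ≠ i → sl T b = sl T' b := fun b hb => by rw [sl, sl, hT b hb]
    funext p
    rw [e j h.1, e k h.2.1, e l h.2.2]
    exact if_congr (forall₂_congr fun b hb => by rw [e b hb]) rfl rfl
  refine le_trans ?_ (h1.trans_le ((Finset.sum_le_card_nsmul _ _ _ fun T _ => ?_).trans_eq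
    (nsmul_eq_mul _ _)))
  · refine le_trans (Finset.sum_le_sum fun T hT => le_of_eq ?_)
      (Finset.sum_le_sum_of_subset_of_nonneg (Finset.filter_subset (Good c) _)
        fun _ _ _ => sq_nonneg _)
    simp only [if_pos fun b (_ : b ≠ i) => op_good (Finset.mem_filter.1 hT).2 b]
    rw [show sl T i * (sl T j)ᵀ * sl T k * (sl T l)ᵀ = sl T i * (sl T l * (sl T k)ᵀ * sl T j)ᵀ by
      simp only [transpose_mul, transpose_transpose, Matrix.mul_assoc], Fintype.sum_prod_type]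
    rfl
  · split_ifs with hT
    · exact op_frob (by positivity) (op_mul (by positivity) h0
        (op_mul h0 h0 (hT l h.2.2) (op_tr (hT k h.2.1))) (hT j h.1))
    · simp only [ne_eq, OfNat.ofNat_ne_zero, not_false_eq_true, zero_pow, Finset.sum_const_zero]
      positivity

theorem tr_cyc (A B C D : Matrix (Fin d) (Fin d) ℝ) :
    (A * Bᵀ * C * Dᵀ).trace = (C * Dᵀ * A * Bᵀ).trace := by
  rw [Matrix.mul_assoc, trace_mul_comm, ← Matrix.mul_assoc]

theorem tr_rev (A B C D : Matrix (Fin d) (Fin d) ℝ) :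
    (A * Bᵀ * C * Dᵀ).trace = (D * Cᵀ * B * Aᵀ).trace := by
  rw [← trace_transpose]
  simp only [transpose_mul, transpose_transpose, Matrix.mul_assoc]

open Classical in
theorem term_le {c : ℝ} (hc : 0 ≤ c) (i j k l : Fin d) {X Y : ℝ}
    (hX : X = Fintype.card (Ten d) * (d * (c * d * (c * d) * (c * d))))
    (hY : Y = Fintype.card (Ten d) * (d * (d * (c * d * (c * d) * (c * d) * (c * d))))) :
    ∑ T ∈ (Finset.univ : Finset (Ten d)).filter (Good c),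
      (sl T i * (sl T j)ᵀ * sl T k * (sl T l)ᵀ).trace ^ 2 ≤
        X + ((if i = j ∧ k = l then Y else 0) + (if i = k ∧ j = l then Y else 0) +
          if i = l ∧ j = k then Y else 0) := by
  have h0 : 0 ≤ c * d := mul_nonneg hc d.cast_nonneg
  have hX0 : 0 ≤ X := by rw [hX]; positivity
  have hY0 : 0 ≤ Y := by rw [hY]; positivity
  by_cases h : (i = j ∧ k = l) ∨ (i = k ∧ j = l) ∨ (i = l ∧ j = k)
  · refine le_trans (b := Y) ?_ ?_
    · refine (Finset.sum_le_card_nsmul _ _ _ fun T hT => ?_).trans (by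
        rw [nsmul_eq_mul, hY]
        exact mul_le_mul_of_nonneg_right (Nat.cast_le.2 (Finset.card_le_univ _)) (by positivity))
      have h1 := op_good (Finset.mem_filter.1 hT).2
      exact op_trace (op_mul (by positivity) h0 (op_mul (by positivity) h0
        (op_mul h0 h0 (h1 i) (op_tr (h1 j))) (h1 k)) (op_tr (h1 l)))
    · split_ifs <;> first | linarith | tauto
  · refine le_trans ?_ (le_add_of_nonneg_right (by split_ifs <;> linarith))
    rw [hX]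
    have h1 : (j ≠ i ∧ k ≠ i ∧ l ≠ i) ∨ (l ≠ k ∧ i ≠ k ∧ j ≠ k) ∨ (k ≠ l ∧ j ≠ l ∧ i ≠ l) ∨
        (i ≠ j ∧ l ≠ j ∧ k ≠ j) := by
      simp only [ne_eq, Fin.ext_iff] at h ⊢
      omega
    rcases h1 with h1 | h1 | h1 | h1
    · exact key hc h1
    · exact (Finset.sum_congr rfl fun T _ => by rw [tr_cyc]).trans_le (key hc h1)
    · exact (Finset.sum_congr rfl fun T _ => by rw [tr_rev]).trans_le (key hc h1)
    · exact (Finset.sum_congr rfl fun T _ => by rw [tr_rev, tr_cyc]).trans_le (key hc h1)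

end MomAux

open Classical in
theorem sum_mom_le {c : ℝ} (hc : 1 ≤ c) (d : ℕ) :
    ∑ T ∈ (Finset.univ : Finset (Ten d)).filter (Good c), mom T ≤
      7 * c ^ 4 * (d : ℝ) ^ 8 * Fintype.card (Ten d) := by
  have hc0 : 0 ≤ c := by linarith
  obtain ⟨X, hX⟩ : ∃ X : ℝ, X = Fintype.card (Ten d) * (d * (c * d * (c * d) * (c * d))) := ⟨_, rfl⟩
  obtain ⟨Y, hY⟩ : ∃ Y : ℝ,
    Y = Fintype.card (Ten d) * (d * (d * (c * d * (c * d) * (c * d) * (c * d)))) := ⟨_, rfl⟩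
  simp only [mom, Finset.sum_comm (s := Finset.univ.filter (Good c))]
  refine (Finset.sum_le_sum fun i _ => Finset.sum_le_sum fun j _ => Finset.sum_le_sum fun k _ =>
    Finset.sum_le_sum fun l _ => MomAux.term_le hc0 i j k l hX hY).trans ?_
  simp only [Finset.sum_add_distrib, ite_and, Finset.sum_ite_irrel, Finset.sum_ite_eq,
    Finset.mem_univ, if_true, Finset.sum_const, Finset.card_univ, Fintype.card_fin, nsmul_eq_mul,
    mul_zero]
  have h1 : c ^ 3 * (d ^ 8 * Fintype.card (Ten d)) ≤ c ^ 4 * (d ^ 8 * Fintype.card (Ten d)) :=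
    mul_le_mul_of_nonneg_right (pow_le_pow_right₀ hc (by norm_num)) (by positivity)
  have h2 : 0 ≤ c ^ 4 * (d ^ 8 * Fintype.card (Ten d)) := by positivity
  rw [hX, hY]
  linarith


end Crest.Agent.R237
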