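import Crest.Agent.R237.Net
import Crest.Agent.R237.Mom
import Crest.Agent.R237.Extr
import Crest.Agent.R237.GapDet

/-!
# Row 237: a cubic form of small injective norm without certificate
-/

set_option autoImplicit false
set_option linter.unusedSectionVars false

noncomputable section

namespace Crest.Agent.R237

open MvPolynomial Matrix

namespace GapAux

open scoped Kronecker

theorem mom_nonneg {d : ℕ} (T : Ten d) : 0 ≤ mom T := by
  unfold mom
  positivity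

theorem sum_comp_le {α : Type} [DecidableEq α] (S : Finset α) (e : α → α)
    (he : Function.Injective e) (hS : ∀ a ∈ S, e a ∈ S) (f : α → ℝ) (hf : ∀ a, 0 ≤ f a) :
    ∑ a ∈ S, f (e a) ≤ ∑ a ∈ S, f a := by
  rw [← Finset.sum_image (f := f) (g := e) fun _ _ _ _ h => he h]
  exact Finset.sum_le_sum_of_subset_of_nonneg (Finset.image_subset_iff.2 hS) fun a _ _ => hf a

theorem sum_swap12 {α : Type} [Fintype α] (f : α → α → α → ℝ) :
    ∑ i, ∑ j, ∑ k, f j i k = ∑ i, ∑ j, ∑ k, f i j k := Finset.sum_comm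

theorem sum_swap23 {α : Type} [Fintype α] (f : α → α → α → ℝ) :
    ∑ i, ∑ j, ∑ k, f i k j = ∑ i, ∑ j, ∑ k, f i j k :=
  Finset.sum_congr rfl fun _ _ => Finset.sum_comm

theorem sum_rot {α : Type} [Fintype α] (f : α → α → α → ℝ) :
    ∑ i, ∑ j, ∑ k, f j k i = ∑ i, ∑ j, ∑ k, f i j k :=
  (sum_swap12 fun i j k => f i k j).trans (sum_swap23 f)

theorem sum_rot' {α : Type} [Fintype α] (f : α → α → α → ℝ) :
    ∑ i, ∑ j, ∑ k, f k i j = ∑ i, ∑ j, ∑ k, f i j k :=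
  (sum_rot fun i j k => f k i j).symm

theorem sum_swap13 {α : Type} [Fintype α] (f : α → α → α → ℝ) :
    ∑ i, ∑ j, ∑ k, f k j i = ∑ i, ∑ j, ∑ k, f i j k :=
  (sum_rot fun i j k => f j i k).trans (sum_swap12 f)

theorem good1 {c : ℝ} {d : ℕ} {T : Ten d} (h : Good c T) :
    Good c (fun j i k => T i j k : Ten d) := by
  intro x y z
  have h1 := h y x z
  rw [← sum_swap12] at h1
  calc _ = _ := by simp only [mul_comm (x _) (y _)]
    _ ≤ _ := h1
    _ = _ := by ring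

theorem good2 {c : ℝ} {d : ℕ} {T : Ten d} (h : Good c T) :
    Good c (fun k i j => T i j k : Ten d) := by
  intro x y z
  have h1 := h y z x
  rw [← sum_rot] at h1
  calc _ = _ := by simp only [mul_comm (_ * z _) (x _), mul_assoc (x _)]
    _ ≤ _ := h1
    _ = _ := by ring

theorem sgn_sq (b : Bool) : sgn b ^ 2 = 1 := by
  cases b <;> simp [sgn]

theorem sum_type {d : ℕ} (t : Fin 3) (f : Fin 3 × Fin d → ℝ) :
    ∑ p with p.1 = t, f p = ∑ i, f (t, i) := by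
  rw [Finset.sum_filter, Fintype.sum_prod_type, Finset.sum_eq_single t]
  · simp
  · intro s _ hs
    simp [hs]
  · simp

theorem dot_type {d : ℕ} (t : Fin 3) (x : Fin 3 × Fin d → ℝ) :
    (fun i => x (t, i)) ⬝ᵥ (fun i => x (t, i)) ≤ x ⬝ᵥ x := by
  unfold dotProduct
  rw [← sum_type t fun p => x p * x p]
  exact Finset.sum_le_sum_of_subset_of_nonneg (Finset.subset_univ _) fun p _ _ => mul_self_nonneg _

theorem dot_nonneg {α : Type} [Fintype α] (x : α → ℝ) : 0 ≤ x ⬝ᵥ x :=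
  Finset.sum_nonneg fun _ _ => mul_self_nonneg _

theorem trace_four {d : ℕ} {s t : Fin 3} (hst : s ≠ t) (A B C D : Matrix (Fin d) (Fin d) ℝ) :
    ((single s t (1 : ℝ) ⊗ₖ A + single t s (1 : ℝ) ⊗ₖ Aᵀ) *
      (single s t (1 : ℝ) ⊗ₖ B + single t s (1 : ℝ) ⊗ₖ Bᵀ) *
      (single s t (1 : ℝ) ⊗ₖ C + single t s (1 : ℝ) ⊗ₖ Cᵀ) *
      (single s t (1 : ℝ) ⊗ₖ D + single t s (1 : ℝ) ⊗ₖ Dᵀ)).trace =
      (A * Bᵀ * C * Dᵀ).trace + (B * Cᵀ * D * Aᵀ).trace := by
  have e : (B * Cᵀ * D * Aᵀ).trace = (Aᵀ * B * Cᵀ * D).trace := by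
    rw [trace_mul_comm, ← Matrix.mul_assoc, ← Matrix.mul_assoc]
  simp only [Matrix.add_mul, Matrix.mul_add, ← mul_kronecker_mul, single_mul_single_same,
    single_mul_single_of_ne _ _ _ _ hst, single_mul_single_of_ne _ _ _ _ hst.symm, zero_kronecker,
    add_zero, zero_add, mul_one, trace_add, trace_kronecker, trace_single_eq_same,
    one_mul, e]
  exact add_comm _ _

theorem sum_four {d : ℕ} {s t : Fin 3} (hst : s ≠ t) (T : Ten d)
    (G : Fin d → Matrix (Fin 3 × Fin d) (Fin 3 × Fin d) ℝ)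
    (hG : ∀ i, G i = single s t (1 : ℝ) ⊗ₖ sl T i + single t s (1 : ℝ) ⊗ₖ (sl T i)ᵀ) :
    ∑ i, ∑ j, ∑ k, ∑ l, (G i * G j * G k * G l).trace ^ 2 ≤ 4 * mom T := by
  have e : ∑ i, ∑ j, ∑ k, ∑ l, (sl T j * (sl T k)ᵀ * sl T l * (sl T i)ᵀ).trace ^ 2 = mom T := by
    unfold mom
    rw [Finset.sum_comm]
    refine Finset.sum_congr rfl fun j _ => ?_
    exact sum_rot fun k l i => (sl T j * (sl T k)ᵀ * sl T l * (sl T i)ᵀ).trace ^ 2
  have h : ∀ i j k l, (G i * G j * G k * G l).trace ^ 2 ≤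
      2 * (sl T i * (sl T j)ᵀ * sl T k * (sl T l)ᵀ).trace ^ 2 +
        2 * (sl T j * (sl T k)ᵀ * sl T l * (sl T i)ᵀ).trace ^ 2 := fun i j k l => by
    rw [hG, hG, hG, hG, trace_four hst]
    nlinarith [sq_nonneg ((sl T i * (sl T j)ᵀ * sl T k * (sl T l)ᵀ).trace -
      (sl T j * (sl T k)ᵀ * sl T l * (sl T i)ᵀ).trace)]
  refine (Finset.sum_le_sum fun i _ => Finset.sum_le_sum fun j _ => Finset.sum_le_sum fun k _ =>
    Finset.sum_le_sum fun l _ => h i j k l).trans_eq ?_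
  simp only [Finset.sum_add_distrib, ← Finset.mul_sum]
  rw [e]
  unfold mom
  ring

/-- The symmetric tensor of a sign tensor. -/
theorem exists_Gam {d : ℕ} (T : Ten d) :
    ∃ Γ : Fin 3 × Fin d → Fin 3 × Fin d → Fin 3 × Fin d → ℝ, Sym3 Γ ∧ (∀ i a, Γ i a a = 0) ∧
      ∑ i, ∑ a, ∑ b, Γ i a b ^ 2 = 6 * (d : ℝ) ^ 3 ∧
      (∀ u h : Fin 3 × Fin d → ℝ, c3 Γ u h h =
        2 * (∑ i, ∑ j, ∑ k, sgn (T i j k) * (u (0, i) * h (1, j) * h (2, k)) +
          ∑ i, ∑ j, ∑ k, sgn (T i j k) * (h (0, i) * u (1, j) * h (2, k)) +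
          ∑ i, ∑ j, ∑ k, sgn (T i j k) * (h (0, i) * h (1, j) * u (2, k)))) ∧
      (∀ i, of (Γ (0, i)) = single 1 2 (1 : ℝ) ⊗ₖ sl T i + single 2 1 (1 : ℝ) ⊗ₖ (sl T i)ᵀ) ∧
      (∀ i, of (Γ (1, i)) = single 0 2 (1 : ℝ) ⊗ₖ sl (fun j i k => T i j k : Ten d) i +
        single 2 0 (1 : ℝ) ⊗ₖ (sl (fun j i k => T i j k : Ten d) i)ᵀ) ∧
      (∀ i, of (Γ (2, i)) = single 0 1 (1 : ℝ) ⊗ₖ sl (fun k i j => T i j k : Ten d) i +
        single 1 0 (1 : ℝ) ⊗ₖ (sl (fun k i j => T i j k : Ten d) i)ᵀ) := by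
  obtain ⟨W, hW⟩ : ∃ W : Fin 3 × Fin d → Fin 3 × Fin d → Fin 3 × Fin d → ℝ, ∀ p q r,
      W p q r = if p.1 = 0 ∧ q.1 = 1 ∧ r.1 = 2 then sgn (T p.2 q.2 r.2) else 0 :=
    ⟨_, fun _ _ _ => rfl⟩
  have hsum : ∀ u v w : Fin 3 × Fin d → ℝ, ∑ p, ∑ q, ∑ r, W p q r * (u p * v q * w r) =
      ∑ i, ∑ j, ∑ k, sgn (T i j k) * (u (0, i) * v (1, j) * w (2, k)) := fun u v w => by
    simp [hW, Fintype.sum_prod_type, Fin.sum_univ_three]
  refine ⟨fun p q r => W p q r + W p r q + W q p r + W q r p + W r p q + W r q p,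
    ⟨fun _ _ _ => by ring, fun _ _ _ => by ring⟩, ?_, ?_, ?_, ?_, ?_, ?_⟩
  · rintro ⟨s, i⟩ ⟨t, j⟩
    fin_cases s <;> fin_cases t <;> simp [hW]
  · have h : ∀ p q r : Fin 3 × Fin d,
        (W p q r + W p r q + W q p r + W q r p + W r p q + W r q p) ^ 2 =
          if p.1 ≠ q.1 ∧ p.1 ≠ r.1 ∧ q.1 ≠ r.1 then 1 else 0 := by
      rintro ⟨s, i⟩ ⟨t, j⟩ ⟨u, k⟩
      fin_cases s <;> fin_cases t <;> fin_cases u <;> simp [hW, sgn_sq]
    simp only [h, Fintype.sum_prod_type, Fin.sum_univ_three]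
    simp
    ring
  · intro u h
    have e1 := hsum u h h
    have e2 := hsum h u h
    have e3 := hsum h h u
    have f2 := sum_swap23 fun p q r => W p q r * (u p * h q * h r)
    have f3 := sum_swap12 fun p q r => W p q r * (h p * u q * h r)
    have f4 := sum_rot fun p q r => W p q r * (h p * h q * u r)
    have f5 := sum_rot' fun p q r => W p q r * (h p * u q * h r)
    have f6 := sum_swap13 fun p q r => W p q r * (h p * h q * u r)
    rw [← e1, ← e2, ← e3, two_mul]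
    nth_rewrite 2 [← f2]
    nth_rewrite 1 [← f3]
    nth_rewrite 1 [← f5]
    nth_rewrite 1 [← f4]
    nth_rewrite 1 [← f6]
    simp only [c3, ← Finset.sum_add_distrib, Algebra.algebraMap_self, RingHom.id_apply]
    refine Finset.sum_congr rfl fun p _ => Finset.sum_congr rfl fun q _ =>
      Finset.sum_congr rfl fun r _ => ?_
    ring
  · intro i
    ext ⟨s, j⟩ ⟨t, k⟩
    fin_cases s <;> fin_cases t <;> simp [hW, sl]
  · intro i
    ext ⟨s, j⟩ ⟨t, k⟩
    fin_cases s <;> fin_cases t <;> simp [hW, sl]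
  · intro i
    ext ⟨s, j⟩ ⟨t, k⟩
    fin_cases s <;> fin_cases t <;> simp [hW, sl]

theorem c3_div {ι : Type} [Fintype ι] (Γ : ι → ι → ι → ℝ) (lam : ℝ) (u v w : ι → ℝ) :
    c3 (fun i a b => Γ i a b / lam) u v w = c3 Γ u v w / lam := by
  simp only [c3, Finset.sum_div, Algebra.algebraMap_self, RingHom.id_apply]
  refine Finset.sum_congr rfl fun p _ => Finset.sum_congr rfl fun q _ =>
    Finset.sum_congr rfl fun r _ => ?_
  ring

theorem good_type {c : ℝ} (hc : 0 ≤ c) {d : ℕ} {T : Ten d} (h : Good c T)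
    (u v w : Fin 3 × Fin d → ℝ) :
    (∑ i, ∑ j, ∑ k, sgn (T i j k) * (u (0, i) * v (1, j) * w (2, k))) ^ 2 ≤
      c * d * ((u ⬝ᵥ u) * (v ⬝ᵥ v) * (w ⬝ᵥ w)) := by
  refine (h (fun i => u (0, i)) (fun i => v (1, i)) fun i => w (2, i)).trans ?_
  have := dot_nonneg u
  have := dot_nonneg v
  have := dot_nonneg fun i => v (1, i)
  have := dot_nonneg fun i => w (2, i)
  gcongr
  exacts [dot_type 0 u, dot_type 1 v, dot_type 2 w]

end GapAux

theorem exists_ten : ∃ c D : ℝ, 1 ≤ c ∧ ∀ d : ℕ, 1 ≤ d → ∃ T : Ten d, Good c T ∧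
    mom T ≤ D * (d : ℝ) ^ 8 ∧ mom (fun j i k => T i j k : Ten d) ≤ D * (d : ℝ) ^ 8 ∧
      mom (fun k i j => T i j k : Ten d) ≤ D * (d : ℝ) ^ 8 := by
  classical
  obtain ⟨c, hc, h⟩ := net
  refine ⟨c, 42 * c ^ 4, hc, fun d hd => ?_⟩
  set S := (Finset.univ : Finset (Ten d)).filter (Good c) with hS
  have h1 := h d hd
  have h2 : S.card + ((Finset.univ : Finset (Ten d)).filter fun T => ¬ Good c T).card =
      Fintype.card (Ten d) := Finset.card_filter_add_card_filter_not _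
  have h3 : Fintype.card (Ten d) ≤ 2 * S.card := by omega
  have h4 : S.Nonempty := Finset.card_pos.1 (by have := Fintype.card_pos (α := Ten d); omega)
  have h5 := sum_mom_le hc d
  have h6 := GapAux.sum_comp_le S (fun T => (fun j i k => T i j k : Ten d))
    (fun T T' e => funext fun i => funext fun j => funext fun k =>
      congrFun (congrFun (congrFun e j) i) k)
    (fun T hT => Finset.mem_filter.2 ⟨Finset.mem_univ _, GapAux.good1 (Finset.mem_filter.1 hT).2⟩)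
    mom GapAux.mom_nonneg
  have h7 := GapAux.sum_comp_le S (fun T => (fun k i j => T i j k : Ten d))
    (fun T T' e => funext fun i => funext fun j => funext fun k =>
      congrFun (congrFun (congrFun e k) i) j)
    (fun T hT => Finset.mem_filter.2 ⟨Finset.mem_univ _, GapAux.good2 (Finset.mem_filter.1 hT).2⟩)
    mom GapAux.mom_nonneg
  have h8 : (Fintype.card (Ten d) : ℝ) ≤ 2 * S.card := by exact_mod_cast h3
  obtain ⟨T, hT, hle⟩ := Finset.exists_le_of_sum_le h4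
    (f := fun T => mom T + mom (fun j i k => T i j k : Ten d) + mom (fun k i j => T i j k : Ten d))
    (g := fun _ => 42 * c ^ 4 * (d : ℝ) ^ 8) (by
      rw [Finset.sum_add_distrib, Finset.sum_add_distrib, Finset.sum_const, nsmul_eq_mul]
      have h9 : 0 ≤ c ^ 4 * (d : ℝ) ^ 8 := by positivity
      nlinarith [mul_le_mul_of_nonneg_left h8 h9])
  have a1 := GapAux.mom_nonneg T
  have a2 := GapAux.mom_nonneg (fun j i k => T i j k : Ten d)
  have a3 := GapAux.mom_nonneg (fun k i j => T i j k : Ten d)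
  exact ⟨T, (Finset.mem_filter.1 hT).2, by linarith, by linarith, by linarith⟩

theorem exists_gap : ∃ (d : ℕ) (C : Fin 3 × Fin d → Fin 3 × Fin d → Fin 3 × Fin d → ℝ), 1 ≤ d ∧
    Sym3 C ∧ Inj C ∧ ¬ ∃ (m : ℕ) (g : Fin m → MvPolynomial (Fin 3 × Fin d) ℝ),
      fpol C (X : Fin 3 × Fin d → MvPolynomial (Fin 3 × Fin d) ℝ) 1 = ∑ j, g j ^ 2 := by
  obtain ⟨c, D, hc, h⟩ := exists_ten
  have hc0 : 0 < c := by linarith
  obtain ⟨ρ, hρ, hρc⟩ : ∃ ρ : ℝ, 0 < ρ ∧ 2430 * ρ = 1 / (36 * c) :=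
    ⟨1 / (2430 * (36 * c)), by positivity, by field_simp⟩
  obtain ⟨d₀, hd₀⟩ := exists_nat_gt (36 * c * (360 + 2160 * D / ρ ^ 3))
  obtain ⟨d, hd1, hd⟩ : ∃ d : ℕ, 1 ≤ d ∧ 36 * c * (360 + 2160 * D / ρ ^ 3) < d :=
    ⟨d₀ + 1, by omega, by push_cast; linarith⟩
  have hd0 : (0 : ℝ) < d := by exact_mod_cast hd1
  obtain ⟨T, hT, m0, m1, m2⟩ := h d hd1
  obtain ⟨Γ, hs, h0, hsq, hc3, g0, g1, g2⟩ := GapAux.exists_Gam T
  have hlam : 0 < 6 * √(c * d) := by positivity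
  have hlam2 : (6 * √(c * d)) ^ 2 = 36 * (c * d) := by
    rw [mul_pow, Real.sq_sqrt (by positivity)]
    norm_num
  refine ⟨d, fun i a b => Γ i a b / (6 * √(c * d)), hd1,
    ⟨fun i j k => congrArg (· / _) (hs.1 i j k), fun i j k => congrArg (· / _) (hs.2 i j k)⟩,
    fun u h => ?_, ?_⟩
  · rw [GapAux.c3_div, div_pow, hlam2, div_le_iff₀ (by positivity), hc3]
    have b1 := GapAux.good_type hc0.le hT u h h
    have b2 := GapAux.good_type hc0.le hT h u h
    have b3 := GapAux.good_type hc0.le hT h h u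
    generalize ∑ i, ∑ j, ∑ k, sgn (T i j k) * (u (0, i) * h (1, j) * h (2, k)) = x at b1 ⊢
    generalize ∑ i, ∑ j, ∑ k, sgn (T i j k) * (h (0, i) * u (1, j) * h (2, k)) = y at b2 ⊢
    generalize ∑ i, ∑ j, ∑ k, sgn (T i j k) * (h (0, i) * h (1, j) * u (2, k)) = z at b3 ⊢
    nlinarith [sq_nonneg (x - y), sq_nonneg (x - z), sq_nonneg (y - z)]
  · rintro ⟨m, g, hg⟩
    obtain ⟨A, l, hA, h4, h3, h2⟩ := sos_extract hg
    have : Nonempty (Fin d) := ⟨⟨0, hd1⟩⟩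
    have key := gap_ineq hA hs hlam h4 h3 h2 (fun i => by simp only [h0, Finset.sum_const_zero])
      Prod.fst (D := 4 * (D * (d : ℝ) ^ 8)) (θ := ρ * (d : ℝ) ^ 2) (by positivity) (fun t => by
        simp only [GapAux.sum_type]
        fin_cases t
        · exact (GapAux.sum_four (by decide) _ _ g0).trans (by linarith)
        · exact (GapAux.sum_four (by decide) _ _ g1).trans (by linarith)
        · exact (GapAux.sum_four (by decide) _ _ g2).trans (by linarith))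
    rw [hsq, hlam2, Fintype.card_prod, Fintype.card_fin, Fintype.card_fin] at key
    push_cast at key
    have e1 : (6 * (d : ℝ) ^ 3) ^ 2 / (6 * (3 * d) * (36 * (c * d))) =
        (d : ℝ) ^ 3 * (2 * (d * (1 / (36 * c)))) := by
      field_simp
      ring
    have e2 : 60 * (6 * (d : ℝ) ^ 3) + 6 * (45 * (3 * (d : ℝ)) ^ 2 * (ρ * (d : ℝ) ^ 2) +
        30 * (3 * d) / (ρ * (d : ℝ) ^ 2) ^ 3 * (4 * (D * (d : ℝ) ^ 8))) =
        (d : ℝ) ^ 3 * (360 + 2160 * D / ρ ^ 3 + d * (2430 * ρ)) := by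
      field_simp
      ring
    rw [e1, e2, hρc] at key
    have k2 := le_of_mul_le_mul_left key (by positivity)
    have k3 : d * (1 / (36 * c)) ≤ 360 + 2160 * D / ρ ^ 3 := by linarith
    rw [mul_one_div, div_le_iff₀ (by positivity)] at k3
    linarith


end Crest.Agent.R237
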