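import Crest.Agent.R237.Defs

/-!
# Row 237: partial fractions
-/

set_option autoImplicit false
set_option linter.unusedSectionVars false

noncomputable section

namespace Crest.Agent.R237

open MvPolynomial Matrix

theorem quad_ne {α η : ℝ} (hη : 0 ≤ η) {z : ℂ} (hz : 0 < z.im) : z ^ 2 + α * z - η ≠ 0 := by
  intro h
  have h1 := congrArg Complex.re h
  have h2 := congrArg Complex.im h
  simp [pow_two] at h1 h2
  have h3 : 2 * z.re + α = 0 := by
    have : z.im * (2 * z.re + α) = 0 := by linarith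
    exact (mul_eq_zero.mp this).resolve_left hz.ne'
  have h4 : α = -2 * z.re := by linarith
  rw [h4] at h1
  nlinarith [mul_pos hz hz, mul_self_nonneg z.re]

namespace PFAux

theorem roots {α η : ℝ} (hη : 0 < η) : ∃ p q : ℝ, 0 < p ∧ q < 0 ∧ α = -(p + q) ∧ η = -(p * q) := by
  have h0 : 0 ≤ α ^ 2 + 4 * η := by positivity
  have h1 := Real.sq_sqrt h0
  have h2 : |α| < √(α ^ 2 + 4 * η) := by
    rw [← Real.sqrt_sq_eq_abs]
    exact Real.sqrt_lt_sqrt (sq_nonneg α) (by linarith)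
  have h3 := abs_lt.mp h2
  refine ⟨(-α + √(α ^ 2 + 4 * η)) / 2, (-α - √(α ^ 2 + 4 * η)) / 2, by linarith, by linarith,
    by ring, by nlinarith⟩

theorem ident {K : Type} [Field K] (N0 N1 N2 N3 N4 p q z : K) (hp : p ≠ 0) (hq : q ≠ 0)
    (hpq : p - q ≠ 0) (hz : z ≠ 0) (hzp : z - p ≠ 0) (hzq : z - q ≠ 0) :
    (N0 + N1 * z + N2 * z ^ 2 + N3 * z ^ 3 + N4 * z ^ 4) /
        (z * (z ^ 2 + -(p + q) * z - -(p * q))) =
      N4 * z + (N3 + (p + q) * N4) + N0 / (p * q) / z +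
        (N0 + N1 * p + N2 * p ^ 2 + N3 * p ^ 3 + N4 * p ^ 4) / (p * (p - q)) / (z - p) +
        (N0 + N1 * q + N2 * q ^ 2 + N3 * q ^ 3 + N4 * q ^ 4) / (-q * (p - q)) / (z - q) := by
  rw [show z ^ 2 + -(p + q) * z - -(p * q) = (z - p) * (z - q) by ring]
  field_simp
  ring

theorem im_div {R r : ℝ} (hR : R ≤ 0) {z : ℂ} (hz : 0 < z.im) : 0 ≤ ((R : ℂ) / (z - r)).im := by
  rw [Complex.div_im]
  simp only [Complex.ofReal_im, Complex.ofReal_re, Complex.sub_im, zero_mul, zero_div, sub_zero,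
    zero_sub]
  have := Complex.normSq_nonneg (z - r)
  rw [← neg_div, ← neg_mul]
  exact div_nonneg (mul_nonneg (by linarith) hz.le) this

theorem mono_div {R r u v : ℝ} (hR : R ≤ 0) (hu : r < u) (huv : u ≤ v) :
    R / (u - r) ≤ R / (v - r) := by
  have h := div_le_div_of_nonneg_left (by linarith : 0 ≤ -R) (by linarith : 0 < u - r)
    (by linarith : u - r ≤ v - r)
  rw [neg_div, neg_div] at h
  linarith

end PFAux

open PFAux

theorem pf_im {N0 N1 N2 N3 N4 α η : ℝ} (hη : 0 < η) (h0 : 0 ≤ N0)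
    (hr : ∀ r : ℝ, r ^ 2 + α * r - η = 0 → N0 + N1 * r + N2 * r ^ 2 + N3 * r ^ 3 + N4 * r ^ 4 ≤ 0)
    {z : ℂ} (hz : 0 < z.im) : N4 * z.im ≤
      ((N0 + N1 * z + N2 * z ^ 2 + N3 * z ^ 3 + N4 * z ^ 4) / (z * (z ^ 2 + α * z - η))).im := by
  obtain ⟨p, q, hp, hq, rfl, rfl⟩ := roots (α := α) hη
  have hne : ∀ r : ℝ, z - r ≠ 0 := fun r h => by
    have := congrArg Complex.im h
    simp at this
    linarith
  have hpq : 0 < p - q := by linarith
  have e := ident (K := ℂ) N0 N1 N2 N3 N4 p q z (by exact_mod_cast hp.ne')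
    (by exact_mod_cast hq.ne) (by exact_mod_cast hpq.ne') (by simpa using hne 0) (hne p) (hne q)
  have a := im_div (r := 0) (div_nonpos_of_nonneg_of_nonpos h0 (by linarith : p * q ≤ 0)) hz
  have b := im_div (r := p)
    (div_nonpos_of_nonpos_of_nonneg (hr p (by ring)) (mul_pos hp hpq).le) hz
  have c := im_div (r := q)
    (div_nonpos_of_nonpos_of_nonneg (hr q (by ring)) (mul_pos (neg_pos.mpr hq) hpq).le) hz
  push_cast at a b c ⊢
  rw [sub_zero] at a
  rw [e]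
  simp only [Complex.add_im, Complex.mul_im, Complex.ofReal_im, Complex.ofReal_re, Complex.add_re]
  linarith

theorem pf_mono {N0 N1 N2 N3 N4 α η : ℝ} (hη : 0 < η) (h0 : 0 ≤ N0)
    (hr : ∀ r : ℝ, r ^ 2 + α * r - η = 0 → N0 + N1 * r + N2 * r ^ 2 + N3 * r ^ 3 + N4 * r ^ 4 ≤ 0)
    {u v : ℝ} (hu : 0 < u) (hT : 0 < u ^ 2 + α * u - η) (huv : u ≤ v) : N4 * (v - u) ≤
      (N0 + N1 * v + N2 * v ^ 2 + N3 * v ^ 3 + N4 * v ^ 4) / (v * (v ^ 2 + α * v - η)) -
        (N0 + N1 * u + N2 * u ^ 2 + N3 * u ^ 3 + N4 * u ^ 4) / (u * (u ^ 2 + α * u - η)) := by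
  obtain ⟨p, q, hp, hq, rfl, rfl⟩ := roots (α := α) hη
  have hpq : 0 < p - q := by linarith
  have hup : p < u := by
    by_contra h
    rw [not_lt] at h
    nlinarith [mul_nonneg (sub_nonneg.mpr h) (by linarith : 0 ≤ u - q)]
  rw [ident N0 N1 N2 N3 N4 p q v hp.ne' hq.ne hpq.ne' (by linarith) (by linarith) (by linarith),
    ident N0 N1 N2 N3 N4 p q u hp.ne' hq.ne hpq.ne' (by linarith) (by linarith) (by linarith)]
  have a := mono_div (div_nonpos_of_nonneg_of_nonpos h0 (by linarith : p * q ≤ 0)) hu huv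
  have b := mono_div (div_nonpos_of_nonpos_of_nonneg (hr p (by ring)) (mul_pos hp hpq).le) hup huv
  have c := mono_div
    (div_nonpos_of_nonpos_of_nonneg (hr q (by ring)) (mul_pos (neg_pos.mpr hq) hpq).le)
    (hq.trans hu) huv
  rw [sub_zero, sub_zero] at a
  linarith

end Crest.Agent.R237
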