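import Crest.Agent.R237.Defs

/-!
# Row 237: signs of the residues
-/

set_option autoImplicit false
set_option linter.unusedSectionVars false

noncomputable section

namespace Crest.Agent.R237

open MvPolynomial Matrix

variable {ι : Type} [Fintype ι] [DecidableEq ι] [Nonempty ι] {C : ι → ι → ι → ℝ}

namespace PosAux

theorem dot_nonneg (u : ι → ℝ) : 0 ≤ u ⬝ᵥ u := Finset.sum_nonneg fun i _ => mul_self_nonneg (u i)

theorem c3_eq (C : ι → ι → ι → ℝ) (u h : ι → ℝ) :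
    c3 C u h h = u ⬝ᵥ fun i => ∑ j, ∑ k, C i j k * (h j * h k) := by
  unfold c3 dotProduct
  refine Finset.sum_congr rfl fun i _ => ?_
  rw [Finset.mul_sum]
  refine Finset.sum_congr rfl fun j _ => ?_
  rw [Finset.mul_sum]
  refine Finset.sum_congr rfl fun k _ => ?_
  simp only [Algebra.algebraMap_self, RingHom.id_apply]
  ring

/-- `|2 x c| ≤ a + x² b` when `c² ≤ a b`. -/
theorem abs_cross {x c a b : ℝ} (ha : 0 ≤ a) (hb : 0 ≤ b) (h : c ^ 2 ≤ a * b) :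
    |2 * x * c| ≤ a + x ^ 2 * b := by
  refine abs_le_of_sq_le_sq' ?_ (by positivity) |> abs_le.2
  have h1 := mul_le_mul_of_nonneg_left h (sq_nonneg x)
  nlinarith [sq_nonneg (a - x ^ 2 * b)]

theorem frob {A : ι → ι → ℝ} (hA : ∀ i j, A i j = A j i) (h v : ι → ℝ)
    (hv : ∀ i, v i = ∑ j, A i j * h j) (η σ : ℝ) :
    0 ≤ η ^ 2 * (∑ i, ∑ j, A i j * A i j) - 4 * η * (v ⬝ᵥ v) + 2 * η * σ * (h ⬝ᵥ v) +
      2 * ((h ⬝ᵥ h) * (v ⬝ᵥ v)) + σ ^ 2 * ((h ⬝ᵥ h) * (h ⬝ᵥ h)) + 2 * ((h ⬝ᵥ v) * (h ⬝ᵥ v)) -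
      4 * σ * ((h ⬝ᵥ h) * (h ⬝ᵥ v)) := by
  have S0 : ∀ x : ι → ℝ, ∑ i, ∑ j, x i * (A i j * h j) = x ⬝ᵥ v := fun x =>
    Finset.sum_congr rfl fun i _ => by rw [hv i, Finset.mul_sum]
  have S1 : ∑ i, ∑ j, v j * (A i j * h i) = v ⬝ᵥ v := by
    rw [Finset.sum_comm, ← S0 v]
    exact Finset.sum_congr rfl fun i _ => Finset.sum_congr rfl fun j _ => by rw [hA j i]
  have S4 : ∀ x y z w : ι → ℝ, ∑ i, ∑ j, x i * y i * (z j * w j) = (x ⬝ᵥ y) * (z ⬝ᵥ w) :=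
    fun x y z w => (Finset.sum_mul_sum _ _ _ _).symm
  have h0 : 0 ≤ ∑ i, ∑ j, (η * A i j - h i * v j - v i * h j + σ * (h i * h j)) ^ 2 :=
    Finset.sum_nonneg fun i _ => Finset.sum_nonneg fun j _ => sq_nonneg _
  have e : ∀ i j, (η * A i j - h i * v j - v i * h j + σ * (h i * h j)) ^ 2 =
      η ^ 2 * (A i j * A i j) - 2 * η * (v j * (A i j * h i)) - 2 * η * (v i * (A i j * h j)) +
        2 * η * σ * (h i * (A i j * h j)) + h i * h i * (v j * v j) + v i * v i * (h j * h j) +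
        σ ^ 2 * (h i * h i * (h j * h j)) + 2 * (h i * v i * (h j * v j)) -
        2 * σ * (h i * h i * (h j * v j)) - 2 * σ * (h i * v i * (h j * h j)) := fun i j => by
    ring
  simp only [e, Finset.sum_add_distrib, Finset.sum_sub_distrib, ← Finset.mul_sum (a := η ^ 2),
    ← Finset.mul_sum (a := 2 * η), ← Finset.mul_sum (a := 2 * η * σ),
    ← Finset.mul_sum (a := σ ^ 2), ← Finset.mul_sum (a := (2 : ℝ)),
    ← Finset.mul_sum (a := 2 * σ)] at h0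
  rw [S1, S0 v, S0 h, S4, S4, S4, S4, S4, S4] at h0
  linarith

theorem sq4 (v h g : ι → ℝ) (σ κ lam : ℝ) :
    0 ≤ 4 * (v ⬝ᵥ v - 2 * σ * (h ⬝ᵥ v) + σ ^ 2 * (h ⬝ᵥ h)) -
      4 * lam * (v ⬝ᵥ g - κ * (h ⬝ᵥ v) - σ * (h ⬝ᵥ g) + σ * κ * (h ⬝ᵥ h)) +
      lam ^ 2 * (g ⬝ᵥ g - 2 * κ * (h ⬝ᵥ g) + κ ^ 2 * (h ⬝ᵥ h)) := by
  have h0 : 0 ≤ ∑ i, (2 * (v i - σ * h i) - lam * (g i - κ * h i)) ^ 2 :=
    Finset.sum_nonneg fun i _ => sq_nonneg _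
  refine h0.trans_eq ?_
  simp only [dotProduct, Finset.mul_sum, ← Finset.sum_add_distrib, ← Finset.sum_sub_distrib]
  exact Finset.sum_congr rfl fun i _ => by ring

theorem scal {η σ κ lam τ a2 vv vg gg : ℝ} (hη : 0 < η)
    (h1 : 0 ≤ 4 * (vv - σ ^ 2 * η) - 4 * lam * (vg - σ * κ * η) + lam ^ 2 * (gg - κ ^ 2 * η))
    (h2 : gg ≤ η ^ 2) (h3 : κ ^ 2 ≤ η) (h4 : 2 * vv - σ ^ 2 * η ≤ η * a2) :
    0 ≤ η * (20 * τ ^ 2 + 2 * a2) + 8 * τ * (σ * η) - 2 * lam * (2 * vg - κ * η * τ) +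
      5 * η ^ 2 * lam ^ 2 := by
  have p1 := mul_le_mul_of_nonneg_left h2 (sq_nonneg lam)
  have p2 := mul_le_mul_of_nonneg_left h3 (mul_nonneg hη.le (sq_nonneg lam))
  have p3 := mul_nonneg hη.le (sq_nonneg (σ + 2 * τ - lam * κ))
  have p4 := mul_nonneg hη.le (sq_nonneg (3 * (lam * κ) + 5 * τ))
  have p5 := mul_nonneg hη.le (sq_nonneg τ)
  nlinarith

theorem main {A : ι → ι → ℝ} (hA : ∀ i j, A i j = A j i) (h v g : ι → ℝ)
    (hv : ∀ i, v i = ∑ j, A i j * h j) (hg : g ⬝ᵥ g ≤ (h ⬝ᵥ h) ^ 2) (τ lam : ℝ) :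
    0 ≤ (h ⬝ᵥ h) * (20 * τ ^ 2 + 2 * ∑ i, ∑ j, A i j * A i j) + 8 * τ * (h ⬝ᵥ v) -
      2 * lam * (2 * (v ⬝ᵥ g) - (h ⬝ᵥ g) * τ) + 5 * (h ⬝ᵥ h) ^ 2 * lam ^ 2 := by
  rcases (dot_nonneg h).eq_or_lt with h0 | hη
  · have hh : h = 0 := dotProduct_self_eq_zero.1 h0.symm
    have hv0 : v = 0 := funext fun i => by simp [hv i, hh]
    simp [hh, hv0]
  · obtain ⟨σ, hσ⟩ : ∃ σ, h ⬝ᵥ v = σ * (h ⬝ᵥ h) := ⟨_, (div_mul_cancel₀ _ hη.ne').symm⟩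
    obtain ⟨κ, hκ⟩ : ∃ κ, h ⬝ᵥ g = κ * (h ⬝ᵥ h) := ⟨_, (div_mul_cancel₀ _ hη.ne').symm⟩
    have f1 := frob hA h v hv (h ⬝ᵥ h) σ
    have f2 := sq4 v h g σ κ lam
    have f3 := sq4 0 h g 0 κ 1
    simp only [dotProduct_zero, zero_dotProduct] at f3
    rw [hσ] at f1
    rw [hσ, hκ] at f2
    rw [hκ] at f3
    rw [hσ, hκ]
    generalize h ⬝ᵥ h = η at *
    refine scal hη (gg := g ⬝ᵥ g) (vv := v ⬝ᵥ v) (by linarith) hg ?_ ?_
    · refine le_of_mul_le_mul_right ?_ hη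
      linarith
    · refine le_of_mul_le_mul_left ?_ hη
      linarith

theorem gg_le (hI : Inj C) (h : ι → ℝ) :
    (fun i => ∑ j, ∑ k, C i j k * (h j * h k)) ⬝ᵥ (fun i => ∑ j, ∑ k, C i j k * (h j * h k)) ≤
      (h ⬝ᵥ h) ^ 2 := by
  have h1 := hI (fun i => ∑ j, ∑ k, C i j k * (h j * h k)) h
  rw [c3_eq] at h1
  have h0 := dot_nonneg fun i => ∑ j, ∑ k, C i j k * (h j * h k)
  rcases h0.eq_or_lt with h0 | h0
  · rw [← h0]; positivity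
  · exact le_of_mul_le_mul_left (by rwa [← sq]) h0

theorem Hm_symm (L : Var ι → ℝ) (i j : ι) : Hm L i j = Hm L j i := by
  unfold Hm m2; ring

theorem Ap_symm (L : Var ι → ℝ) (ζ : Idx ι → ℝ) (i j : ι) : Ap L ζ i j = Ap L ζ j i := by
  unfold Ap m2; ring

theorem trace_sq_le (hI : Inj C) (b : ι → ℝ) :
    (∑ i, ∑ j, C i j j * b i) ^ 2 ≤ (Fintype.card ι : ℝ) ^ 2 * (b ⬝ᵥ b) := by
  have h1 : ∀ j, (∑ i, C i j j * b i) ^ 2 ≤ b ⬝ᵥ b := fun j => by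
    have := hI b (Pi.single j 1)
    rw [c3_eq] at this
    have e : (fun i => ∑ j', ∑ k, C i j' k * ((Pi.single j 1 : ι → ℝ) j' *
        (Pi.single j 1 : ι → ℝ) k)) = fun i => C i j j := by
      funext i
      simp [Pi.single_apply]
    rw [e] at this
    simp only [single_dotProduct, Pi.single_eq_same, mul_one, one_pow] at this
    have e2 : ∑ i, C i j j * b i = b ⬝ᵥ fun i => C i j j :=
      Finset.sum_congr rfl fun i _ => mul_comm _ _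
    rwa [e2]
  rw [Finset.sum_comm]
  refine sq_sum_le_card_mul_sum_sq.trans ?_
  have h2 : ∑ j, (∑ i, C i j j * b i) ^ 2 ≤ (Fintype.card ι : ℝ) * (b ⬝ᵥ b) := by
    refine (Finset.sum_le_sum fun j _ => h1 j).trans_eq ?_
    simp
  rw [Finset.card_univ, sq, mul_assoc]
  exact mul_le_mul_of_nonneg_left h2 (Nat.cast_nonneg _)

end PosAux

open PosAux

theorem Nzero_nonneg (hC : Sym3 C) (hI : Inj C) (L : Var ι → ℝ) (ζ : Idx ι → ℝ) :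
    0 ≤ Nzero C L ζ := by
  have h := main (Ap_symm L ζ) (m1 L) (fun i => ∑ j, Ap L ζ i j * m1 L j) _ (fun _ => rfl)
    (gg_le hI (m1 L)) (∑ i, Ap L ζ i i) (lm ζ)
  have e : qf (m1 L) (Ap L ζ) (m1 L) = m1 L ⬝ᵥ fun i => ∑ j, Ap L ζ i j * m1 L j :=
    Finset.sum_congr rfl fun i _ => by
      rw [Finset.mul_sum]; exact Finset.sum_congr rfl fun j _ => mul_assoc _ _ _
  unfold Nzero
  rw [e, c3_eq, c3_eq]
  exact h

theorem Nfour_pos (hC : Sym3 C) (hI : Inj C) {ζ : Idx ι → ℝ} (hζ : ζ ≠ 0) : 0 < Nfour C ζ := by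
  have hn : (1 : ℝ) ≤ Fintype.card ι := by exact_mod_cast Fintype.card_pos
  have hn0 : (0 : ℝ) < Fintype.card ι := by linarith
  have h1 := trace_sq_le hI (bv ζ)
  have hb := dot_nonneg (bv ζ)
  have hpos : 0 < sg ζ ^ 2 + bv ζ ⬝ᵥ bv ζ + lm ζ ^ 2 := by
    refine lt_of_le_of_ne (by positivity) fun h0 => hζ ?_
    have a1 : sg ζ ^ 2 = 0 := by nlinarith [sq_nonneg (sg ζ), sq_nonneg (lm ζ)]
    have a2 : lm ζ ^ 2 = 0 := by nlinarith [sq_nonneg (sg ζ), sq_nonneg (lm ζ)]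
    have a3 : bv ζ ⬝ᵥ bv ζ = 0 := by nlinarith [sq_nonneg (sg ζ), sq_nonneg (lm ζ)]
    have a4 : bv ζ = 0 := dotProduct_self_eq_zero.1 a3
    funext a
    rcases a with a | i
    · fin_cases a
      · exact pow_eq_zero_iff (two_ne_zero) |>.1 a1
      · exact pow_eq_zero_iff (two_ne_zero) |>.1 a2
    · exact congrFun a4 i
  unfold Nfour
  obtain ⟨r, hr⟩ : ∃ r, ∑ i, ∑ j, C i j j * bv ζ i = r * Fintype.card ι :=
    ⟨_, (div_mul_cancel₀ _ hn0.ne').symm⟩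
  rw [hr] at h1 ⊢
  have h2 : r ^ 2 ≤ bv ζ ⬝ᵥ bv ζ := by
    refine le_of_mul_le_mul_left ?_ (pow_pos hn0 2)
    linarith
  obtain ⟨m, hm, hm0, hm1⟩ : ∃ m : ℝ, m = 1 / Fintype.card ι ∧ 0 < m ∧ m ≤ 1 :=
    ⟨_, rfl, by positivity, (div_le_one hn0).2 hn⟩
  have e1 : (24 : ℝ) / Fintype.card ι = 24 * m := by rw [hm]; ring
  have e2 : (112 : ℝ) / Fintype.card ι = 112 * m := by rw [hm]; ring
  have e3 : (2 : ℝ) / Fintype.card ι = 2 * m := by rw [hm]; ring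
  have e4 : lm ζ * (r * Fintype.card ι) / Fintype.card ι = lm ζ * r := by field_simp
  rw [e1, e2, e3, e4, ← hm]
  have p1 := mul_nonneg hm0.le (sq_nonneg (sg ζ))
  have p2 := mul_nonneg hm0.le hb
  have p3 := mul_le_mul_of_nonneg_right hm1 (sq_nonneg (lm ζ))
  have p4 := mul_nonneg (show 0 ≤ 3 - m by linarith) (sq_nonneg (lm ζ + r))
  have p5 := mul_nonneg hm0.le (sq_nonneg r)
  have p6 := mul_nonneg hm0.le (sq_nonneg (lm ζ))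
  nlinarith [sq_nonneg (sg ζ), sq_nonneg (lm ζ)]

/-- `|C (u, H²)| ≤ |u| tr H²`. -/
theorem cM_HH_sq_le (hI : Inj C) (L : Var ι → ℝ) (u : ι → ℝ) :
    cM C u (HH L) ^ 2 ≤ (u ⬝ᵥ u) * H2 L ^ 2 := by
  have e1 : cM C u (HH L) = ∑ l, c3 C u (Hm L l) (Hm L l) := by
    unfold cM c3 HH
    rw [Finset.sum_comm (s := Finset.univ) (t := Finset.univ)
      (f := fun l i => ∑ j, ∑ k, algebraMap ℝ ℝ (C i j k) * (u i * Hm L l j * Hm L l k))]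
    refine Finset.sum_congr rfl fun i _ => ?_
    rw [Finset.sum_comm (s := Finset.univ) (t := Finset.univ)
      (f := fun l j => ∑ k, algebraMap ℝ ℝ (C i j k) * (u i * Hm L l j * Hm L l k))]
    refine Finset.sum_congr rfl fun j _ => ?_
    rw [Finset.sum_comm (s := Finset.univ) (t := Finset.univ)
      (f := fun l k => algebraMap ℝ ℝ (C i j k) * (u i * Hm L l j * Hm L l k))]
    refine Finset.sum_congr rfl fun k _ => ?_
    rw [Finset.mul_sum, Finset.mul_sum]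
    refine Finset.sum_congr rfl fun l _ => ?_
    rw [Hm_symm L j l, mul_assoc (u i)]
  have hu := dot_nonneg u
  have h1 : ∀ l, |c3 C u (Hm L l) (Hm L l)| ≤ √(u ⬝ᵥ u) * (Hm L l ⬝ᵥ Hm L l) := fun l => by
    refine abs_le.2 (abs_le_of_sq_le_sq' ?_ (mul_nonneg (Real.sqrt_nonneg _) (dot_nonneg _)))
    rw [mul_pow, Real.sq_sqrt hu]
    exact hI u _
  have h2 : |cM C u (HH L)| ≤ √(u ⬝ᵥ u) * H2 L := by
    rw [e1]
    refine (Finset.abs_sum_le_sum_abs _ _).trans ((Finset.sum_le_sum fun l _ => h1 l).trans_eq ?_)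
    rw [← Finset.mul_sum]
    rfl
  have h3 := pow_le_pow_left₀ (abs_nonneg _) h2 2
  rwa [sq_abs, mul_pow, Real.sq_sqrt hu] at h3

theorem H2_nonneg (L : Var ι → ℝ) : 0 ≤ H2 L :=
  Finset.sum_nonneg fun _ _ => Finset.sum_nonneg fun _ _ => mul_self_nonneg _

theorem PosAux.cross (hI : Inj C) (L : Var ι → ℝ) (ζ : Idx ι → ℝ) :
    |2 * (m0 L * lm ζ) * cM C (Vv L ζ) (HH L)| ≤
      (Vv L ζ ⬝ᵥ Vv L ζ) * H2 L + (m0 L * lm ζ) ^ 2 * H2 L :=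
  abs_cross (mul_nonneg (dot_nonneg _) (H2_nonneg L)) (H2_nonneg L)
    ((cM_HH_sq_le hI L (Vv L ζ)).trans_eq (by ring))

theorem le_Br (hI : Inj C) (L : Var ι → ℝ) (ζ : Idx ι → ℝ) :
    3 * (Vv L ζ ⬝ᵥ Vv L ζ) * H2 L ≤ Br C L ζ := by
  have h := (abs_le.1 (PosAux.cross hI L ζ)).2
  unfold Br
  linarith

theorem Br_le (hI : Inj C) (L : Var ι → ℝ) (ζ : Idx ι → ℝ) :
    Br C L ζ ≤ (5 * (Vv L ζ ⬝ᵥ Vv L ζ) + 2 * m0 L ^ 2 * lm ζ ^ 2) * H2 L := by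
  have h := (abs_le.1 (PosAux.cross hI L ζ)).1
  unfold Br
  linarith

theorem Eh_nonpos (hI : Inj C) {L : Var ι → ℝ} (hT : Tr L = 0) (ζ : Idx ι → ℝ) : Eh C L ζ ≤ 0 := by
  have h := le_Br hI L ζ
  have h0 := mul_nonneg (dot_nonneg (Vv L ζ)) (H2_nonneg L)
  unfold Eh
  rw [hT]
  linarith

theorem fpol_nonneg (hI : Inj C) (x : ι → ℝ) (lam : ℝ) : 0 ≤ fpol C x lam := by
  have hx := dot_nonneg x
  have h := (abs_le.1 (abs_cross (x := lam) (sq_nonneg (x ⬝ᵥ x)) hx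
    ((hI x x).trans_eq (mul_comm _ _)))).2
  have h1 := mul_nonneg (sq_nonneg lam) hx
  unfold fpol
  linarith [sq_nonneg (x ⬝ᵥ x)]


end Crest.Agent.R237
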