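import Crest.Agent.R237.Mat
import Crest.Agent.R237.PF
import Crest.Agent.R237.Exp
import Crest.Agent.R237.Pos

/-!
# Row 237: the form is a Pick function; Dirac measures
-/

set_option autoImplicit false
set_option linter.unusedSectionVars false

noncomputable section

namespace Crest.Agent.R237

open MvPolynomial Matrix

variable {ι : Type} [Fintype ι] [DecidableEq ι] [Nonempty ι] {C : ι → ι → ι → ℝ}

namespace PickAux

theorem le_of_ne {f : ℝ → ℝ} {c : ℝ} (hf : ContinuousAt f 0) (h : ∀ t, t ≠ 0 → c ≤ f t) :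
    c ≤ f 0 :=
  ge_of_tendsto (hf.tendsto.mono_left (nhdsWithin_le_nhds (s := {0}ᶜ)))
    (eventually_nhdsWithin_of_forall fun t ht => h t ht)

theorem card_pos : (0 : ℝ) < Fintype.card ι := by exact_mod_cast Fintype.card_pos

theorem one_le_card : (1 : ℝ) ≤ Fintype.card ι := by exact_mod_cast Fintype.card_pos

section cont

variable {R : Type} [CommRing R] [Algebra ℝ R] [TopologicalSpace R] [IsTopologicalRing R]

theorem cont_m0 : Continuous fun L : Var ι → R => m0 L := by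
  unfold m0
  fun_prop

theorem cont_Tr : Continuous fun L : Var ι → R => Tr L := by
  unfold Tr Hm m0 m1 m2
  fun_prop

theorem cont_H2 : Continuous fun L : Var ι → R => H2 L := by
  unfold H2 Hm m0 m1 m2
  fun_prop

theorem cont_VV (ζ : Idx ι → R) : Continuous fun L : Var ι → R => Vv L ζ ⬝ᵥ Vv L ζ := by
  unfold dotProduct Vv m0 m1
  fun_prop

theorem cont_qf (ζ : Idx ι → R) :
    Continuous fun L : Var ι → R => qf (Vv L ζ) (Hm L) (Vv L ζ) := by
  unfold qf Vv Hm m0 m1 m2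
  fun_prop

theorem cont_LF (ζ : Idx ι → R) : Continuous fun L : Var ι → R => LF C L ζ := by
  unfold LF dotProduct qf cM yv tv sv m2
  fun_prop

theorem cont_FH (ζ : Idx ι → R) : Continuous fun L : Var ι → R => FH C L ζ := by
  unfold FH dotProduct c3 m0 m1
  fun_prop

theorem cont_cM (ζ : Idx ι → R) : Continuous fun L : Var ι → R => cM C (Vv L ζ) (HH L) := by
  unfold cM Vv HH Hm m0 m1 m2
  fun_prop

theorem cont_Eh (ζ : Idx ι → R) : Continuous fun L : Var ι → R => Eh C L ζ := by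
  have h0 := cont_m0 (ι := ι) (R := R)
  have h1 := cont_Tr (ι := ι) (R := R)
  have h2 := cont_H2 (ι := ι) (R := R)
  have h3 := cont_VV ζ
  have h4 := cont_qf ζ
  have h5 := cont_LF (C := C) ζ
  have h6 := cont_FH (C := C) ζ
  have h7 := cont_cM (C := C) ζ
  unfold Eh Br
  fun_prop

end cont

theorem cast_line (L₀ : Var ι → ℝ) (r : ℝ) :
    (fun v => Complex.ofRealAm (L₀ v + r * (ev ι v / Fintype.card ι))) = line L₀ r := by
  funext v
  simp [line]

theorem m0_real {L₀ : Var ι → ℝ} (h0 : m0 L₀ = 0) (r : ℝ) :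
    m0 (fun v => L₀ v + r * (ev ι v / Fintype.card ι)) = r := by
  have h := m0_line h0 (r : ℂ)
  rw [← cast_line] at h
  exact Complex.ofReal_injective h

theorem Tr_real {L₀ : Var ι → ℝ} (h0 : m0 L₀ = 0) (r : ℝ) :
    Tr (fun v => L₀ v + r * (ev ι v / Fintype.card ι)) =
      r ^ 2 + (∑ i, m2 L₀ i i) * r - m1 L₀ ⬝ᵥ m1 L₀ := by
  have h := Tr_line h0 (r : ℂ)
  rw [← cast_line, ← map_Tr] at h
  apply Complex.ofReal_injective
  rw [show ((Tr (fun v => L₀ v + r * (ev ι v / Fintype.card ι)) : ℝ) : ℂ) = _ from h]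
  push_cast
  ring

theorem Eh_real {L₀ : Var ι → ℝ} {ζ : Idx ι → ℝ} {N0 N1 N2 N3 N4 : ℝ}
    (h : ∀ ε : ℂ, Eh C (line L₀ ε) (fun i => (ζ i : ℂ)) =
      ε ^ 2 * (N0 + N1 * ε + N2 * ε ^ 2 + N3 * ε ^ 3 + N4 * ε ^ 4)) (r : ℝ) :
    Eh C (fun v => L₀ v + r * (ev ι v / Fintype.card ι)) ζ =
      r ^ 2 * (N0 + N1 * r + N2 * r ^ 2 + N3 * r ^ 3 + N4 * r ^ 4) := by
  have h1 := map_Eh Complex.ofRealAm C (fun v => L₀ v + r * (ev ι v / Fintype.card ι)) ζ
  rw [cast_line] at h1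
  apply Complex.ofReal_injective
  rw [show ((Eh C (fun v => L₀ v + r * (ev ι v / Fintype.card ι)) ζ : ℝ) : ℂ) = _ from h1]
  refine (h r).trans ?_
  push_cast
  ring

theorem roots (hI : Inj C) {L₀ : Var ι → ℝ} (h0 : m0 L₀ = 0) (hη : 0 < m1 L₀ ⬝ᵥ m1 L₀)
    {ζ : Idx ι → ℝ} {N0 N1 N2 N3 N4 : ℝ}
    (h : ∀ ε : ℂ, Eh C (line L₀ ε) (fun i => (ζ i : ℂ)) =
      ε ^ 2 * (N0 + N1 * ε + N2 * ε ^ 2 + N3 * ε ^ 3 + N4 * ε ^ 4)) (r : ℝ)
    (hr : r ^ 2 + (∑ i, m2 L₀ i i) * r - m1 L₀ ⬝ᵥ m1 L₀ = 0) :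
    N0 + N1 * r + N2 * r ^ 2 + N3 * r ^ 3 + N4 * r ^ 4 ≤ 0 := by
  have hr0 : r ≠ 0 := by
    rintro rfl
    simp only [ne_eq, OfNat.ofNat_ne_zero, not_false_eq_true, zero_pow, mul_zero, add_zero,
      zero_sub, neg_eq_zero] at hr
    exact hη.ne' hr
  have h1 := Eh_nonpos hI ((Tr_real h0 r).trans hr) ζ
  rw [Eh_real h r] at h1
  have h2 : 0 < r ^ 2 := by positivity
  by_contra h3
  exact absurd h1 (not_le.2 (mul_pos h2 (not_le.1 h3)))

theorem self_nonneg (u : ι → ℝ) : 0 ≤ u ⬝ᵥ u := Finset.sum_nonneg fun _ _ => mul_self_nonneg _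

theorem key_pos (hC : Sym3 C) (hI : Inj C) {L₀ : Var ι → ℝ} (h0 : m0 L₀ = 0)
    (hη : 0 < m1 L₀ ⬝ᵥ m1 L₀) (ζ : Idx ι → ℝ) {e : ℂ} (he : 0 < e.im) :
    Nfour C ζ * e.im ≤ (Eh C (line L₀ e) (fun i => (ζ i : ℂ)) /
      (m0 (line L₀ e) ^ 3 * Tr (line L₀ e))).im := by
  obtain ⟨N1, N2, N3, h⟩ := exp_Eh hC h0 ζ
  have he0 : e ≠ 0 := by
    rintro rfl
    simp at he
  have hT := quad_ne (α := ∑ i, m2 L₀ i i) hη.le he
  refine (pf_im hη (Nzero_nonneg hC hI L₀ ζ) (roots hI h0 hη h) he).trans_eq ?_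
  rw [h e, m0_line h0, Tr_line h0]
  congr 1
  field_simp

theorem key (hC : Sym3 C) (hI : Inj C) {L₀ : Var ι → ℝ} (h0 : m0 L₀ = 0)
    (ζ : Idx ι → ℝ) {e : ℂ} (he : 0 < e.im) :
    Nfour C ζ * e.im ≤ (Eh C (line L₀ e) (fun i => (ζ i : ℂ)) /
      (m0 (line L₀ e) ^ 3 * Tr (line L₀ e))).im := by
  rcases (self_nonneg (m1 L₀)).lt_or_eq with hη | hη
  · exact key_pos hC hI h0 hη ζ he
  have hm : m1 L₀ = 0 := dotProduct_self_eq_zero.1 hη.symm
  have he0 : e ≠ 0 := by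
    rintro rfl
    simp at he
  let E : Var ι → ℝ := Sum.elim 0 (Sum.elim 1 0)
  have hc : Continuous fun t : ℝ => line (fun v => L₀ v + t * E v) e := by
    refine continuous_pi fun v => ?_
    simp only [line]
    fun_prop
  have hz : (fun v => L₀ v + 0 * E v) = L₀ := by
    funext v
    simp
  have := le_of_ne (c := Nfour C ζ * e.im)
    (f := fun t => (Eh C (line (fun v => L₀ v + t * E v) e) (fun i => (ζ i : ℂ)) /
      (m0 (line (fun v => L₀ v + t * E v) e) ^ 3 * Tr (line (fun v => L₀ v + t * E v) e))).im)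
    ?_ ?_
  · simpa only [hz] using this
  · refine Complex.continuous_im.continuousAt.comp (ContinuousAt.div
      ((cont_Eh _).comp hc).continuousAt
      (((cont_m0.comp hc).pow 3).mul (cont_Tr.comp hc)).continuousAt ?_)
    rw [hz, m0_line h0, Tr_line h0]
    exact mul_ne_zero (pow_ne_zero _ he0) (quad_ne (self_nonneg _) he)
  · intro t ht
    refine key_pos hC hI ?_ ?_ ζ he
    · simpa [m0, E] using h0
    · have h1 : m1 (fun v => L₀ v + t * E v) = fun _ => t := by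
        funext i
        have := congrFun hm i
        simp only [m1, Pi.zero_apply] at this
        simp [m1, E, this]
      rw [h1]
      exact Finset.sum_pos (fun _ _ => mul_self_pos.2 ht) Finset.univ_nonempty

theorem m0_ev : m0 (ev ι) = Fintype.card ι := rfl

theorem m2_ev (i j : ι) : m2 (ev ι) i j = if i = j then 1 else 0 := by
  unfold m2 ev
  simp only [Sum.elim_inr]
  by_cases h : i = j
  · subst h
    norm_num
  · simp [h, Ne.symm h]

theorem Eh_ev (ζ : Idx ι → ℝ) : Eh C (ev ι) ζ = (Fintype.card ι : ℝ) ^ 6 * Nfour C ζ ∧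
    Tr (ev ι) = (Fintype.card ι : ℝ) ^ 2 := by
  have hn := card_pos (ι := ι)
  set n : ℝ := (Fintype.card ι : ℝ) with hn'
  have e0 : m0 (ev ι) = n := rfl
  have e1 : m1 (ev ι) = 0 := rfl
  have e2 : tv (ev ι) = 0 := rfl
  have e3 : sv (ev ι) = 0 := rfl
  have e4 : yv (ev ι) = n + 1 := rfl
  have e5 : ∀ i j, Hm (ev ι) i j = if i = j then n else 0 := fun i j => by
    simp [Hm, e0, e1, m2_ev]
  have e6 : Tr (ev ι) = n ^ 2 := by
    simp [Tr, e5, ← hn', sq]
  have e7 : H2 (ev ι) = n ^ 3 := by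
    simp only [H2, e5, mul_ite, ite_mul, mul_zero, zero_mul, Finset.sum_ite_eq, Finset.mem_univ,
      if_true, Finset.sum_const, Finset.card_univ, nsmul_eq_mul, ← hn']
    ring
  have e8 : ∀ i j, HH (ev ι) i j = if i = j then n ^ 2 else 0 := fun i j => by
    simp only [HH, e5, ite_mul, zero_mul, Finset.sum_ite_eq, Finset.mem_univ, if_true]
    split_ifs <;> ring
  have e9 : ∀ i, Vv (ev ι) ζ i = -(bv ζ i * n) := fun i => by simp [Vv, e0, e1]
  have f1 : Vv (ev ι) ζ ⬝ᵥ Vv (ev ι) ζ = n ^ 2 * (bv ζ ⬝ᵥ bv ζ) := by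
    simp only [dotProduct, e9, Finset.mul_sum]
    exact Finset.sum_congr rfl fun i _ => by ring
  have f2 : qf (Vv (ev ι) ζ) (Hm (ev ι)) (Vv (ev ι) ζ) = n ^ 3 * (bv ζ ⬝ᵥ bv ζ) := by
    simp only [qf, dotProduct, e9, e5, Finset.mul_sum, mul_ite, ite_mul, mul_zero, zero_mul,
      Finset.sum_ite_eq, Finset.mem_univ, if_true]
    exact Finset.sum_congr rfl fun i _ => by ring
  have f3 : cM C (Vv (ev ι) ζ) (HH (ev ι)) = -(n ^ 3 * ∑ i, ∑ j, C i j j * bv ζ i) := by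
    simp only [cM, e9, e8, Finset.mul_sum, mul_ite, mul_zero, Finset.sum_ite_eq, Finset.mem_univ,
      if_true, ← Finset.sum_neg_distrib, Algebra.algebraMap_self, RingHom.id_apply]
    exact Finset.sum_congr rfl fun i _ => Finset.sum_congr rfl fun j _ => by ring
  have f4 : cM C (bv ζ) (m2 (ev ι)) = ∑ i, ∑ j, C i j j * bv ζ i := by
    simp only [cM, m2_ev, mul_ite, mul_zero, Finset.sum_ite_eq, Finset.mem_univ,
      if_true, Algebra.algebraMap_self, RingHom.id_apply, mul_one]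
  have f5 : qf (bv ζ) (m2 (ev ι)) (bv ζ) = bv ζ ⬝ᵥ bv ζ := by
    simp only [qf, dotProduct, m2_ev, mul_ite, ite_mul, mul_zero, zero_mul,
      Finset.sum_ite_eq, Finset.mem_univ, if_true, mul_one]
  have f6 : ∑ i, m2 (ev ι) i i = n := by simp [m2_ev, hn']
  have f7 : FH C (ev ι) ζ = 0 := by simp [FH, e1, c3]
  refine ⟨?_, e6⟩
  unfold Eh LF Br Nfour
  rw [e0, e2, e3, e4, e6, e7, f1, f2, f3, f4, f5, f6, f7, dotProduct_zero, ← hn']
  field_simp
  ring

theorem m2_dirac (a : ι → ℝ) (i j : ι) : m2 (dirac C a) i j = a i * a j := by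
  unfold m2 dirac
  simp only [Sum.elim_inr, Algebra.algebraMap_self, RingHom.id_apply]
  ring

theorem LF_dirac (a : ι → ℝ) (ζ : Idx ι → ℝ) : LF C (dirac C a) ζ = FH C (dirac C a) ζ := by
  have e0 : m0 (dirac C a) = 1 := rfl
  have e1 : m1 (dirac C a) = a := rfl
  have e2 : tv (dirac C a) = (a ⬝ᵥ a) • a := rfl
  have e3 : sv (dirac C a) = c3 C a a a := rfl
  have e4 : yv (dirac C a) = (a ⬝ᵥ a) ^ 2 := rfl
  have f1 : ∑ i, m2 (dirac C a) i i = a ⬝ᵥ a := by simp only [m2_dirac, dotProduct]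
  have f2 : qf (bv ζ) (m2 (dirac C a)) (bv ζ) = (bv ζ ⬝ᵥ a) ^ 2 := by
    simp only [qf, m2_dirac, dotProduct, sq, Finset.sum_mul_sum]
    exact Finset.sum_congr rfl fun i _ => Finset.sum_congr rfl fun j _ => by ring
  have f3 : cM C (bv ζ) (m2 (dirac C a)) = c3 C (bv ζ) a a := by
    simp only [cM, c3, m2_dirac, mul_assoc]
  unfold LF FH
  rw [e0, e1, e2, e3, e4, f1, f2, f3, dotProduct_smul, smul_eq_mul]
  ring

theorem Hm_dirac (a : ι → ℝ) (s : ℝ) (i j : ι) :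
    Hm (fun v => dirac C a v + s * ev ι v) i j =
      Fintype.card ι * s * (a i * a j) + if i = j then (1 + Fintype.card ι * s) * s else 0 := by
  have e0 : m0 (fun v => dirac C a v + s * ev ι v) = 1 + s * Fintype.card ι := rfl
  have e1 : ∀ i, m1 (fun v => dirac C a v + s * ev ι v) i = a i + s * 0 := fun _ => rfl
  have e2 : m2 (fun v => dirac C a v + s * ev ι v) i j = m2 (dirac C a) i j + s * m2 (ev ι) i j := by
    unfold m2
    ring
  unfold Hm
  rw [e0, e1, e1, e2, m2_dirac, m2_ev]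
  split_ifs <;> ring

theorem Tr_dirac (a : ι → ℝ) (s : ℝ) : Tr (fun v => dirac C a v + s * ev ι v) =
    Fintype.card ι * s * (a ⬝ᵥ a + (1 + Fintype.card ι * s)) := by
  simp only [Tr, Hm_dirac, if_true, Finset.sum_add_distrib, ← Finset.mul_sum, Finset.sum_const,
    Finset.card_univ, nsmul_eq_mul, dotProduct]
  ring

theorem H2_dirac (a : ι → ℝ) {s : ℝ} (hs : 0 ≤ s) : H2 (fun v => dirac C a v + s * ev ι v) ≤
    Tr (fun v => dirac C a v + s * ev ι v) ^ 2 := by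
  have hn := one_le_card (ι := ι)
  have ha := self_nonneg a
  rw [Tr_dirac]
  set n : ℝ := (Fintype.card ι : ℝ) with hn'
  set d := (1 + n * s) * s with hd
  have hd0 : 0 ≤ d := by positivity
  have h1 : H2 (fun v => dirac C a v + s * ev ι v) =
      (n * s) ^ 2 * (a ⬝ᵥ a) ^ 2 + 2 * (n * s) * d * (a ⬝ᵥ a) + n * d ^ 2 := by
    have h2 : ∀ i j, Hm (fun v => dirac C a v + s * ev ι v) i j *
        Hm (fun v => dirac C a v + s * ev ι v) i j = (n * s) ^ 2 * (a i * a i * (a j * a j)) +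
          if i = j then 2 * (n * s) * d * (a i * a i) + d ^ 2 else 0 := fun i j => by
      rw [Hm_dirac]
      split_ifs with h
      · subst h
        ring
      · ring
    simp only [H2, h2, Finset.sum_add_distrib, Finset.sum_ite_eq, Finset.mem_univ, if_true,
      ← Finset.mul_sum, ← Finset.sum_mul, Finset.sum_const, Finset.card_univ, nsmul_eq_mul,
      dotProduct, ← hn']
    ring
  have h3 : (n * s * (a ⬝ᵥ a + (1 + n * s))) ^ 2 =
      (n * s) ^ 2 * (a ⬝ᵥ a) ^ 2 + n * (2 * (n * s) * d * (a ⬝ᵥ a)) + n * (n * d ^ 2) := by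
    rw [hd]
    ring
  rw [h1, h3]
  have h4 : 0 ≤ 2 * (n * s) * d * (a ⬝ᵥ a) := by positivity
  have h5 : 0 ≤ n * d ^ 2 := by positivity
  nlinarith

theorem dirac_key_pos (hC : Sym3 C) (hI : Inj C) {a : ι → ℝ} (hη : 0 < a ⬝ᵥ a) {δ : ℝ}
    (hδ : 0 < δ) (ζ : Idx ι → ℝ) :
    Nfour C ζ * (Fintype.card ι * δ) ≤ Eh C (fun v => dirac C a v + δ * ev ι v) ζ /
      ((1 + Fintype.card ι * δ) ^ 3 * Tr fun v => dirac C a v + δ * ev ι v) := by
  have hn := card_pos (ι := ι)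
  set n : ℝ := (Fintype.card ι : ℝ) with hn'
  set L₀ : Var ι → ℝ := fun v => dirac C a v - ev ι v / n with hL
  have h0 : m0 L₀ = 0 := by
    change (1 : ℝ) - n / n = 0
    rw [div_self hn.ne', sub_self]
  have h1 : m1 L₀ = a := by
    funext i
    change a i - 0 / n = a i
    simp
  have hl : ∀ s : ℝ, (fun v => dirac C a v + s * ev ι v) =
      fun v => L₀ v + (1 + n * s) * (ev ι v / n) := fun s => by
    funext v
    simp only [hL]
    field_simp
    ring
  obtain ⟨N1, N2, N3, h⟩ := exp_Eh hC h0 ζ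
  have hη' : 0 < m1 L₀ ⬝ᵥ m1 L₀ := by rwa [h1]
  have hT : ∀ s : ℝ, 0 < s → 0 < Tr fun v => dirac C a v + s * ev ι v := fun s hs => by
    rw [Tr_dirac]
    positivity
  have hG : ∀ s : ℝ, 0 < s → Eh C (fun v => dirac C a v + s * ev ι v) ζ /
      ((1 + n * s) ^ 3 * Tr fun v => dirac C a v + s * ev ι v) =
      (Nzero C L₀ ζ + N1 * (1 + n * s) + N2 * (1 + n * s) ^ 2 + N3 * (1 + n * s) ^ 3 +
        Nfour C ζ * (1 + n * s) ^ 4) / ((1 + n * s) *
          ((1 + n * s) ^ 2 + (∑ i, m2 L₀ i i) * (1 + n * s) - m1 L₀ ⬝ᵥ m1 L₀)) := fun s hs => by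
    have h2 := (hT s hs).ne'
    rw [hl] at h2 ⊢
    rw [Tr_real h0] at h2
    rw [Eh_real h, Tr_real h0]
    have : 0 < 1 + n * s := by positivity
    field_simp
  -- the continuous minorant
  set Ls : ℝ → Var ι → ℝ := fun s v => dirac C a v + s * ev ι v with hLs
  have hc : Continuous Ls := by
    unfold Ls
    fun_prop
  set g : ℝ → ℝ := fun s => LF C (Ls s) ζ - (FH C (Ls s) ζ +
      (sg ζ ^ 2 * (24 * Tr (Ls s) ^ 2 + 6 * H2 (Ls s)) + 52 * (Vv (Ls s) ζ ⬝ᵥ Vv (Ls s) ζ) * Tr (Ls s) +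
        4 * qf (Vv (Ls s) ζ) (Hm (Ls s)) (Vv (Ls s) ζ)) +
      (5 * (Vv (Ls s) ζ ⬝ᵥ Vv (Ls s) ζ) + 2 * m0 (Ls s) ^ 2 * lm ζ ^ 2) * Tr (Ls s)) / (1 + n * s) ^ 3 +
      Nfour C ζ * (n * δ - n * s) with hg
  have hgc : ContinuousAt g 0 := by
    have c0 := (cont_m0 (ι := ι) (R := ℝ)).comp hc
    have c1 := (cont_Tr (ι := ι) (R := ℝ)).comp hc
    have c2 := (cont_H2 (ι := ι) (R := ℝ)).comp hc
    have c3 := (cont_VV ζ).comp hc
    have c4 := (cont_qf ζ).comp hc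
    have c5 := (cont_LF (C := C) ζ).comp hc
    have c6 := (cont_FH (C := C) ζ).comp hc
    refine (c5.continuousAt.sub (ContinuousAt.div (Continuous.continuousAt ?_) (by fun_prop)
      (by simp))).add (by fun_prop)
    exact (c6.add (((continuous_const.mul ((continuous_const.mul (c1.pow 2)).add
      (continuous_const.mul c2))).add ((continuous_const.mul c3).mul c1)).add
      (continuous_const.mul c4))).add (((continuous_const.mul c3).add
        ((continuous_const.mul (c0.pow 2)).mul continuous_const)).mul c1)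
  have hg0 : g 0 = Nfour C ζ * (n * δ) := by
    have e0 : Ls 0 = dirac C a := by
      funext v
      simp [hLs]
    have e1 : ∀ i j, Hm (Ls 0) i j = 0 := fun i j => by
      simp only [hLs, Hm_dirac]
      simp
    have e2 : Tr (Ls 0) = 0 := by simp [Tr, e1]
    have e3 : H2 (Ls 0) = 0 := by simp [H2, e1]
    have e4 : qf (Vv (Ls 0) ζ) (Hm (Ls 0)) (Vv (Ls 0) ζ) = 0 := by simp [qf, e1]
    simp only [hg, e2, e3, e4]
    rw [e0, LF_dirac]
    ring
  rw [← hg0]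
  refine le_of_tendsto (hgc.tendsto.mono_left (nhdsWithin_le_nhds (s := Set.Ioi 0))) ?_
  filter_upwards [Ioo_mem_nhdsGT hδ] with s hs
  have hu : 0 < 1 + n * s := by have := hs.1; positivity
  have hTs := hT s hs.1
  have hm := pf_mono hη' (Nzero_nonneg hC hI L₀ ζ) (roots hI h0 hη' h) hu
    (by rw [← Tr_real h0, ← hl]; exact hTs) (v := 1 + n * δ) (by nlinarith [hs.2])
  rw [← hG s hs.1, ← hG δ hδ] at hm
  have hm0 : m0 (Ls s) = 1 + n * s := by
    change (1 : ℝ) + s * n = _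
    ring
  have hB : Br C (Ls s) ζ ≤
      (5 * (Vv (Ls s) ζ ⬝ᵥ Vv (Ls s) ζ) + 2 * m0 (Ls s) ^ 2 * lm ζ ^ 2) * Tr (Ls s) ^ 2 := by
    refine (Br_le hI _ ζ).trans (mul_le_mul_of_nonneg_left (H2_dirac a hs.1.le) ?_)
    have := self_nonneg (Vv (Ls s) ζ)
    positivity
  have hlow : g s - Nfour C ζ * (n * δ - n * s) ≤
      Eh C (Ls s) ζ / ((1 + n * s) ^ 3 * Tr (Ls s)) := by
    have hTs' : 0 < Tr (Ls s) := hTs
    rw [le_div_iff₀ (by positivity)]
    simp only [hg, add_sub_cancel_right]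
    unfold Eh
    rw [hm0] at hB ⊢
    rw [sub_mul, mul_comm ((1 + n * s) ^ 3) (Tr (Ls s)), mul_left_comm (_ / _),
      div_mul_cancel₀ _ (by positivity)]
    linarith
  change _ ≤ _ - Eh C (Ls s) ζ / ((1 + n * s) ^ 3 * Tr (Ls s)) at hm
  linarith

theorem dirac_key (hC : Sym3 C) (hI : Inj C) (a : ι → ℝ) {δ : ℝ}
    (hδ : 0 < δ) (ζ : Idx ι → ℝ) :
    Nfour C ζ * (Fintype.card ι * δ) ≤ Eh C (fun v => dirac C a v + δ * ev ι v) ζ /
      ((1 + Fintype.card ι * δ) ^ 3 * Tr fun v => dirac C a v + δ * ev ι v) := by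
  rcases (self_nonneg a).lt_or_eq with hη | hη
  · exact dirac_key_pos hC hI hη hδ ζ
  have hn := card_pos (ι := ι)
  obtain rfl : a = 0 := dotProduct_self_eq_zero.1 hη.symm
  have hc : Continuous fun t : ℝ => fun v => dirac C (fun _ : ι => t) v + δ * ev ι v := by
    refine continuous_pi fun v => Continuous.add ?_ continuous_const
    unfold dirac c3 dotProduct
    rcases v with v | v | v | v
    · fin_cases v <;> simp <;> fun_prop
    · simp only [Sum.elim_inr, Sum.elim_inl]; fun_prop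
    · simp only [Sum.elim_inr, Sum.elim_inl]; fun_prop
    · simp only [Sum.elim_inr]; fun_prop
  refine le_of_ne (f := fun t => Eh C (fun v => dirac C (fun _ : ι => t) v + δ * ev ι v) ζ /
      ((1 + Fintype.card ι * δ) ^ 3 * Tr fun v => dirac C (fun _ : ι => t) v + δ * ev ι v)) ?_ ?_
  · refine ContinuousAt.div ((cont_Eh _).comp hc).continuousAt
      (continuous_const.mul (cont_Tr.comp hc)).continuousAt ?_
    rw [Tr_dirac]
    have := self_nonneg fun _ : ι => (0 : ℝ)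
    positivity
  · intro t ht
    exact dirac_key_pos hC hI
      (Finset.sum_pos (fun _ _ => mul_self_pos.2 ht) Finset.univ_nonempty) hδ ζ

end PickAux

theorem pick (hC : Sym3 C) (hI : Inj C) (x : Var ι → ℝ) {z : ℂ} (hz : 0 < z.im) :
    m0 (fun v => (x v : ℂ) + z * (ev ι v : ℂ)) ≠ 0 ∧
      Tr (fun v => (x v : ℂ) + z * (ev ι v : ℂ)) ≠ 0 ∧ ∀ ζ : Idx ι → ℝ, ζ ≠ 0 →
        0 < (Eh C (fun v => (x v : ℂ) + z * (ev ι v : ℂ)) (fun i => (ζ i : ℂ)) /
          (m0 (fun v => (x v : ℂ) + z * (ev ι v : ℂ)) ^ 3 *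
            Tr fun v => (x v : ℂ) + z * (ev ι v : ℂ))).im := by
  have hn := PickAux.card_pos (ι := ι)
  set L₀ : Var ι → ℝ := fun v => x v - m0 x * (ev ι v / Fintype.card ι) with hL
  have h0 : m0 L₀ = 0 := by
    change m0 x - m0 x * ((Fintype.card ι : ℝ) / Fintype.card ι) = 0
    rw [div_self hn.ne', mul_one, sub_self]
  have he : 0 < (((m0 x : ℝ) : ℂ) + ((Fintype.card ι : ℝ) : ℂ) * z).im := by
    simp only [Complex.add_im, Complex.ofReal_im, Complex.im_ofReal_mul,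
      zero_add]
    positivity
  have hl : (fun v => (x v : ℂ) + z * (ev ι v : ℂ)) =
      line L₀ (((m0 x : ℝ) : ℂ) + ((Fintype.card ι : ℝ) : ℂ) * z) := by
    funext v
    have : ((Fintype.card ι : ℝ) : ℂ) ≠ 0 := by exact_mod_cast hn.ne'
    simp only [line, hL, Complex.ofReal_sub, Complex.ofReal_mul, Complex.ofReal_div]
    field_simp
    ring
  rw [hl]
  refine ⟨?_, ?_, fun ζ hζ => ?_⟩
  · rw [m0_line h0]
    intro h
    rw [h] at he
    simp at he
  · rw [Tr_line h0]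
    exact quad_ne (PickAux.self_nonneg _) he
  · exact (mul_pos (Nfour_pos hC hI hζ) he).trans_le (PickAux.key hC hI h0 ζ he)

theorem ev_pos (hC : Sym3 C) (hI : Inj C) : 0 < m0 (ev ι) ∧ 0 < Tr (ev ι) ∧
    ∀ ζ : Idx ι → ℝ, ζ ≠ 0 → 0 < Eh C (ev ι) ζ := by
  have hn := PickAux.card_pos (ι := ι)
  refine ⟨hn, ?_, fun ζ hζ => ?_⟩
  · rw [(PickAux.Eh_ev (C := C) 0).2]
    positivity
  · rw [(PickAux.Eh_ev ζ).1]
    exact mul_pos (by positivity) (Nfour_pos hC hI hζ)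

theorem dirac_pos (hC : Sym3 C) (hI : Inj C) (a : ι → ℝ) {δ : ℝ} (hδ : 0 < δ) :
    0 < m0 (fun v => dirac C a v + δ * ev ι v) ∧ 0 < Tr (fun v => dirac C a v + δ * ev ι v) ∧
      ∀ ζ : Idx ι → ℝ, ζ ≠ 0 → 0 < Eh C (fun v => dirac C a v + δ * ev ι v) ζ := by
  have hn := PickAux.card_pos (ι := ι)
  have hT : 0 < Tr fun v => dirac C a v + δ * ev ι v := by
    rw [PickAux.Tr_dirac]
    have := PickAux.self_nonneg a
    positivity
  refine ⟨?_, hT, fun ζ hζ => ?_⟩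
  · change 0 < (1 : ℝ) + δ * Fintype.card ι
    positivity
  · have h := (mul_pos (Nfour_pos hC hI hζ) (mul_pos hn hδ)).trans_le
      (PickAux.dirac_key hC hI a hδ ζ)
    exact (div_pos_iff_of_pos_right (by positivity)).1 h


end Crest.Agent.R237
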