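import Crest.Agent.R237.Defs

/-!
# Row 237: the cone of sums of squares is closed
-/

set_option autoImplicit false
set_option linter.unusedSectionVars false

noncomputable section

namespace Crest.Agent.R237

open MvPolynomial Matrix

namespace SepAux

open scoped MatrixOrder in
theorem exists_sqrt {B : Type} [Fintype B] [DecidableEq B] {M : Matrix B B ℝ}
    (hM : M.PosSemidef) : ∃ Z : Matrix B B ℝ, M = Zᴴ * Z := by
  obtain ⟨Z, hZ⟩ := CStarAlgebra.nonneg_iff_eq_star_mul_self.mp hM.nonneg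
  exact ⟨Z, hZ⟩

theorem trace_eq {B C : Type} [Fintype B] [Fintype C] (Z : Matrix C B ℝ) :
    (Zᴴ * Z).trace = ∑ a, ∑ l, Z l a ^ 2 := by
  simp [Matrix.trace, Matrix.mul_apply, sq]

theorem isCompact_Z {B : Type} [Fintype B] :
    IsCompact {Z : Matrix B B ℝ | (Zᴴ * Z).trace ≤ 1} := by
  have hc : IsCompact (Set.pi Set.univ fun _ : B => Set.pi Set.univ fun _ : B =>
      Set.Icc (-1 : ℝ) 1) :=
    isCompact_univ_pi fun _ => isCompact_univ_pi fun _ => isCompact_Icc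
  have hcl : IsClosed {Z : Matrix B B ℝ | (Zᴴ * Z).trace ≤ 1} :=
    isClosed_le (by fun_prop) continuous_const
  refine IsCompact.of_isClosed_subset (s := (Set.pi Set.univ fun _ : B => Set.pi Set.univ
    fun _ : B => Set.Icc (-1 : ℝ) 1 : Set (Matrix B B ℝ))) hc hcl ?_
  intro (Z : Matrix B B ℝ) hZ0 l _ a _
  have hZ : (Zᴴ * Z).trace ≤ 1 := hZ0
  rw [trace_eq] at hZ
  have h1 : Z l a ^ 2 ≤ ∑ l, Z l a ^ 2 :=
    Finset.single_le_sum (f := fun l => Z l a ^ 2) (fun _ _ => sq_nonneg _) (Finset.mem_univ l)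
  have h2 : ∑ l, Z l a ^ 2 ≤ ∑ a, ∑ l, Z l a ^ 2 :=
    Finset.single_le_sum (f := fun a => ∑ l, Z l a ^ 2)
      (fun _ _ => Finset.sum_nonneg fun _ _ => sq_nonneg _) (Finset.mem_univ a)
  have h3 : Z l a ^ 2 ≤ 1 := by linarith
  exact abs_le.mp ((sq_le_one_iff_abs_le_one _).mp h3)

theorem isCompact_Q {B : Type} [Fintype B] [DecidableEq B] :
    IsCompact {M : Matrix B B ℝ | M.PosSemidef ∧ M.trace ≤ 1} := by
  have h : {M : Matrix B B ℝ | M.PosSemidef ∧ M.trace ≤ 1} =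
      (fun Z : Matrix B B ℝ => Zᴴ * Z) '' {Z : Matrix B B ℝ | (Zᴴ * Z).trace ≤ 1} := by
    ext M
    constructor
    · rintro ⟨h1, h2⟩
      obtain ⟨Z, rfl⟩ := exists_sqrt h1
      exact ⟨Z, h2, rfl⟩
    · rintro ⟨Z, hZ, rfl⟩
      exact ⟨posSemidef_conjTranspose_mul_self Z, hZ⟩
  rw [h]
  exact isCompact_Z.image (by fun_prop)

theorem convex_Q {B : Type} [Fintype B] :
    Convex ℝ {M : Matrix B B ℝ | M.PosSemidef ∧ M.trace ≤ 1} := by
  rintro M ⟨hM, hM'⟩ N ⟨hN, hN'⟩ a b ha hb hab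
  refine ⟨(hM.smul ha).add (hN.smul hb), ?_⟩
  rw [trace_add, trace_smul, trace_smul, smul_eq_mul, smul_eq_mul]
  nlinarith

theorem gram_eq {A B C : Type} [CommRing A] [Algebra ℝ A] [Fintype B] [Fintype C]
    (v : B → A) (Z : Matrix C B ℝ) :
    ∑ a, ∑ b, (Zᴴ * Z) a b • (v a * v b) = ∑ l, (∑ a, Z l a • v a) ^ 2 := by
  simp only [Matrix.mul_apply, conjTranspose_apply, star_trivial, sq, Finset.sum_mul_sum,
    Finset.sum_smul, smul_mul_smul_comm]
  rw [Finset.sum_congr rfl fun a _ => Finset.sum_comm]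
  exact Finset.sum_comm

/-- The abstract separation statement. -/
theorem abstract {A B T : Type} [CommRing A] [Algebra ℝ A] [Fintype B] [DecidableEq B] [Fintype T]
    (v : B → A) (W : Submodule ℝ A) (co : A →ₗ[ℝ] (T → ℝ)) (f : A)
    (hv : ∀ a b, v a * v b ∈ W) (hf : f ∈ W) (hco : ∀ w ∈ W, co w = 0 → w = 0)
    (hreal : ∀ Z : Matrix B B ℝ, ∑ l, (∑ a, Z l a • v a) ^ 2 = 0 → Z = 0)
    (h : ∀ Λ : A →ₗ[ℝ] ℝ, (∀ x : B → ℝ, x ≠ 0 → 0 < Λ ((∑ a, x a • v a) ^ 2)) → 0 ≤ Λ f) :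
    ∃ Z : Matrix B B ℝ, f = ∑ l, (∑ a, Z l a • v a) ^ 2 := by
  by_contra hne
  obtain ⟨G, hG⟩ : ∃ G : Matrix B B ℝ →ₗ[ℝ] A, ∀ M, G M = ∑ a, ∑ b, M a b • (v a * v b) := by
    refine ⟨⟨⟨fun M => ∑ a, ∑ b, M a b • (v a * v b), ?_⟩, ?_⟩, fun _ => rfl⟩
    · intro M N
      simp only [Matrix.add_apply, add_smul, Finset.sum_add_distrib]
    · intro c M
      simp only [Matrix.smul_apply, smul_eq_mul, mul_smul, RingHom.id_apply, Finset.smul_sum]
  have hGW : ∀ M, G M ∈ W := fun M => by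
    rw [hG]
    exact W.sum_mem fun a _ => W.sum_mem fun b _ => W.smul_mem _ (hv a b)
  obtain ⟨φ, hφ⟩ : ∃ φ : Matrix B B ℝ →ₗ[ℝ] (T → ℝ), ∀ M, φ M = co (G M) + M.trace • co f :=
    ⟨co ∘ₗ G + (traceLinearMap B ℝ ℝ).smulRight (co f), fun _ => rfl⟩
  have hK : IsCompact (φ '' {M : Matrix B B ℝ | M.PosSemidef ∧ M.trace ≤ 1}) :=
    isCompact_Q.image φ.continuous_of_finiteDimensional
  have hC : Convex ℝ (φ '' {M : Matrix B B ℝ | M.PosSemidef ∧ M.trace ≤ 1}) :=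
    convex_Q.linear_image φ
  have hnot : co f ∉ φ '' {M : Matrix B B ℝ | M.PosSemidef ∧ M.trace ≤ 1} := by
    rintro ⟨M, ⟨hM, hM'⟩, he⟩
    rw [hφ] at he
    have h1 : G M - (1 - M.trace) • f = 0 := by
      apply hco _ (W.sub_mem (hGW M) (W.smul_mem _ hf))
      rw [map_sub, map_smul, sub_smul, one_smul, eq_sub_of_add_eq he, sub_self]
    have h2 : G M = (1 - M.trace) • f := sub_eq_zero.mp h1
    rcases hM'.eq_or_lt with h3 | h3
    · obtain ⟨Z, rfl⟩ := exists_sqrt hM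
      rw [h3, sub_self, zero_smul, hG, gram_eq] at h2
      rw [hreal Z h2] at h3
      simp at h3
    · have h4 : 0 < 1 - M.trace := sub_pos.mpr h3
      obtain ⟨Z, hZ⟩ := exists_sqrt (hM.smul (inv_pos.mpr h4).le)
      apply hne
      refine ⟨Z, ?_⟩
      rw [← gram_eq, ← hG, ← hZ, map_smul, h2, smul_smul, inv_mul_cancel₀ h4.ne', one_smul]
  obtain ⟨l, u, hl1, hl2⟩ := geometric_hahn_banach_point_closed hC hK.isClosed hnot
  have hu : u < 0 := by
    have := hl2 (φ 0) ⟨0, ⟨PosSemidef.zero, by simp⟩, rfl⟩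
    simpa using this
  have key := h (l.toLinearMap ∘ₗ co) ?_
  · have : l (co f) < 0 := hl1.trans hu
    exact absurd key (not_le.mpr this)
  intro x hx
  obtain ⟨Z, hZ⟩ : ∃ Z : Matrix Unit B ℝ, ∀ l a, Z l a = x a := ⟨fun _ a => x a, fun _ _ => rfl⟩
  have htr : 0 < (Zᴴ * Z).trace := by
    refine lt_of_le_of_ne (posSemidef_conjTranspose_mul_self Z).trace_nonneg fun h0 => hx ?_
    have := trace_conjTranspose_mul_self_eq_zero_iff.mp h0.symm
    funext a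
    rw [← hZ () a, this]
    rfl
  have hmem : ((Zᴴ * Z).trace)⁻¹ • (Zᴴ * Z) ∈
      {M : Matrix B B ℝ | M.PosSemidef ∧ M.trace ≤ 1} := by
    refine ⟨(posSemidef_conjTranspose_mul_self Z).smul (inv_pos.mpr htr).le, ?_⟩
    rw [trace_smul, smul_eq_mul, inv_mul_cancel₀ htr.ne']
  have h5 := hl2 _ ⟨_, hmem, rfl⟩
  rw [hφ, trace_smul, smul_eq_mul, inv_mul_cancel₀ htr.ne', one_smul, map_smul, map_smul,
    map_add, map_smul, hG, gram_eq, smul_eq_mul] at h5
  simp only [hZ, Finset.univ_unique, Finset.sum_singleton] at h5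
  have h6 : 0 < ((Zᴴ * Z).trace)⁻¹ * l (co ((∑ a, x a • v a) ^ 2)) := by linarith
  exact (pos_iff_pos_of_mul_pos h6).mp (inv_pos.mpr htr)

theorem sum_sq_eq_zero {ι C : Type} [Fintype C] (g : C → MvPolynomial ι ℝ)
    (h : ∑ l, g l ^ 2 = 0) (l : C) : g l = 0 := by
  apply MvPolynomial.funext
  intro x
  have h1 := congrArg (eval x) h
  simp only [map_sum, map_pow, map_zero] at h1
  have h2 := (Finset.sum_eq_zero_iff_of_nonneg fun _ _ => sq_nonneg _).mp h1 l (Finset.mem_univ l)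
  simpa using h2

end SepAux

theorem sep {ι : Type} [Fintype ι] (f : MvPolynomial ι ℝ) (hf : f.totalDegree ≤ 8)
    (h : ∀ Λ : MvPolynomial ι ℝ →ₗ[ℝ] ℝ,
      (∀ g : MvPolynomial ι ℝ, g.totalDegree ≤ 4 → 0 ≤ Λ (g ^ 2)) → 0 < Λ 1 → 0 ≤ Λ f) :
    ∃ (m : ℕ) (g : Fin m → MvPolynomial ι ℝ), f = ∑ j, g j ^ 2 := by
  obtain ⟨p, hp⟩ := (restrictTotalDegree ι ℝ 8).subtype.exists_leftInverse_of_injective
    (Submodule.ker_subtype _)
  let b := Module.finBasis ℝ (restrictTotalDegree ι ℝ 4)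
  let c := Module.finBasis ℝ (restrictTotalDegree ι ℝ 8)
  have hrepr : ∀ g : MvPolynomial ι ℝ, g.totalDegree ≤ 4 →
      ∃ x : Fin (Module.finrank ℝ (restrictTotalDegree ι ℝ 4)) → ℝ,
        g = ∑ a, x a • (b a : MvPolynomial ι ℝ) := by
    intro g hg
    refine ⟨b.repr ⟨g, (mem_restrictTotalDegree _ _ _).mpr hg⟩, ?_⟩
    have := congrArg Subtype.val (b.sum_repr ⟨g, (mem_restrictTotalDegree _ _ _).mpr hg⟩)
    rw [Submodule.coe_sum] at this
    exact this.symm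
  refine (SepAux.abstract (fun a => (b a : MvPolynomial ι ℝ)) (restrictTotalDegree ι ℝ 8)
    (c.equivFun.toLinearMap ∘ₗ p) f ?_ ((mem_restrictTotalDegree _ _ _).mpr hf) ?_ ?_ ?_).elim
    fun Z hZ => ⟨_, _, hZ⟩
  · intro a a'
    rw [mem_restrictTotalDegree]
    have h1 := (mem_restrictTotalDegree _ _ _).mp (b a).2
    have h2 := (mem_restrictTotalDegree _ _ _).mp (b a').2
    have h3 := totalDegree_mul (b a : MvPolynomial ι ℝ) (b a' : MvPolynomial ι ℝ)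
    omega
  · intro w hw h0
    have h1 : p w = ⟨w, hw⟩ := LinearMap.congr_fun hp ⟨w, hw⟩
    have h2 : c.equivFun (p w) = 0 := h0
    rw [h1, LinearEquiv.map_eq_zero_iff] at h2
    exact congrArg Subtype.val h2
  · intro Z hZ
    ext l a
    have h1 := SepAux.sum_sq_eq_zero _ hZ l
    have h2 : ∑ a, Z l a • b a = 0 := by
      apply Subtype.ext
      simpa using h1
    exact Fintype.linearIndependent_iff.mp b.linearIndependent _ h2 a
  · intro Λ hΛ
    apply h Λ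
    · intro g hg
      obtain ⟨x, rfl⟩ := hrepr g hg
      by_cases hx : x = 0
      · simp [hx]
      · exact (hΛ x hx).le
    · obtain ⟨x, hx⟩ := hrepr 1 (by simp)
      have hx0 : x ≠ 0 := by
        rintro rfl
        simp at hx
      have := hΛ x hx0
      rwa [← hx, one_pow] at this


end Crest.Agent.R237
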