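import Crest.Agent.R237.Gen
import Crest.Agent.R237.Pick
import Crest.Agent.R237.Dual
import Crest.Agent.R237.Crit
import Crest.Agent.R237.Sep
import Crest.Agent.R237.Gap

/-!
# Row 237: a hyperbolicity cone which is not a spectrahedral shadow
-/

set_option autoImplicit false
set_option linter.unusedSectionVars false

noncomputable section

namespace Crest.Agent.R237

open MvPolynomial Matrix

variable {ι : Type} [Fintype ι] [DecidableEq ι] [Nonempty ι] {C : ι → ι → ι → ℝ}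

namespace FinalA

theorem eval_Tr (L : Var ι → ℝ) : eval L (Tr (X : Var ι → MvPolynomial (Var ι) ℝ)) = Tr L := by
  have := map_Tr (aeval L : MvPolynomial (Var ι) ℝ →ₐ[ℝ] ℝ) X
  simp only [aeval_X] at this
  rw [← coe_aeval_eq_eval]
  exact this

theorem eval_dirac (a : ι → ℝ) (v : Var ι) :
    eval a (dirac C (X : ι → MvPolynomial ι ℝ) v) = dirac C a v := by
  have := map_dirac (aeval a : MvPolynomial ι ℝ →ₐ[ℝ] ℝ) C X v
  simp only [aeval_X] at this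
  rw [← coe_aeval_eq_eval]
  exact this

theorem eval_fpol (z : ι → ℝ) : eval z (fpol C (X : ι → MvPolynomial ι ℝ) 1) = fpol C z 1 := by
  have := map_fpol (aeval z : MvPolynomial ι ℝ →ₐ[ℝ] ℝ) C X 1
  simp only [aeval_X, map_one] at this
  rw [← coe_aeval_eq_eval]
  exact this

variable {M : Matrix (Idx ι) (Idx ι) (MvPolynomial (Var ι) ℝ)}

theorem dpos (hMs : M.IsSymm)
    (hMr : ∀ (L : Var ι → ℝ) (ζ : Idx ι → ℝ), ∑ i, ∑ j, ζ i * ζ j * eval L (M i j) = Eh C L ζ)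
    (L : Var ι → ℝ) (h : ∀ ζ : Idx ι → ℝ, ζ ≠ 0 → 0 < Eh C L ζ) : 0 < eval L M.det := by
  rw [RingHom.map_det]
  refine det_pos_of_form (hMs.map _) fun ζ hζ => ?_
  have := h ζ hζ
  rw [← hMr] at this
  exact this

theorem hom (hMh : ∀ i j, (M i j).IsHomogeneous 6) :
    (X (.inl 0) * Tr X * M.det : MvPolynomial (Var ι) ℝ).IsHomogeneous
      (1 + 2 + Fintype.card (Idx ι) * 6) :=
  ((isHomogeneous_X _ _).mul isHomogeneous_Tr).mul (isHomogeneous_det hMh)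

theorem eval_p (L : Var ι → ℝ) :
    eval L (X (.inl 0) * Tr X * M.det : MvPolynomial (Var ι) ℝ) = m0 L * Tr L * eval L M.det := by
  rw [map_mul, map_mul, eval_X, eval_Tr]; rfl

theorem hyp (hC : Sym3 C) (hI : Inj C) (hMs : M.IsSymm) (hMh : ∀ i j, (M i j).IsHomogeneous 6)
    (hMr : ∀ (L : Var ι → ℝ) (ζ : Idx ι → ℝ), ∑ i, ∑ j, ζ i * ζ j * eval L (M i j) = Eh C L ζ)
    (hMc : ∀ (L : Var ι → ℂ) (ζ : Idx ι → ℝ),
      ∑ i, ∑ j, (ζ i : ℂ) * ζ j * aeval L (M i j) = Eh C L fun i => (ζ i : ℂ)) :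
    Hyp (X (.inl 0) * Tr X * M.det : MvPolynomial (Var ι) ℝ) (ev ι) := by
  obtain ⟨e0, eT, eE⟩ := ev_pos hC hI
  refine hyp_of_upper (hom hMh) ?_ ?_
  · rw [eval_p]
    exact mul_pos (mul_pos e0 eT) (dpos hMs hMr _ eE)
  · intro x z hz
    obtain ⟨h1, h2, h3⟩ := pick hC hI x hz
    generalize (fun v => (x v : ℂ) + z * (ev ι v : ℂ)) = L at h1 h2 h3 ⊢
    have hT := map_Tr (aeval L : MvPolynomial (Var ι) ℝ →ₐ[ℝ] ℂ) X
    simp only [aeval_X] at hT
    rw [map_mul, map_mul, aeval_X, hT]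
    refine mul_ne_zero (mul_ne_zero h1 h2) ?_
    rw [AlgHom.map_det]
    refine det_ne_zero_of_im (hMs.map _) (m0 L ^ 3 * Tr L) fun ζ hζ => ?_
    have := h3 ζ hζ
    rw [← hMc] at this
    exact this

theorem dirac_mem (hC : Sym3 C) (hI : Inj C) (hMs : M.IsSymm)
    (hMh : ∀ i j, (M i j).IsHomogeneous 6)
    (hMr : ∀ (L : Var ι → ℝ) (ζ : Idx ι → ℝ), ∑ i, ∑ j, ζ i * ζ j * eval L (M i j) = Eh C L ζ)
    (a : ι → ℝ) :
    dirac C a ∈ Cone (X (.inl 0) * Tr X * M.det : MvPolynomial (Var ι) ℝ) (ev ι) := by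
  rw [mem_cone_iff (hom hMh)]
  intro δ hδ
  obtain ⟨h1, h2, h3⟩ := dirac_pos hC hI a hδ
  rw [eval_p]
  exact (mul_pos (mul_pos h1 h2) (dpos hMs hMr _ h3)).ne'

theorem xi_ray (hC : Sym3 C) (hI : Inj C) (hMs : M.IsSymm)
    (hMh : ∀ i j, (M i j).IsHomogeneous 6)
    (hMr : ∀ (L : Var ι → ℝ) (ζ : Idx ι → ℝ), ∑ i, ∑ j, ζ i * ζ j * eval L (M i j) = Eh C L ζ)
    {x : Var ι → ℝ}
    (hx : x ∈ Cone (X (.inl 0) * Tr X * M.det : MvPolynomial (Var ι) ℝ) (ev ι))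
    (a : ι → ℝ) (ε : ℝ) {δ : ℝ} (hδ : 0 < δ) : 0 ≤ xi C a ε fun v => x v + δ * ev ι v := by
  obtain ⟨e0, eT, eE⟩ := ev_pos hC hI
  rw [mem_cone_iff (hom hMh)] at hx
  simp only [eval_p] at hx
  have hX : (X (.inl 0) : MvPolynomial (Var ι) ℝ).IsHomogeneous 1 := isHomogeneous_X _ _
  have a1 := pos_of_ray (e := ev ι) (x := x) hX (by rw [eval_X]; exact e0) (fun t ht => by
    rw [eval_X]
    exact left_ne_zero_of_mul (left_ne_zero_of_mul (hx t ht))) hδ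
  have a2 := pos_of_ray (e := ev ι) (x := x) isHomogeneous_Tr (by rw [eval_Tr]; exact eT)
    (fun t ht => by
      rw [eval_Tr]
      exact right_ne_zero_of_mul (left_ne_zero_of_mul (hx t ht))) hδ
  have a3 := posdef_of_ray (e := ev ι) (x := x) hMs hMh
    (fun ζ hζ => by rw [hMr]; exact eE ζ hζ)
    (fun t ht => right_ne_zero_of_mul (hx t ht)) hδ (Sum.elim ![1, ε] a) (by
      intro h
      have := congrFun h (.inl 0)
      simp at this)
  rw [eval_X] at a1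
  rw [eval_Tr] at a2
  rw [hMr] at a3
  exact xi_nonneg hC hI (L := fun v => x v + δ * ev ι v) a1 a2 a ε a3.le

end FinalA

open FinalA in
theorem exists_not_shadow (hC : Sym3 C) (hI : Inj C)
    (hn : ¬ ∃ (m : ℕ) (g : Fin m → MvPolynomial ι ℝ),
      fpol C (X : ι → MvPolynomial ι ℝ) 1 = ∑ j, g j ^ 2) :
    ∃ p : MvPolynomial (Var ι) ℝ, Hyp p (ev ι) ∧ ¬ Shadow (Cone p (ev ι)) := by
  obtain ⟨M, hMs, hMh, hMr, hMc⟩ := exists_mat C
  refine ⟨_, hyp hC hI hMs hMh hMr hMc, fun hS => hn ?_⟩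
  refine sep _ ((totalDegree_fpol C).trans (by norm_num)) fun Λ hΛ h1 => ?_
  refine crit (fun v => dirac C (X : ι → MvPolynomial ι ℝ) v) (totalDegree_dirac C) hS
    (fun a => ?_) (fpol C (X : ι → MvPolynomial ι ℝ) 1) (fun a => ?_) Λ hΛ h1
  · simp only [eval_dirac]
    exact dirac_mem hC hI hMs hMh hMr a
  · obtain ⟨ξ, hξ, hξ'⟩ := exists_xi C a
    refine ⟨ξ, hξ, fun ε _ => ⟨fun x hx => ?_, fun z => ?_⟩⟩
    · have key : ∀ δ : ℝ, 0 < δ → 0 ≤ ∑ v, ξ ε v * (x v + δ * ev ι v) := by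
        intro δ hδ
        rw [← hξ' ε fun v => x v + δ * ev ι v]
        exact xi_ray hC hI hMs hMh hMr hx a ε hδ
      have hc : Continuous fun δ : ℝ => ∑ v, ξ ε v * (x v + δ * ev ι v) := by fun_prop
      have h0 := (hc.tendsto 0).mono_left (nhdsWithin_le_nhds (s := Set.Ioi (0 : ℝ)))
      have := ge_of_tendsto h0 (eventually_nhdsWithin_of_forall fun δ hδ => key δ hδ)
      simpa using this
    · simp only [eval_dirac]
      rw [← hξ' ε (dirac C fun i => a i + ε * z i), xi_dirac hC, eval_fpol, ← fpol_smul]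
      congr 1
      funext i
      ring

end Crest.Agent.R237
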