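import Crest.Agent.R237.BCone
import Crest.Agent.R237.BLift1
import Crest.Agent.R237.BLift2
import Crest.Agent.R237.BRep
import Crest.Agent.R237.BNs1
import Crest.Agent.R237.BNs3

/-!
# Row 237: a hyperbolicity cone with a small lift which is not a spectrahedron
-/

set_option autoImplicit false

noncomputable section

namespace Crest.Agent.R237

open MvPolynomial Matrix

theorem finalB : ∃ (p q : MvPolynomial (Fin 23) ℝ) (e : Fin 23 → ℝ),
    p.IsHomogeneous 20 ∧ Hyp p e ∧ eval e p = 1 ∧ q.IsHomogeneous 16 ∧ Hyp q e ∧ eval e q = 1 ∧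
      Cone q e = Cone p e ∧
      (∀ N : ℕ, 1 ≤ N → ∀ L : (Fin 23 → ℝ) →ₗ[ℝ] Matrix (Fin N) (Fin N) ℝ,
        (∀ x, (L x).IsSymm) → Cone p e ≠ {x | (L x).PosSemidef}) ∧
      ∃ (A : Fin 23 → Matrix (Fin 100) (Fin 100) ℝ) (B : Fin 307 → Matrix (Fin 100) (Fin 100) ℝ),
        (∀ ν, (A ν).IsSymm) ∧ (∀ j, (B j).IsSymm) ∧
        Cone p e = {x | ∃ v : Fin 307 → ℝ, (∑ ν, x ν • A ν + ∑ j, v j • B j).PosSemidef} := by
  obtain ⟨κ, hκ, hex⟩ := ko_of_lft
  have hex' := hex κ le_rfl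
  have hκ0 : 0 ≤ κ := by linarith
  have step : ∀ (x e : Fin 23 → ℝ) (δ : ℝ), (∃ v, Lft κ x v) → Ko κ e → 0 < δ →
      Ko κ fun i => x i + δ * e i := by
    rintro x e δ ⟨v, hv⟩ he hδ
    obtain ⟨w, hw⟩ := lft_of_ko hκ0 he
    have h0 := hv.xs_nonneg 0
    have h1 := hv.xs_nonneg 1
    have h2 : 0 < xs e 0 := he.1
    have h3 : 0 < xs e 1 := he.2.1
    refine hex' _ _ (hv.add (hw.smul hδ.le)) ?_ ?_
    · exact add_pos_of_nonneg_of_pos h0 (mul_pos hδ h2)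
    · exact add_pos_of_nonneg_of_pos h1 (mul_pos hδ h3)
  have hadd : ∀ (x : Fin 23 → ℝ) (δ : ℝ), Ko κ x → 0 < δ → Ko κ fun i => x i + δ * eB0 i :=
    fun x δ hx hδ => step x _ δ (lft_of_ko hκ0 hx) (ko_eB0 κ) hδ
  have hK : Cone (p20 κ (X : Fin 23 → MvPolynomial (Fin 23) ℝ)) eB = {x | ∃ v, Lft κ x v} := by
    rw [cone_p20 hκ hadd]
    ext x
    refine ⟨fun h => ?_, fun h δ hδ => step x _ δ h (ko_eB κ) hδ⟩
    have hc : Continuous fun δ : ℝ => fun i => x i + δ * eB i := by fun_prop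
    have h0 := (hc.tendsto 0).mono_left (nhdsWithin_le_nhds (s := Set.Ioi (0 : ℝ)))
    have := (isClosed_lft (by linarith : 0 < κ)).mem_of_tendsto h0
      (eventually_nhdsWithin_of_forall fun δ hδ => lft_of_ko hκ0 (h δ hδ))
    simpa using this
  refine ⟨p20 κ X, q16 κ X, eB, isHomogeneous_p20 κ, hyp_p20 hκ, eval_p20 κ, isHomogeneous_q16 κ,
    hyp_q16 hκ, eval_q16 κ, by rw [cone_q16 hκ hadd, cone_p20 hκ hadd], fun N _ L hL h => ?_, ?_⟩
  · rw [hK] at h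
    obtain ⟨n, m, L₁, L₂, Cy, hB⟩ := exists_blk hκ0 L hL
      (fun x hx => by
        have : x ∈ {x | ∃ v, Lft κ x v} := lft_of_ko hκ0 hx
        rw [h] at this
        exact this)
      (fun x hx h0 h1 => by
        have : x ∈ {x | (L x).PosSemidef} := hx
        rw [← h] at this
        obtain ⟨v, hv⟩ := this
        exact hex' x v hv h0 h1)
    exact not_blk hκ0 L₁ L₂ Cy hB
  · obtain ⟨A, B, hA, hB, h⟩ := exists_rep κ
    refine ⟨A, B, hA, hB, ?_⟩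
    rw [hK]
    ext x
    exact h x

end Crest.Agent.R237
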