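import Crest.Agent.R237.Defs

/-!
# Row 237: general facts on hyperbolic polynomials
-/

set_option autoImplicit false
set_option linter.unusedSectionVars false

noncomputable section

namespace Crest.Agent.R237

open MvPolynomial Matrix

variable {σ : Type}

namespace GenAux

theorem aeval_smul {A : Type} [CommRing A] [Algebra ℝ A] {p : MvPolynomial σ ℝ} {d : ℕ}
    (hp : p.IsHomogeneous d) (t : A) (x : σ → A) :
    aeval (fun i => t * x i) p = t ^ d * aeval x p := by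
  rw [aeval_def, aeval_def, eval₂_eq, eval₂_eq, Finset.mul_sum]
  refine Finset.sum_congr rfl fun s hs => ?_
  rw [hp.degree_eq_sum_deg_support hs]
  simp only [mul_pow, Finset.prod_mul_distrib, Finset.prod_pow_eq_pow_sum]
  ring

theorem eval_smul' {p : MvPolynomial σ ℝ} {d : ℕ} (hp : p.IsHomogeneous d) (t : ℝ) (x : σ → ℝ) :
    eval (fun i => t * x i) p = t ^ d * eval x p := by
  have := aeval_smul hp t x
  simpa only [aeval_eq_eval] using this

theorem eval_ray {p : MvPolynomial σ ℝ} {d : ℕ} (hp : p.IsHomogeneous d) (e x : σ → ℝ) {δ : ℝ}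
    (hδ : 0 < δ) :
    eval (fun i => x i + δ * e i) p = δ ^ d * eval (fun i => e i + δ⁻¹ * x i) p := by
  rw [← eval_smul' hp]
  congr 2
  funext i
  field_simp
  ring

theorem continuous_ray (p : MvPolynomial σ ℝ) (e x : σ → ℝ) :
    Continuous fun s : ℝ => eval (fun i => e i + s * x i) p :=
  (MvPolynomial.continuous_eval p).comp (continuous_pi fun _ => by fun_prop)

variable {κ : Type} [Fintype κ] [DecidableEq κ]

theorem form_eq (M : Matrix κ κ ℝ) (ζ : κ → ℝ) :
    star ζ ⬝ᵥ M *ᵥ ζ = ∑ i, ∑ j, ζ i * ζ j * M i j := by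
  simp only [star_trivial, dotProduct, mulVec, Finset.mul_sum]
  refine Finset.sum_congr rfl fun i _ => Finset.sum_congr rfl fun j _ => by ring

theorem form_smul (M : Matrix κ κ ℝ) (c : ℝ) (ζ : κ → ℝ) :
    ∑ i, ∑ j, (c • ζ) i * (c • ζ) j * M i j = c ^ 2 * ∑ i, ∑ j, ζ i * ζ j * M i j := by
  simp only [Finset.mul_sum, Pi.smul_apply, smul_eq_mul]
  refine Finset.sum_congr rfl fun i _ => Finset.sum_congr rfl fun j _ => by ring

theorem herm {M : Matrix κ κ ℝ} (hM : M.IsSymm) : M.IsHermitian := by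
  rw [Matrix.IsHermitian, conjTranspose_eq_transpose_of_trivial]
  exact hM

/-- A path of invertible symmetric matrices starting at a definite one stays definite. -/
theorem path (N : ℝ → Matrix κ κ ℝ) (hc : ∀ i j, Continuous fun s => N s i j)
    (hs : ∀ s, (N s).IsSymm) (h0 : ∀ ζ : κ → ℝ, ζ ≠ 0 → 0 < ∑ i, ∑ j, ζ i * ζ j * N 0 i j)
    (hd : ∀ s, 0 < s → (N s).det ≠ 0) {s₀ : ℝ} (hs₀ : 0 < s₀) (ζ : κ → ℝ) (hζ : ζ ≠ 0) :
    0 < ∑ i, ∑ j, ζ i * ζ j * N s₀ i j := by
  by_contra hneg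
  push Not at hneg
  have hF : Continuous fun w : ℝ × (κ → ℝ) => ∑ i, ∑ j, w.2 i * w.2 j * N w.1 i j := by
    refine continuous_finsetSum _ fun i _ => continuous_finsetSum _ fun j _ => ?_
    exact (((continuous_apply i).comp continuous_snd).mul
      ((continuous_apply j).comp continuous_snd)).mul ((hc i j).comp continuous_fst)
  set K : Set (ℝ × (κ → ℝ)) := (Set.Icc 0 s₀ ×ˢ Metric.sphere 0 1) ∩
    {w | ∑ i, ∑ j, w.2 i * w.2 j * N w.1 i j ≤ 0} with hK
  have hKc : IsCompact K :=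
    (isCompact_Icc.prod (isCompact_sphere 0 1)).inter_right (isClosed_le hF continuous_const)
  have hnorm : ∀ z : κ → ℝ, z ≠ 0 → ‖z‖⁻¹ • z ∈ Metric.sphere (0 : κ → ℝ) 1 := by
    intro z hz
    rw [mem_sphere_zero_iff_norm, norm_smul, norm_inv, norm_norm,
      inv_mul_cancel₀ (norm_ne_zero_iff.2 hz)]
  have hKn : K.Nonempty := by
    refine ⟨(s₀, ‖ζ‖⁻¹ • ζ), ⟨⟨hs₀.le, le_rfl⟩, hnorm ζ hζ⟩, ?_⟩
    show ∑ i, ∑ j, (‖ζ‖⁻¹ • ζ) i * (‖ζ‖⁻¹ • ζ) j * N s₀ i j ≤ 0
    rw [form_smul]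
    exact mul_nonpos_of_nonneg_of_nonpos (sq_nonneg _) hneg
  obtain ⟨⟨t, z⟩, ⟨⟨ht, hz⟩, hle⟩, hmin⟩ := hKc.exists_isMinOn hKn continuous_fst.continuousOn
  have hz0 : z ≠ 0 := by
    rintro rfl
    simp at hz
  have hle' : ∑ i, ∑ j, z i * z j * N t i j ≤ 0 := hle
  have ht0 : 0 < t := by
    rcases ht.1.eq_or_lt with h | h
    · exfalso
      have h' : t = 0 := h.symm
      rw [h'] at hle'
      exact absurd (h0 z hz0) (not_lt.2 hle')
    · exact h
  have hbefore : ∀ s ∈ Set.Ico 0 t, ∀ w : κ → ℝ, 0 ≤ ∑ i, ∑ j, w i * w j * N s i j := by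
    intro s hs' w
    by_cases hw : w = 0
    · simp [hw]
    by_contra hlt
    push Not at hlt
    have hmem : (s, ‖w‖⁻¹ • w) ∈ K := by
      refine ⟨⟨⟨hs'.1, hs'.2.le.trans ht.2⟩, hnorm w hw⟩, ?_⟩
      show ∑ i, ∑ j, (‖w‖⁻¹ • w) i * (‖w‖⁻¹ • w) j * N s i j ≤ 0
      rw [form_smul]
      exact mul_nonpos_of_nonneg_of_nonpos (sq_nonneg _) hlt.le
    have := hmin hmem
    exact absurd hs'.2 (not_lt.2 this)
  have hpsd : ∀ w : κ → ℝ, 0 ≤ ∑ i, ∑ j, w i * w j * N t i j := by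
    intro w
    have hcl : IsClosed {s : ℝ | 0 ≤ ∑ i, ∑ j, w i * w j * N s i j} :=
      isClosed_le continuous_const (hF.comp (continuous_id.prodMk continuous_const))
    have hsub : closure (Set.Ico 0 t) ⊆ {s : ℝ | 0 ≤ ∑ i, ∑ j, w i * w j * N s i j} :=
      hcl.closure_subset_iff.2 fun s hs' => hbefore s hs' w
    rw [closure_Ico ht0.ne] at hsub
    exact hsub ⟨ht0.le, le_rfl⟩
  have hP : (N t).PosSemidef :=
    PosSemidef.of_dotProduct_mulVec_nonneg (herm (hs t)) fun w => by rw [form_eq]; exact hpsd w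
  have hz1 : N t *ᵥ z = 0 := by
    rw [← hP.dotProduct_mulVec_zero_iff, form_eq]
    exact le_antisymm hle' (hpsd z)
  exact hd t ht0 (Matrix.exists_mulVec_eq_zero_iff.1 ⟨z, hz0, hz1⟩)

end GenAux

open Crest.GeometryTopology in
theorem transfer [Fintype σ] {p : MvPolynomial σ ℝ} {e : σ → ℝ} (h : Hyp p e)
    (hS : ¬ Shadow (Cone p e)) : ∃ (m : ℕ) (p' : MvPolynomial (Fin m) ℝ) (e' : Fin m → ℝ),
      Hyperbolic.IsHyperbolic p' e' ∧
        ¬ Hyperbolic.IsSpectrahedralShadow (Hyperbolic.closedCone p' e') := by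
  set q := Fintype.equivFin σ with hq
  obtain ⟨⟨d, hd⟩, hpos, hroot⟩ := h
  refine ⟨Fintype.card σ, rename q p, fun i => e (q.symm i), ⟨⟨d, hd.rename_isHomogeneous⟩, ?_, ?_⟩,
    ?_⟩
  · rw [eval_rename]
    simpa [Function.comp_def] using hpos
  · intro x z hz
    unfold Hyperbolic.lineEvalC at hz
    rw [aeval_rename] at hz
    refine hroot (fun i => x (q i)) z ?_
    simpa [Function.comp_def] using hz
  · rintro ⟨k, a, A₀, A, B, h₀, hA, hB, hEq⟩
    refine hS ⟨k, a, A₀, fun i => A (q i), B, h₀, fun i => hA _, hB, ?_⟩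
    ext x
    have h1 : x ∈ Cone p e ↔
        (fun i => x (q.symm i)) ∈ Hyperbolic.closedCone (rename q p) fun i => e (q.symm i) := by
      simp only [Cone, Hyperbolic.closedCone, Set.mem_ofPred_eq, eval_rename, Function.comp_def,
        Equiv.symm_apply_apply]
    rw [h1, hEq]
    simp only [Set.mem_ofPred_eq]
    have h2 : ∑ i, x (q.symm i) • A i = ∑ i, x i • A (q i) := by
      rw [← q.sum_comp]
      simp only [Equiv.symm_apply_apply]
    rw [h2]

theorem mem_cone_iff {p : MvPolynomial σ ℝ} {d : ℕ} (hp : p.IsHomogeneous d) (e x : σ → ℝ) :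
    x ∈ Cone p e ↔ ∀ δ : ℝ, 0 < δ → eval (fun i => x i + δ * e i) p ≠ 0 := by
  have key : ∀ t : ℝ, eval (fun i => t * e i - x i) p =
      (-1) ^ d * eval (fun i => x i + (-t) * e i) p := by
    intro t
    rw [← GenAux.eval_smul' hp]
    congr 2
    funext i
    ring
  constructor
  · intro hx δ hδ h0
    have := hx (-δ) (by rw [key, neg_neg, h0, mul_zero])
    linarith
  · intro hx t ht
    by_contra hlt
    push Not at hlt
    rw [key] at ht
    rcases mul_eq_zero.1 ht with h | h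
    · exact absurd h (pow_ne_zero _ (by norm_num))
    · exact hx (-t) (by linarith) h

theorem pos_of_ray [Fintype σ] {q : MvPolynomial σ ℝ} {d : ℕ} (hq : q.IsHomogeneous d)
    {e x : σ → ℝ} (he : 0 < eval e q) (h : ∀ δ : ℝ, 0 < δ → eval (fun i => x i + δ * e i) q ≠ 0)
    {δ : ℝ} (hδ : 0 < δ) : 0 < eval (fun i => x i + δ * e i) q := by
  rw [GenAux.eval_ray hq e x hδ]
  refine mul_pos (pow_pos hδ _) ?_
  by_contra hneg
  push Not at hneg
  have hc := GenAux.continuous_ray q e x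
  have hδ' : (0 : ℝ) < δ⁻¹ := inv_pos.2 hδ
  obtain ⟨s, hs, hs0⟩ := intermediate_value_Icc' hδ'.le hc.continuousOn
    (show (0 : ℝ) ∈ Set.Icc _ _ from ⟨hneg, by simpa using he.le⟩)
  rcases hs.1.eq_or_lt with h' | h'
  · rw [← h'] at hs0
    simp only [zero_mul, add_zero] at hs0
    exact absurd hs0 he.ne'
  · have := h s⁻¹ (inv_pos.2 h')
    rw [GenAux.eval_ray hq e x (inv_pos.2 h'), inv_inv] at this
    exact this (by rw [show eval (fun i => e i + s * x i) q = 0 from hs0, mul_zero])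

theorem hyp_of_upper {p : MvPolynomial σ ℝ} {d : ℕ} (hp : p.IsHomogeneous d) {e : σ → ℝ}
    (he : 0 < eval e p) (h : ∀ (x : σ → ℝ) (z : ℂ), 0 < z.im →
      aeval (fun i => (x i : ℂ) + z * (e i : ℂ)) p ≠ 0) : Hyp p e := by
  refine ⟨⟨d, hp⟩, he, fun x z hz => ?_⟩
  rcases lt_trichotomy z.im 0 with hlt | heq | hgt
  · exfalso
    refine h x (-z) (by simpa using hlt) ?_
    have := GenAux.aeval_smul hp (-1 : ℂ) fun i => z * (e i : ℂ) - (x i : ℂ)
    rw [hz, mul_zero] at this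
    rw [← this]
    congr 2
    funext i
    ring
  · exact heq
  · exfalso
    refine h (fun i => -x i) z hgt ?_
    rw [← hz]
    congr 2
    funext i
    push_cast
    ring

variable {κ : Type} [Fintype κ] [DecidableEq κ]

theorem det_ne_zero_of_im {M : Matrix κ κ ℂ} (hM : M.IsSymm) (D : ℂ)
    (h : ∀ ζ : κ → ℝ, ζ ≠ 0 → 0 < ((∑ i, ∑ j, (ζ i : ℂ) * ζ j * M i j) / D).im) : M.det ≠ 0 := by
  intro h0
  obtain ⟨w, hw, hMw⟩ := Matrix.exists_mulVec_eq_zero_iff.2 h0
  have hge : ∀ ζ : κ → ℝ, 0 ≤ ((∑ i, ∑ j, (ζ i : ℂ) * ζ j * M i j) / D).im := by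
    intro ζ
    by_cases hζ : ζ = 0
    · simp [hζ]
    · exact (h ζ hζ).le
  have hsym : ∀ i j, M j i = M i j := fun i j => hM.apply i j
  have hcross : ∑ i, ∑ j, ((w i).re : ℂ) * (w j).im * M i j =
      ∑ i, ∑ j, ((w i).im : ℂ) * (w j).re * M i j := by
    rw [Finset.sum_comm]
    refine Finset.sum_congr rfl fun i _ => Finset.sum_congr rfl fun j _ => ?_
    rw [hsym]
    ring
  have hsum : (∑ i, ∑ j, ((w i).re : ℂ) * (w j).re * M i j) +
      ∑ i, ∑ j, ((w i).im : ℂ) * (w j).im * M i j = 0 := by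
    have h1 : ∑ i, (starRingEnd ℂ) (w i) * (M *ᵥ w) i = 0 := by simp [hMw]
    have h2 : ∑ i, (starRingEnd ℂ) (w i) * (M *ᵥ w) i =
        (∑ i, ∑ j, ((w i).re : ℂ) * (w j).re * M i j) +
          ∑ i, ∑ j, ((w i).im : ℂ) * (w j).im * M i j +
          Complex.I * (∑ i, ∑ j, ((w i).re : ℂ) * (w j).im * M i j -
            ∑ i, ∑ j, ((w i).im : ℂ) * (w j).re * M i j) := by
      simp only [mulVec, dotProduct, Finset.mul_sum, ← Finset.sum_add_distrib,
        ← Finset.sum_sub_distrib]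
      refine Finset.sum_congr rfl fun i _ => Finset.sum_congr rfl fun j _ => ?_
      have a1 : (starRingEnd ℂ) (w i) = (w i).re - (w i).im * Complex.I := by
        apply Complex.ext <;> simp
      have a2 : w j = (w j).re + (w j).im * Complex.I := (Complex.re_add_im _).symm
      rw [a1]
      generalize ((w i).re : ℂ) = a
      generalize ((w i).im : ℂ) = b
      nth_rewrite 1 [a2]
      generalize ((w j).re : ℂ) = c
      generalize ((w j).im : ℂ) = d
      linear_combination (-(b * d * M i j)) * Complex.I_sq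
    rw [h2, hcross, sub_self, mul_zero, add_zero] at h1
    exact h1
  have him : ((∑ i, ∑ j, ((w i).re : ℂ) * (w j).re * M i j) / D).im +
      ((∑ i, ∑ j, ((w i).im : ℂ) * (w j).im * M i j) / D).im = 0 := by
    rw [← Complex.add_im, ← add_div, hsum]
    simp
  have hre := hge fun i => (w i).re
  have hi := hge fun i => (w i).im
  by_cases hu : (fun i => (w i).re) = 0
  · have hv : (fun i => (w i).im) ≠ 0 := by
      intro hv
      apply hw
      funext i
      exact Complex.ext (congrFun hu i) (congrFun hv i)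
    have := h _ hv
    linarith
  · have := h _ hu
    linarith

theorem det_pos_of_form {M : Matrix κ κ ℝ} (hM : M.IsSymm)
    (h : ∀ ζ : κ → ℝ, ζ ≠ 0 → 0 < ∑ i, ∑ j, ζ i * ζ j * M i j) : 0 < M.det :=
  (PosDef.of_dotProduct_mulVec_pos (GenAux.herm hM) fun w hw => by
    rw [GenAux.form_eq]; exact h w hw).det_pos

theorem isHomogeneous_det {M : Matrix κ κ (MvPolynomial σ ℝ)} {d : ℕ}
    (hh : ∀ i j, (M i j).IsHomogeneous d) : M.det.IsHomogeneous (Fintype.card κ * d) := by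
  rw [Matrix.det_apply']
  refine IsHomogeneous.sum _ _ _ fun τ _ => ?_
  have h1 := IsHomogeneous.prod Finset.univ (fun i => M (τ i) i) (fun _ => d) fun i _ => hh _ _
  simp only [Finset.sum_const, Finset.card_univ, smul_eq_mul] at h1
  have h2 : ((((Equiv.Perm.sign τ : ℤˣ) : ℤ) : MvPolynomial σ ℝ)) =
      C (((Equiv.Perm.sign τ : ℤˣ) : ℤ) : ℝ) := by simp
  rw [h2]
  exact h1.C_mul _

theorem posdef_of_ray [Fintype σ] {M : Matrix κ κ (MvPolynomial σ ℝ)} (hs : M.IsSymm) {d : ℕ}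
    (hh : ∀ i j, (M i j).IsHomogeneous d) {e x : σ → ℝ}
    (he : ∀ ζ : κ → ℝ, ζ ≠ 0 → 0 < ∑ i, ∑ j, ζ i * ζ j * eval e (M i j))
    (h : ∀ δ : ℝ, 0 < δ → eval (fun i => x i + δ * e i) M.det ≠ 0) {δ : ℝ} (hδ : 0 < δ)
    (ζ : κ → ℝ) (hζ : ζ ≠ 0) :
    0 < ∑ i, ∑ j, ζ i * ζ j * eval (fun v => x v + δ * e v) (M i j) := by
  have hdet := isHomogeneous_det hh
  have key := GenAux.path (fun s => M.map (eval fun v => e v + s * x v))
    (fun i j => GenAux.continuous_ray (M i j) e x) (fun s => hs.map _)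
    (fun w hw => by simpa using he w hw) (fun s hs' => by
      have := h s⁻¹ (inv_pos.2 hs')
      rw [GenAux.eval_ray hdet e x (inv_pos.2 hs'), inv_inv, RingHom.map_det] at this
      exact right_ne_zero_of_mul this) (inv_pos.2 hδ) ζ hζ
  have h2 : ∑ i, ∑ j, ζ i * ζ j * eval (fun v => x v + δ * e v) (M i j) =
      δ ^ d * ∑ i, ∑ j, ζ i * ζ j * eval (fun v => e v + δ⁻¹ * x v) (M i j) := by
    simp only [Finset.mul_sum]
    refine Finset.sum_congr rfl fun i _ => Finset.sum_congr rfl fun j _ => ?_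
    rw [GenAux.eval_ray (hh i j) e x hδ]
    ring
  rw [h2]
  exact mul_pos (pow_pos hδ _) key


end Crest.Agent.R237
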