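import Crest.Agent.R237.Defs

/-!
# Row 237: the matrix of the quadratic form `Eh`
-/

set_option autoImplicit false
set_option linter.unusedSectionVars false

noncomputable section

namespace Crest.Agent.R237

open MvPolynomial Matrix

variable {ι : Type} [Fintype ι] [DecidableEq ι] {R S : Type} [CommRing R] [Algebra ℝ R]
  [CommRing S] [Algebra ℝ S]

namespace MatAux

theorem map_dot (φ : R →ₐ[ℝ] S) (u v : ι → R) :
    φ (u ⬝ᵥ v) = (fun i => φ (u i)) ⬝ᵥ fun i => φ (v i) := by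
  simp [dotProduct, map_sum]

theorem map_c3 (φ : R →ₐ[ℝ] S) (C : ι → ι → ι → ℝ) (u v w : ι → R) :
    φ (c3 C u v w) = c3 C (fun i => φ (u i)) (fun i => φ (v i)) fun i => φ (w i) := by
  simp [c3, map_sum]

section hom

variable {σ : Type}

theorem hnum (n : ℕ) [n.AtLeastTwo] : (OfNat.ofNat n : MvPolynomial σ ℝ).IsHomogeneous 0 :=
  isHomogeneous_C σ (OfNat.ofNat n : ℝ)

theorem halg (c : ℝ) : (algebraMap ℝ (MvPolynomial σ ℝ) c).IsHomogeneous 0 := isHomogeneous_C σ c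

theorem hdot {u v : ι → MvPolynomial σ ℝ} {a b : ℕ} (hu : ∀ i, (u i).IsHomogeneous a)
    (hv : ∀ i, (v i).IsHomogeneous b) : (u ⬝ᵥ v).IsHomogeneous (a + b) :=
  IsHomogeneous.sum _ _ _ fun i _ => (hu i).mul (hv i)

theorem hc3 (C : ι → ι → ι → ℝ) {u v w : ι → MvPolynomial σ ℝ} {a b c : ℕ}
    (hu : ∀ i, (u i).IsHomogeneous a) (hv : ∀ i, (v i).IsHomogeneous b)
    (hw : ∀ i, (w i).IsHomogeneous c) : (c3 C u v w).IsHomogeneous (0 + (a + b + c)) :=
  IsHomogeneous.sum _ _ _ fun i _ => IsHomogeneous.sum _ _ _ fun j _ =>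
    IsHomogeneous.sum _ _ _ fun k _ => (halg _).mul (((hu i).mul (hv j)).mul (hw k))

theorem hle {p : MvPolynomial σ ℝ} {n : ℕ} (h : p.IsHomogeneous n) (hn : n ≤ 4) :
    p.totalDegree ≤ 4 := h.totalDegree_le.trans hn

variable {κ : Type} [Fintype κ]

/-- Linear forms with homogeneous coefficients. -/
def IsL (n : ℕ) (f : (κ → MvPolynomial σ ℝ) → MvPolynomial σ ℝ) : Prop :=
  ∃ a : κ → MvPolynomial σ ℝ, (∀ i, (a i).IsHomogeneous n) ∧ ∀ ζ, f ζ = ∑ i, ζ i * a i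

/-- Quadratic forms with homogeneous coefficients. -/
def IsQ (n : ℕ) (f : (κ → MvPolynomial σ ℝ) → MvPolynomial σ ℝ) : Prop :=
  ∃ a : κ → κ → MvPolynomial σ ℝ, (∀ i j, (a i j).IsHomogeneous n) ∧
    ∀ ζ, f ζ = ∑ i, ∑ j, ζ i * ζ j * a i j

variable {n n' : ℕ} {f g : (κ → MvPolynomial σ ℝ) → MvPolynomial σ ℝ} {c : MvPolynomial σ ℝ}

theorem IsL.coord (k : κ) : IsL 0 fun ζ : κ → MvPolynomial σ ℝ => ζ k := by
  classical
  refine ⟨fun i => if i = k then 1 else 0, fun i => ?_, fun ζ => by simp⟩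
  by_cases h : i = k
  · simpa [h] using isHomogeneous_one σ ℝ
  · simpa [h] using isHomogeneous_zero σ ℝ 0

theorem IsL.sub (h : IsL n f) (h' : IsL n g) : IsL n fun ζ => f ζ - g ζ := by
  obtain ⟨a, ha, e⟩ := h
  obtain ⟨b, hb, e'⟩ := h'
  exact ⟨fun i => a i - b i, fun i => (ha i).sub (hb i), fun ζ => by
    simp only [e, e', mul_sub, Finset.sum_sub_distrib]⟩

theorem IsL.mulc (h : IsL n f) (hc : c.IsHomogeneous n') : IsL (n + n') fun ζ => f ζ * c := by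
  obtain ⟨a, ha, e⟩ := h
  exact ⟨fun i => a i * c, fun i => (ha i).mul hc, fun ζ => by
    simp only [e, Finset.sum_mul, mul_assoc]⟩

theorem IsL.cmul (h : IsL n f) (hc : c.IsHomogeneous n') : IsL (n' + n) fun ζ => c * f ζ := by
  simpa only [mul_comm, add_comm] using h.mulc hc

theorem IsL.sum {α : Type} [Fintype α] {F : α → (κ → MvPolynomial σ ℝ) → MvPolynomial σ ℝ}
    (h : ∀ x, IsL n (F x)) : IsL n fun ζ => ∑ x, F x ζ := by
  choose a ha e using h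
  exact ⟨fun i => ∑ x, a x i, fun i => IsHomogeneous.sum _ _ _ fun x _ => ha x i, fun ζ => by
    simp only [e, Finset.mul_sum]
    exact Finset.sum_comm⟩

theorem IsL.mul (h : IsL n f) (h' : IsL n' g) : IsQ (n + n') fun ζ => f ζ * g ζ := by
  obtain ⟨a, ha, e⟩ := h
  obtain ⟨b, hb, e'⟩ := h'
  refine ⟨fun i j => a i * b j, fun i j => (ha i).mul (hb j), fun ζ => ?_⟩
  simp only [e, e', Finset.sum_mul_sum]
  exact Finset.sum_congr rfl fun i _ => Finset.sum_congr rfl fun j _ => by ring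

theorem IsL.sq (h : IsL n f) : IsQ (n + n) fun ζ => f ζ ^ 2 := by
  simpa only [_root_.sq] using h.mul h

theorem IsQ.add (h : IsQ n f) (h' : IsQ n g) : IsQ n fun ζ => f ζ + g ζ := by
  obtain ⟨a, ha, e⟩ := h
  obtain ⟨b, hb, e'⟩ := h'
  exact ⟨fun i j => a i j + b i j, fun i j => (ha i j).add (hb i j), fun ζ => by
    simp only [e, e', mul_add, Finset.sum_add_distrib]⟩

theorem IsQ.sub (h : IsQ n f) (h' : IsQ n g) : IsQ n fun ζ => f ζ - g ζ := by
  obtain ⟨a, ha, e⟩ := h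
  obtain ⟨b, hb, e'⟩ := h'
  exact ⟨fun i j => a i j - b i j, fun i j => (ha i j).sub (hb i j), fun ζ => by
    simp only [e, e', mul_sub, Finset.sum_sub_distrib]⟩

theorem IsQ.mulc (h : IsQ n f) (hc : c.IsHomogeneous n') : IsQ (n + n') fun ζ => f ζ * c := by
  obtain ⟨a, ha, e⟩ := h
  exact ⟨fun i j => a i j * c, fun i j => (ha i j).mul hc, fun ζ => by
    simp only [e, Finset.sum_mul, mul_assoc]⟩

theorem IsQ.cmul (h : IsQ n f) (hc : c.IsHomogeneous n') : IsQ (n' + n) fun ζ => c * f ζ := by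
  simpa only [mul_comm, add_comm] using h.mulc hc

theorem IsQ.sum {α : Type} [Fintype α] {F : α → (κ → MvPolynomial σ ℝ) → MvPolynomial σ ℝ}
    (h : ∀ x, IsQ n (F x)) : IsQ n fun ζ => ∑ x, F x ζ := by
  choose a ha e using h
  refine ⟨fun i j => ∑ x, a x i j, fun i j => IsHomogeneous.sum _ _ _ fun x _ => ha x i j,
    fun ζ => ?_⟩
  simp only [e, Finset.mul_sum]
  rw [Finset.sum_comm]
  exact Finset.sum_congr rfl fun i _ => Finset.sum_comm

theorem IsL.dotc {u : (κ → MvPolynomial σ ℝ) → ι → MvPolynomial σ ℝ} {v : ι → MvPolynomial σ ℝ}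
    (hu : ∀ i, IsL n fun ζ => u ζ i) (hv : ∀ i, (v i).IsHomogeneous n') :
    IsL (n + n') fun ζ => u ζ ⬝ᵥ v := IsL.sum fun i => (hu i).mulc (hv i)

theorem IsL.dot {u : (κ → MvPolynomial σ ℝ) → ι → MvPolynomial σ ℝ}
    (hu : ∀ i, IsL n fun ζ => u ζ i) : IsQ (n + n) fun ζ => u ζ ⬝ᵥ u ζ :=
  IsQ.sum fun i => (hu i).mul (hu i)

theorem IsL.qf {u : (κ → MvPolynomial σ ℝ) → ι → MvPolynomial σ ℝ}
    {M : ι → ι → MvPolynomial σ ℝ} (hu : ∀ i, IsL n fun ζ => u ζ i)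
    (hM : ∀ i j, (M i j).IsHomogeneous n') : IsQ (n + n' + n) fun ζ => qf (u ζ) M (u ζ) :=
  IsQ.sum fun i => IsQ.sum fun j => ((hu i).mulc (hM i j)).mul (hu j)

theorem IsL.cM (C : ι → ι → ι → ℝ) {u : (κ → MvPolynomial σ ℝ) → ι → MvPolynomial σ ℝ}
    {M : ι → ι → MvPolynomial σ ℝ} (hu : ∀ i, IsL n fun ζ => u ζ i)
    (hM : ∀ i j, (M i j).IsHomogeneous n') : IsL (0 + (n + n')) fun ζ => cM C (u ζ) M :=
  IsL.sum fun i => IsL.sum fun j => IsL.sum fun k => ((hu i).mulc (hM j k)).cmul (halg _)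

theorem IsL.c3 (C : ι → ι → ι → ℝ) {u : (κ → MvPolynomial σ ℝ) → ι → MvPolynomial σ ℝ}
    {v : ι → MvPolynomial σ ℝ} (hu : ∀ i, IsL n fun ζ => u ζ i)
    (hv : ∀ i, (v i).IsHomogeneous n') : IsL (0 + (n + n' + n')) fun ζ => c3 C (u ζ) v v :=
  IsL.sum fun i => IsL.sum fun j => IsL.sum fun k =>
    (((hu i).mulc (hv j)).mulc (hv k)).cmul (halg _)

end hom

local notation "P" => MvPolynomial (Var ι) ℝ

theorem hm0 : (m0 (X : Var ι → P)).IsHomogeneous 1 := isHomogeneous_X ℝ _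
theorem hsv : (sv (X : Var ι → P)).IsHomogeneous 1 := isHomogeneous_X ℝ _
theorem hyv : (yv (X : Var ι → P)).IsHomogeneous 1 := isHomogeneous_X ℝ _
theorem hm1 (i : ι) : (m1 (X : Var ι → P) i).IsHomogeneous 1 := isHomogeneous_X ℝ _
theorem htv (i : ι) : (tv (X : Var ι → P) i).IsHomogeneous 1 := isHomogeneous_X ℝ _
theorem hm2 (i j : ι) : (m2 (X : Var ι → P) i j).IsHomogeneous 1 :=
  (isHomogeneous_X ℝ _).add (isHomogeneous_X ℝ _)
theorem hm2t : (∑ i, m2 (X : Var ι → P) i i).IsHomogeneous 1 :=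
  IsHomogeneous.sum _ _ _ fun i _ => hm2 i i
theorem hHm (i j : ι) : (Hm (X : Var ι → P) i j).IsHomogeneous 2 :=
  (hm0.mul (hm2 i j)).sub ((hm1 i).mul (hm1 j))
theorem hTr : (Tr (X : Var ι → P)).IsHomogeneous 2 := IsHomogeneous.sum _ _ _ fun i _ => hHm i i
theorem hH2 : (H2 (X : Var ι → P)).IsHomogeneous 4 :=
  IsHomogeneous.sum _ _ _ fun i _ => IsHomogeneous.sum _ _ _ fun j _ => (hHm i j).mul (hHm i j)
theorem hHH (i j : ι) : (HH (X : Var ι → P) i j).IsHomogeneous 4 :=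
  IsHomogeneous.sum _ _ _ fun k _ => (hHm i k).mul (hHm k j)
theorem hmm : (m1 (X : Var ι → P) ⬝ᵥ m1 X).IsHomogeneous 2 := hdot hm1 hm1

theorem lsg : IsL 0 (sg : (Idx ι → P) → P) := IsL.coord _
theorem llm : IsL 0 (lm : (Idx ι → P) → P) := IsL.coord _
theorem lbv (i : ι) : IsL 0 fun ζ : Idx ι → P => bv ζ i := IsL.coord _
theorem lVv (i : ι) : IsL 1 fun ζ : Idx ι → P => Vv X ζ i :=
  (lsg.mulc (hm1 i)).sub ((lbv i).mulc hm0)

theorem qLF (C : ι → ι → ι → ℝ) : IsQ 1 (LF C (X : Var ι → P)) :=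
  ((((((lsg.sq.cmul (hnum 30)).mulc hyv).sub ((lsg.cmul (hnum 120)).mul (IsL.dotc lbv htv))).add
    ((((((IsL.dot lbv).cmul (hnum 2)).mulc hm2t).add ((IsL.qf lbv hm2).cmul (hnum 4))).cmul
      (hnum 30)))).sub (((lsg.cmul (hnum 2)).mul llm).mulc hsv)).add
    ((llm.cmul (hnum 6)).mul (IsL.cM C lbv hm2))).add ((llm.sq.cmul (hnum 6)).mulc hm2t)

theorem qFH (C : ι → ι → ι → ℝ) : IsQ 4 (FH C (X : Var ι → P)) :=
  ((((((lsg.sq.cmul (hnum 30)).mulc (hmm.pow 2)).sub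
    (((lsg.cmul ((hnum 120).mul hm0)).mul (IsL.dotc lbv hm1)).mulc hmm)).add
    (((((IsL.dot lbv).cmul (hnum 2)).mulc hmm).add ((IsL.dotc lbv hm1).sq.cmul (hnum 4))).cmul
      ((hnum 30).mul (hm0.pow 2)))).sub
    (((lsg.cmul ((hnum 2).mul hm0)).mul llm).mulc (hc3 C hm1 hm1 hm1))).add
    ((llm.cmul ((hnum 6).mul (hm0.pow 2))).mul (IsL.c3 C lbv hm1))).add
    ((llm.sq.cmul ((hnum 6).mul (hm0.pow 2))).mulc hmm)

theorem qBr (C : ι → ι → ι → ℝ) : IsQ 6 (Br C (X : Var ι → P)) :=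
  ((((IsL.dot lVv).cmul (hnum 4)).mulc hH2).sub
    ((llm.cmul ((hnum 2).mul hm0)).mul (IsL.cM C lVv hHH))).add
    ((llm.sq.cmul (hm0.pow 2)).mulc hH2)

theorem qEh (C : ι → ι → ι → ℝ) : IsQ 6 (Eh C (X : Var ι → P)) :=
  ((((qLF C).cmul ((hm0.pow 3).mul hTr)).sub ((qFH C).cmul hTr)).sub
    ((((lsg.sq.mulc (((hnum 24).mul (hTr.pow 2)).add ((hnum 6).mul hH2))).add
      (((IsL.dot lVv).cmul (hnum 52)).mulc hTr)).add
      ((IsL.qf lVv hHm).cmul (hnum 4))).cmul hTr)).sub (qBr C)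

theorem exists_coef (C : ι → ι → ι → ℝ) : ∃ a : Idx ι → Idx ι → P,
    (∀ i j, (a i j).IsHomogeneous 6) ∧ ∀ ζ, Eh C X ζ = ∑ i, ∑ j, ζ i * ζ j * a i j := qEh C

end MatAux

theorem map_Tr (φ : R →ₐ[ℝ] S) (L : Var ι → R) : φ (Tr L) = Tr fun v => φ (L v) := by
  simp only [Tr, Hm, m0, m1, m2, map_sum, map_sub, map_mul, map_add]

theorem map_Eh (φ : R →ₐ[ℝ] S) (C : ι → ι → ι → ℝ) (L : Var ι → R) (ζ : Idx ι → R) :
    φ (Eh C L ζ) = Eh C (fun v => φ (L v)) fun i => φ (ζ i) := by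
  simp only [Eh, LF, FH, Br, Tr, H2, HH, Hm, Vv, qf, cM, c3, m0, m1, m2, sv, yv, tv, sg, lm, bv,
    dotProduct, map_sum, map_sub, map_mul, map_add, map_pow, map_ofNat, AlgHom.commutes]

theorem map_dirac (φ : R →ₐ[ℝ] S) (C : ι → ι → ι → ℝ) (x : ι → R) (v : Var ι) :
    φ (dirac C x v) = dirac C (fun i => φ (x i)) v := by
  rcases v with v | v | v | v
  · fin_cases v
    · exact map_one φ
    · exact MatAux.map_c3 φ C x x x
    · show φ ((x ⬝ᵥ x) ^ 2) = _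
      rw [map_pow, MatAux.map_dot]
      rfl
  · rfl
  · show φ ((x ⬝ᵥ x) * x v) = _
    rw [map_mul, MatAux.map_dot]
    rfl
  · show φ (algebraMap ℝ R (1 / 2) * (x v.1 * x v.2)) = _
    rw [map_mul, map_mul, AlgHom.commutes]
    rfl

theorem map_fpol (φ : R →ₐ[ℝ] S) (C : ι → ι → ι → ℝ) (x : ι → R) (lam : R) :
    φ (fpol C x lam) = fpol C (fun i => φ (x i)) (φ lam) := by
  simp only [fpol, map_sub, map_mul, map_add, map_pow, map_ofNat, MatAux.map_dot, MatAux.map_c3]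

theorem isHomogeneous_Tr :
    (Tr (X : Var ι → MvPolynomial (Var ι) ℝ)).IsHomogeneous 2 := MatAux.hTr

theorem totalDegree_dirac (C : ι → ι → ι → ℝ) (v : Var ι) :
    (dirac C (X : ι → MvPolynomial ι ℝ) v).totalDegree ≤ 4 := by
  have hX : ∀ i : ι, (X i : MvPolynomial ι ℝ).IsHomogeneous 1 := isHomogeneous_X ℝ
  rcases v with v | v | v | v
  · fin_cases v
    · exact MatAux.hle (isHomogeneous_one ι ℝ) (by norm_num)
    · exact MatAux.hle (MatAux.hc3 C hX hX hX) (by norm_num)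
    · exact MatAux.hle ((MatAux.hdot hX hX).pow 2) (by norm_num)
  · exact MatAux.hle (hX v) (by norm_num)
  · exact MatAux.hle ((MatAux.hdot hX hX).mul (hX v)) (by norm_num)
  · exact MatAux.hle ((MatAux.halg (1 / 2)).mul ((hX v.1).mul (hX v.2))) (by norm_num)

theorem totalDegree_fpol (C : ι → ι → ι → ℝ) :
    (fpol C (X : ι → MvPolynomial ι ℝ) 1).totalDegree ≤ 4 := by
  have hX : ∀ i : ι, (X i : MvPolynomial ι ℝ).IsHomogeneous 1 := isHomogeneous_X ℝ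
  have h1 := isHomogeneous_one ι ℝ
  refine (totalDegree_add _ _).trans (max_le ((totalDegree_sub _ _).trans (max_le ?_ ?_)) ?_)
  · exact MatAux.hle ((MatAux.hnum 30).mul ((MatAux.hdot hX hX).pow 2)) (by norm_num)
  · exact MatAux.hle (((MatAux.hnum 2).mul h1).mul (MatAux.hc3 C hX hX hX)) (by norm_num)
  · exact MatAux.hle (((MatAux.hnum 6).mul (h1.pow 2)).mul (MatAux.hdot hX hX)) (by norm_num)

theorem exists_mat (C : ι → ι → ι → ℝ) :
    ∃ M : Matrix (Idx ι) (Idx ι) (MvPolynomial (Var ι) ℝ), M.IsSymm ∧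
      (∀ i j, (M i j).IsHomogeneous 6) ∧
      (∀ (L : Var ι → ℝ) (ζ : Idx ι → ℝ), ∑ i, ∑ j, ζ i * ζ j * eval L (M i j) = Eh C L ζ) ∧
      ∀ (L : Var ι → ℂ) (ζ : Idx ι → ℝ),
        ∑ i, ∑ j, (ζ i : ℂ) * ζ j * aeval L (M i j) = Eh C L fun i => (ζ i : ℂ) := by
  obtain ⟨a, ha, e⟩ := MatAux.exists_coef C
  have key : ∀ {S : Type} [CommRing S] [Algebra ℝ S] (L : Var ι → S) (ζ : Idx ι → ℝ),
      ∑ i, ∑ j, algebraMap ℝ S (ζ i) * algebraMap ℝ S (ζ j) *
        aeval L (MvPolynomial.C (1 / 2 : ℝ) * (a i j + a j i))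
        = Eh C L fun i => algebraMap ℝ S (ζ i) := by
    intro S _ _ L ζ
    have h1 := congrArg (aeval L) (e fun i => MvPolynomial.C (ζ i))
    rw [map_Eh] at h1
    simp only [aeval_X, aeval_C, map_sum, map_mul] at h1
    have h2 : ∑ i, ∑ j, algebraMap ℝ S (ζ i) * algebraMap ℝ S (ζ j) * aeval L (a j i)
        = ∑ i, ∑ j, algebraMap ℝ S (ζ i) * algebraMap ℝ S (ζ j) * aeval L (a i j) := by
      rw [Finset.sum_comm]
      exact Finset.sum_congr rfl fun i _ => Finset.sum_congr rfl fun j _ => by ring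
    have h3 : algebraMap ℝ S (1 / 2) * 2 = 1 := by
      rw [← map_ofNat (algebraMap ℝ S) 2, ← map_mul]
      norm_num
    have h4 : ∀ i j, algebraMap ℝ S (ζ i) * algebraMap ℝ S (ζ j) *
        aeval L (MvPolynomial.C (1 / 2 : ℝ) * (a i j + a j i))
        = algebraMap ℝ S (1 / 2) * (algebraMap ℝ S (ζ i) * algebraMap ℝ S (ζ j) * aeval L (a i j)
          + algebraMap ℝ S (ζ i) * algebraMap ℝ S (ζ j) * aeval L (a j i)) := by
      intro i j
      rw [map_mul, map_add, aeval_C]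
      ring
    simp only [h4, ← Finset.mul_sum, Finset.sum_add_distrib]
    rw [h2, h1]
    linear_combination
      (∑ i, ∑ j, algebraMap ℝ S (ζ i) * algebraMap ℝ S (ζ j) * aeval L (a i j)) * h3
  refine ⟨Matrix.of fun i j => MvPolynomial.C (1 / 2 : ℝ) * (a i j + a j i), ?_, fun i j => ?_,
    fun L ζ => ?_, fun L ζ => ?_⟩
  · ext1 i j
    simp only [Matrix.transpose_apply, Matrix.of_apply, add_comm]
  · rw [Matrix.of_apply]
    simpa only [zero_add] using (isHomogeneous_C (Var ι) (1 / 2 : ℝ)).mul ((ha i j).add (ha j i))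
  · have h := key L ζ
    simp only [Algebra.algebraMap_self, RingHom.id_apply, MvPolynomial.aeval_eq_eval] at h
    simp only [Matrix.of_apply]
    exact h
  · have h := key L ζ
    simp only [Complex.coe_algebraMap] at h
    simp only [Matrix.of_apply]
    exact h


end Crest.Agent.R237
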