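import Crest.Agent.R237.Defs

/-!
# Row 237: the injective norm of a random sign tensor
-/

set_option autoImplicit false
set_option linter.unusedSectionVars false

noncomputable section

namespace Crest.Agent.R237

open MvPolynomial Matrix

namespace NetAux

open scoped InnerProductSpace

/-- A maximal `1`-separated subset of the ball of radius `2`. -/
theorem exists_net (F : Type) [NormedAddCommGroup F] [NormedSpace ℝ F] [FiniteDimensional ℝ F] :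
    ∃ s : Finset F, s.card ≤ 5 ^ Module.finrank ℝ F ∧ (∀ c ∈ s, ‖c‖ ≤ 2) ∧
      ∀ x, ‖x‖ ≤ 2 → ∃ c ∈ s, ‖x - c‖ ≤ 1 := by
  classical
  have hcard : ∀ s : Finset F, (∀ c ∈ s, ‖c‖ ≤ 2) → (∀ c ∈ s, ∀ d ∈ s, c ≠ d → 1 ≤ ‖c - d‖) →
      s.card ≤ 5 ^ Module.finrank ℝ F := fun s h1 h2 => Besicovitch.card_le_of_separated s h1 h2
  let S : Set ℕ := {k | ∃ s : Finset F, s.card = k ∧ (∀ c ∈ s, ‖c‖ ≤ 2) ∧
    ∀ c ∈ s, ∀ d ∈ s, c ≠ d → 1 ≤ ‖c - d‖}
  have hne : S.Nonempty := ⟨0, ∅, by simp⟩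
  have hbd : BddAbove S := ⟨5 ^ Module.finrank ℝ F, by
    rintro _ ⟨s, rfl, h1, h2⟩
    exact hcard s h1 h2⟩
  obtain ⟨s, hs, h1, h2⟩ := Nat.sSup_mem hne hbd
  refine ⟨s, hcard s h1 h2, h1, fun x hx => ?_⟩
  by_contra hc
  push Not at hc
  have hxs : x ∉ s := fun h => by have := hc x h; norm_num at this
  have : (insert x s).card ∈ S := by
    refine ⟨_, rfl, ?_, ?_⟩
    · intro c hc'
      rcases Finset.mem_insert.1 hc' with rfl | h
      exacts [hx, h1 c h]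
    · intro c hc' d hd hcd
      rcases Finset.mem_insert.1 hc' with rfl | h <;> rcases Finset.mem_insert.1 hd with rfl | h'
      · exact absurd rfl hcd
      · exact (hc d h').le
      · rw [norm_sub_rev]; exact (hc c h).le
      · exact h2 c h d h' hcd
  have := le_csSup hbd this
  rw [Finset.card_insert_of_notMem hxs, hs] at this
  omega

theorem norm_le_of_net {F : Type} [NormedAddCommGroup F] [InnerProductSpace ℝ F] {s : Finset F}
    (hs : ∀ x, ‖x‖ ≤ 2 → ∃ c ∈ s, ‖x - c‖ ≤ 1) {a : F} {R : ℝ} (hR : 0 ≤ R)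
    (h : ∀ c ∈ s, ⟪a, c⟫_ℝ ≤ R) : ‖a‖ ≤ R := by
  by_cases h0 : a = 0
  · rw [h0, norm_zero]; exact hR
  have hn : 0 < ‖a‖ := norm_pos_iff.2 h0
  obtain ⟨c, hc, hc'⟩ := hs ((2 / ‖a‖ : ℝ) • a) (by
    rw [norm_smul, Real.norm_of_nonneg (by positivity)]
    exact le_of_eq (by field_simp))
  have e1 : ⟪a, (2 / ‖a‖ : ℝ) • a⟫_ℝ = 2 * ‖a‖ := by
    rw [real_inner_smul_right, real_inner_self_eq_norm_sq]
    field_simp
  have e2 : ⟪a, (2 / ‖a‖ : ℝ) • a - c⟫_ℝ ≤ ‖a‖ :=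
    (real_inner_le_norm _ _).trans (mul_le_of_le_one_right hn.le hc')
  rw [inner_sub_right, e1] at e2
  linarith [h c hc]

/-- The net in coordinates. -/
theorem exists_dot_net (d : ℕ) : ∃ s : Finset (Fin d → ℝ), s.card ≤ 5 ^ d ∧
    (∀ c ∈ s, c ⬝ᵥ c ≤ 4) ∧ ∀ (a : Fin d → ℝ) (R : ℝ), 0 ≤ R → (∀ c ∈ s, a ⬝ᵥ c ≤ R) →
      ∀ x, a ⬝ᵥ x ≤ R * √(x ⬝ᵥ x) := by
  classical
  obtain ⟨s, h1, h2, h3⟩ := exists_net (EuclideanSpace ℝ (Fin d))
  rw [finrank_euclideanSpace_fin] at h1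
  have hin : ∀ u v : EuclideanSpace ℝ (Fin d), ⟪u, v⟫_ℝ = u.ofLp ⬝ᵥ v.ofLp := fun u v => by
    rw [PiLp.inner_apply, dotProduct]
    exact Finset.sum_congr rfl fun i _ => by simp [mul_comm]
  refine ⟨s.image fun c => c.ofLp, Finset.card_image_le.trans h1, ?_, ?_⟩
  · intro c hc
    obtain ⟨c, hc', rfl⟩ := Finset.mem_image.1 hc
    rw [← hin, real_inner_self_eq_norm_sq]
    nlinarith [h2 c hc', norm_nonneg c]
  · intro a R hR h x
    have h4 : ‖(WithLp.toLp 2 a : EuclideanSpace ℝ (Fin d))‖ ≤ R :=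
      norm_le_of_net h3 hR fun c hc => by
        rw [hin]
        exact h _ (Finset.mem_image_of_mem _ hc)
    have h5 := real_inner_le_norm (WithLp.toLp 2 a : EuclideanSpace ℝ (Fin d)) (WithLp.toLp 2 x)
    have h6 : ‖(WithLp.toLp 2 x : EuclideanSpace ℝ (Fin d))‖ = √(x ⬝ᵥ x) := by
      have := hin (WithLp.toLp 2 x) (WithLp.toLp 2 x)
      rw [real_inner_self_eq_norm_sq] at this
      rw [← this, Real.sqrt_sq (norm_nonneg _)]
    rw [hin, h6] at h5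
    exact h5.trans (mul_le_mul_of_nonneg_right h4 (Real.sqrt_nonneg _))

/-- A trilinear form bounded on the net is bounded. -/
theorem tri_le {d : ℕ} {s : Finset (Fin d → ℝ)}
    (hs : ∀ (a : Fin d → ℝ) (R : ℝ), 0 ≤ R → (∀ c ∈ s, a ⬝ᵥ c ≤ R) → ∀ x, a ⬝ᵥ x ≤ R * √(x ⬝ᵥ x))
    (A : Fin d → Fin d → Fin d → ℝ) {R : ℝ} (hR : 0 ≤ R)
    (h : ∀ x ∈ s, ∀ y ∈ s, ∀ z ∈ s, ∑ i, ∑ j, ∑ k, A i j k * (x i * y j * z k) ≤ R)
    (x y z : Fin d → ℝ) :
    ∑ i, ∑ j, ∑ k, A i j k * (x i * y j * z k) ≤ R * √(x ⬝ᵥ x) * √(y ⬝ᵥ y) * √(z ⬝ᵥ z) := by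
  have e1 : ∀ x y z : Fin d → ℝ, ∑ i, ∑ j, ∑ k, A i j k * (x i * y j * z k) =
      (fun i => ∑ j, ∑ k, A i j k * (y j * z k)) ⬝ᵥ x := fun x y z => by
    simp only [dotProduct, Finset.sum_mul]
    exact Finset.sum_congr rfl fun i _ => Finset.sum_congr rfl fun j _ =>
      Finset.sum_congr rfl fun k _ => by ring
  have e2 : ∀ x y z : Fin d → ℝ, ∑ i, ∑ j, ∑ k, A i j k * (x i * y j * z k) =
      (fun j => ∑ i, ∑ k, A i j k * (x i * z k)) ⬝ᵥ y := fun x y z => by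
    simp only [dotProduct, Finset.sum_mul]
    rw [Finset.sum_comm]
    exact Finset.sum_congr rfl fun i _ => Finset.sum_congr rfl fun j _ =>
      Finset.sum_congr rfl fun k _ => by ring
  have e3 : ∀ x y z : Fin d → ℝ, ∑ i, ∑ j, ∑ k, A i j k * (x i * y j * z k) =
      (fun k => ∑ i, ∑ j, A i j k * (x i * y j)) ⬝ᵥ z := fun x y z => by
    simp only [dotProduct, Finset.sum_mul]
    rw [Finset.sum_comm (γ := Fin d) (f := fun k i => ∑ j, A i j k * (x i * y j) * z k)]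
    refine Finset.sum_congr rfl fun i _ => ?_
    rw [Finset.sum_comm]
    exact Finset.sum_congr rfl fun j _ => Finset.sum_congr rfl fun k _ => by ring
  have h1 : ∀ y ∈ s, ∀ z ∈ s, ∑ i, ∑ j, ∑ k, A i j k * (x i * y j * z k) ≤ R * √(x ⬝ᵥ x) := by
    intro y hy z hz
    rw [e1]
    exact hs _ R hR (fun c hc => by rw [← e1]; exact h c hc y hy z hz) x
  have h2 : ∀ z ∈ s, ∑ i, ∑ j, ∑ k, A i j k * (x i * y j * z k) ≤
      R * √(x ⬝ᵥ x) * √(y ⬝ᵥ y) := by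
    intro z hz
    rw [e2]
    exact hs _ _ (by positivity) (fun c hc => by rw [← e2]; exact h1 c hc z hz) y
  rw [e3]
  exact hs _ _ (by positivity) (fun c hc => by rw [← e3]; exact h2 c hc) z

theorem tri_sq_le {d : ℕ} {s : Finset (Fin d → ℝ)}
    (hs : ∀ (a : Fin d → ℝ) (R : ℝ), 0 ≤ R → (∀ c ∈ s, a ⬝ᵥ c ≤ R) → ∀ x, a ⬝ᵥ x ≤ R * √(x ⬝ᵥ x))
    (A : Fin d → Fin d → Fin d → ℝ) {R : ℝ} (hR : 0 ≤ R)
    (h : ∀ x ∈ s, ∀ y ∈ s, ∀ z ∈ s, ∑ i, ∑ j, ∑ k, A i j k * (x i * y j * z k) ≤ R)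
    (x y z : Fin d → ℝ) :
    (∑ i, ∑ j, ∑ k, A i j k * (x i * y j * z k)) ^ 2 ≤
      R ^ 2 * ((x ⬝ᵥ x) * (y ⬝ᵥ y) * (z ⬝ᵥ z)) := by
  have h1 := tri_le hs A hR h x y z
  have h2 := tri_le hs A hR h (-x) y z
  have e : ∑ i, ∑ j, ∑ k, A i j k * ((-x) i * y j * z k) =
      -∑ i, ∑ j, ∑ k, A i j k * (x i * y j * z k) := by
    simp only [← Finset.sum_neg_distrib, Pi.neg_apply]
    exact Finset.sum_congr rfl fun i _ => Finset.sum_congr rfl fun j _ =>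
      Finset.sum_congr rfl fun k _ => by ring
  rw [e, neg_dotProduct_neg] at h2
  have hd : ∀ u : Fin d → ℝ, 0 ≤ u ⬝ᵥ u := fun u =>
    Finset.sum_nonneg fun i _ => mul_self_nonneg (u i)
  have h3 := sq_le_sq' (neg_le.1 h2) h1
  rw [mul_pow, mul_pow, mul_pow, Real.sq_sqrt (hd x), Real.sq_sqrt (hd y),
    Real.sq_sqrt (hd z)] at h3
  linarith

/-- Tensorisation of exponential moments. -/
theorem sum_exp_pi {ι α : Type} [Fintype ι] [DecidableEq ι] [Fintype α] (F : ι → α → ℝ)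
    (S : ι → ℝ) (h : ∀ i, ∑ a, Real.exp (F i a) ≤ Fintype.card α * Real.exp (S i)) :
    ∑ T : ι → α, Real.exp (∑ i, F i (T i)) ≤ Fintype.card (ι → α) * Real.exp (∑ i, S i) := by
  have e2 := Finset.prod_univ_sum (fun _ : ι => (Finset.univ : Finset α))
    fun i b => Real.exp (F i b)
  rw [Fintype.piFinset_univ] at e2
  simp only [Real.exp_sum]
  rw [← e2, Fintype.card_fun]
  calc _ ≤ ∏ i, (Fintype.card α : ℝ) * Real.exp (S i) :=
        Finset.prod_le_prod (fun i _ => Finset.sum_nonneg fun _ _ => (Real.exp_pos _).le)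
          fun i _ => h i
    _ = _ := by
        rw [Finset.prod_mul_distrib, Finset.prod_const, Finset.card_univ]
        push_cast
        rfl

theorem sum_exp_bool (a : ℝ) :
    ∑ b : Bool, Real.exp (sgn b * a) ≤ Fintype.card Bool * Real.exp (a ^ 2 / 2) := by
  have h1 := Real.cosh_le_exp_half_sq a
  rw [Real.cosh_eq] at h1
  rw [Fintype.sum_bool, Fintype.card_bool]
  simp only [sgn, if_true, Bool.false_eq_true, if_false, neg_mul, one_mul]
  push_cast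
  linarith

theorem sum_exp_ten {d : ℕ} (a : Fin d → Fin d → Fin d → ℝ) :
    ∑ T : Ten d, Real.exp (∑ i, ∑ j, ∑ k, sgn (T i j k) * a i j k) ≤
      Fintype.card (Ten d) * Real.exp (∑ i, ∑ j, ∑ k, a i j k ^ 2 / 2) :=
  sum_exp_pi (fun i (U : Fin d → Fin d → Bool) => ∑ j, ∑ k, sgn (U j k) * a i j k) _ fun i =>
    sum_exp_pi (fun j (V : Fin d → Bool) => ∑ k, sgn (V k) * a i j k) _ fun j =>
      sum_exp_pi (fun k b => sgn b * a i j k) _ fun k => sum_exp_bool (a i j k)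

/-- Hoeffding's inequality by counting. -/
theorem tail {d : ℕ} {x y z : Fin d → ℝ} (hx : x ⬝ᵥ x ≤ 4) (hy : y ⬝ᵥ y ≤ 4) (hz : z ⬝ᵥ z ≤ 4)
    {R : ℝ} (hR : 0 ≤ R) :
    (((Finset.univ : Finset (Ten d)).filter fun T =>
        R < ∑ i, ∑ j, ∑ k, sgn (T i j k) * (x i * y j * z k)).card : ℝ) ≤
      Fintype.card (Ten d) * Real.exp (-(R ^ 2 / 128)) := by
  have h1 := sum_exp_ten fun i j k => R / 64 * (x i * y j * z k)
  have hd : ∀ u : Fin d → ℝ, 0 ≤ u ⬝ᵥ u := fun u =>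
    Finset.sum_nonneg fun i _ => mul_self_nonneg (u i)
  have e1 : ∑ i, ∑ j, ∑ k, (R / 64 * (x i * y j * z k)) ^ 2 / 2 =
      (R / 64) ^ 2 / 2 * ((x ⬝ᵥ x) * (y ⬝ᵥ y) * (z ⬝ᵥ z)) := by
    simp only [dotProduct]
    rw [Finset.sum_mul_sum, Finset.sum_mul, Finset.mul_sum]
    refine Finset.sum_congr rfl fun i _ => ?_
    rw [Finset.sum_mul_sum, Finset.mul_sum]
    refine Finset.sum_congr rfl fun j _ => ?_
    rw [Finset.mul_sum]
    exact Finset.sum_congr rfl fun k _ => by ring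
  have e2 : (x ⬝ᵥ x) * (y ⬝ᵥ y) * (z ⬝ᵥ z) ≤ 4 * 4 * 4 :=
    mul_le_mul (mul_le_mul hx hy (hd y) (by norm_num)) hz (hd z) (by norm_num)
  have e3 : (R / 64) ^ 2 / 2 * ((x ⬝ᵥ x) * (y ⬝ᵥ y) * (z ⬝ᵥ z)) ≤ R ^ 2 / 128 := by
    have := mul_le_mul_of_nonneg_left e2 (show 0 ≤ (R / 64) ^ 2 / 2 by positivity)
    linarith
  rw [e1] at h1
  have h2 := h1.trans (mul_le_mul_of_nonneg_left (Real.exp_le_exp.2 e3) (Nat.cast_nonneg _))
  set B := (Finset.univ : Finset (Ten d)).filter fun T =>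
        R < ∑ i, ∑ j, ∑ k, sgn (T i j k) * (x i * y j * z k) with hB
  have h3 : (B.card : ℝ) * Real.exp (R ^ 2 / 64) ≤
      ∑ T : Ten d, Real.exp (∑ i, ∑ j, ∑ k, sgn (T i j k) * (R / 64 * (x i * y j * z k))) := by
    rw [← nsmul_eq_mul]
    refine (Finset.card_nsmul_le_sum B _ _ fun T hT => ?_).trans
      (Finset.sum_le_sum_of_subset_of_nonneg (Finset.subset_univ B)
        fun _ _ _ => (Real.exp_pos _).le)
    have hT' := (Finset.mem_filter.1 hT).2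
    have e4 : ∑ i, ∑ j, ∑ k, sgn (T i j k) * (R / 64 * (x i * y j * z k)) =
        R / 64 * ∑ i, ∑ j, ∑ k, sgn (T i j k) * (x i * y j * z k) := by
      simp only [Finset.mul_sum]
      exact Finset.sum_congr rfl fun i _ => Finset.sum_congr rfl fun j _ =>
        Finset.sum_congr rfl fun k _ => by ring
    rw [e4, Real.exp_le_exp]
    have := mul_le_mul_of_nonneg_left hT'.le (show 0 ≤ R / 64 by positivity)
    linarith
  have h4 := h3.trans h2
  have e5 : Real.exp (R ^ 2 / 128) = Real.exp (-(R ^ 2 / 128)) * Real.exp (R ^ 2 / 64) := by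
    rw [← Real.exp_add]
    congr 1
    ring
  rw [e5, ← mul_assoc] at h4
  exact le_of_mul_le_mul_right h4 (Real.exp_pos _)

theorem num {d : ℕ} (hd : 1 ≤ d) :
    2 * ((5 ^ d * 5 ^ d * 5 ^ d : ℝ) * Real.exp (-(32000 * d / 128))) ≤ 1 := by
  have h1 : Real.exp (-(32000 * d / 128 : ℝ)) = Real.exp (-250) ^ d := by
    rw [← Real.exp_nat_mul]
    congr 1
    ring
  have h2 : Real.exp (-250) ≤ 1 / 250 := by
    rw [Real.exp_neg, one_div]
    exact inv_anti₀ (by norm_num) (by linarith [Real.add_one_le_exp (250 : ℝ)])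
  have h3 : (5 ^ d * 5 ^ d * 5 ^ d : ℝ) * Real.exp (-250) ^ d ≤ (1 / 2) ^ d := by
    rw [← mul_pow, ← mul_pow, ← mul_pow]
    exact pow_le_pow_left₀ (by positivity) (by linarith) d
  have h4 : (1 / 2 : ℝ) ^ d ≤ (1 / 2) ^ 1 :=
    pow_le_pow_of_le_one (by norm_num) (by norm_num) hd
  rw [h1]
  linarith

end NetAux

open Classical in
theorem net : ∃ c : ℝ, 1 ≤ c ∧ ∀ d : ℕ, 1 ≤ d →
    2 * ((Finset.univ : Finset (Ten d)).filter fun T => ¬ Good c T).card ≤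
      Fintype.card (Ten d) := by
  refine ⟨32000, by norm_num, fun d hd => ?_⟩
  obtain ⟨s, hc, h4, hs⟩ := NetAux.exists_dot_net d
  set R : ℝ := √(32000 * d) with hRdef
  have hR : 0 ≤ R := Real.sqrt_nonneg _
  have hR2 : R ^ 2 = 32000 * d := Real.sq_sqrt (by positivity)
  have hsub : ((Finset.univ : Finset (Ten d)).filter fun T => ¬ Good 32000 T) ⊆
      (s ×ˢ s ×ˢ s).biUnion fun p => (Finset.univ : Finset (Ten d)).filter fun T =>
        R < ∑ i, ∑ j, ∑ k, sgn (T i j k) * (p.1 i * p.2.1 j * p.2.2 k) := by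
    intro T hT
    have hT' := (Finset.mem_filter.1 hT).2
    by_contra hn
    refine hT' fun x y z => ?_
    rw [← hR2]
    refine NetAux.tri_sq_le hs (fun i j k => sgn (T i j k)) hR (fun u hu v hv w hw => ?_) x y z
    by_contra hlt
    exact hn (Finset.mem_biUnion.2 ⟨(u, v, w),
      Finset.mem_product.2 ⟨hu, Finset.mem_product.2 ⟨hv, hw⟩⟩,
      Finset.mem_filter.2 ⟨Finset.mem_univ _, not_le.1 hlt⟩⟩)
  have h1 := (Finset.card_le_card hsub).trans Finset.card_biUnion_le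
  have h2 : (((Finset.univ : Finset (Ten d)).filter fun T => ¬ Good 32000 T).card : ℝ) ≤
      ∑ _p ∈ s ×ˢ s ×ˢ s, Fintype.card (Ten d) * Real.exp (-(R ^ 2 / 128)) := by
    refine (Nat.cast_le.2 h1).trans ?_
    rw [Nat.cast_sum]
    refine Finset.sum_le_sum fun p hp => ?_
    obtain ⟨hp1, hp2⟩ := Finset.mem_product.1 hp
    obtain ⟨hp2, hp3⟩ := Finset.mem_product.1 hp2
    exact NetAux.tail (h4 _ hp1) (h4 _ hp2) (h4 _ hp3) hR
  rw [Finset.sum_const, Finset.card_product, Finset.card_product, nsmul_eq_mul, hR2] at h2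
  have hc' : (s.card : ℝ) ≤ 5 ^ d := by exact_mod_cast hc
  have h3 : ((s.card * (s.card * s.card) : ℕ) : ℝ) ≤ 5 ^ d * 5 ^ d * 5 ^ d := by
    push_cast
    rw [← mul_assoc]
    gcongr
  have h5 := NetAux.num hd
  have h6 : (0 : ℝ) ≤ Fintype.card (Ten d) := Nat.cast_nonneg _
  have h7 := mul_le_mul_of_nonneg_right h3
    (mul_nonneg h6 (Real.exp_pos (-(32000 * d / 128 : ℝ))).le)
  have h8 := mul_le_mul_of_nonneg_left h5 h6
  have : (2 * ((Finset.univ : Finset (Ten d)).filter fun T => ¬ Good 32000 T).card : ℝ) ≤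
      Fintype.card (Ten d) := by nlinarith
  exact_mod_cast this

end Crest.Agent.R237
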