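import Crest.Agent.R237.Defs

/-!
# Row 237: polarisation of the three identities
-/

set_option autoImplicit false
set_option linter.unusedSectionVars false

noncomputable section

namespace Crest.Agent.R237

open MvPolynomial Matrix

variable {ι : Type} [Fintype ι] [DecidableEq ι] {m : ℕ} {A : Fin m → Matrix ι ι ℝ}
  {l : Fin m → ι → ℝ}

namespace PolarAux

theorem symm {B : Matrix ι ι ℝ} (hB : B.IsSymm) (x y : ι → ℝ) :
    x ⬝ᵥ B *ᵥ y = y ⬝ᵥ B *ᵥ x := by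
  rw [dotProduct_mulVec, ← mulVec_transpose, hB.eq, dotProduct_comm]

theorem single2 (B : Matrix ι ι ℝ) (a b : ι) :
    (Pi.single a 1 : ι → ℝ) ⬝ᵥ B *ᵥ Pi.single b 1 = B a b := by
  simp

theorem pol4 {B : Matrix ι ι ℝ} (hB : B.IsSymm) (x y z w : ι → ℝ) :
    64 * ((x ⬝ᵥ B *ᵥ y) * (z ⬝ᵥ B *ᵥ w) + (x ⬝ᵥ B *ᵥ z) * (y ⬝ᵥ B *ᵥ w) +
      (x ⬝ᵥ B *ᵥ w) * (y ⬝ᵥ B *ᵥ z)) =
    ((x + y + z + w) ⬝ᵥ B *ᵥ (x + y + z + w)) ^ 2 - ((x + y + z - w) ⬝ᵥ B *ᵥ (x + y + z - w)) ^ 2 -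
    ((x + y - z + w) ⬝ᵥ B *ᵥ (x + y - z + w)) ^ 2 + ((x + y - z - w) ⬝ᵥ B *ᵥ (x + y - z - w)) ^ 2 -
    ((x - y + z + w) ⬝ᵥ B *ᵥ (x - y + z + w)) ^ 2 + ((x - y + z - w) ⬝ᵥ B *ᵥ (x - y + z - w)) ^ 2 +
    ((x - y - z + w) ⬝ᵥ B *ᵥ (x - y - z + w)) ^ 2 -
    ((x - y - z - w) ⬝ᵥ B *ᵥ (x - y - z - w)) ^ 2 := by
  simp only [add_dotProduct, sub_dotProduct, mulVec_add, mulVec_sub, dotProduct_add, dotProduct_sub,
    symm hB y x, symm hB z x, symm hB w x, symm hB z y, symm hB w y, symm hB w z]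
  ring

theorem ent4 (hA : ∀ j, (A j).IsSymm)
    (h : ∀ x : ι → ℝ, ∑ j, (x ⬝ᵥ A j *ᵥ x) ^ 2 = 30 * (x ⬝ᵥ x) ^ 2) (a b c d : ι) :
    ∑ j, (A j a b * A j c d + A j a c * A j b d + A j a d * A j b c) =
      30 * ((1 : Matrix ι ι ℝ) a b * (1 : Matrix ι ι ℝ) c d +
        (1 : Matrix ι ι ℝ) a c * (1 : Matrix ι ι ℝ) b d +
        (1 : Matrix ι ι ℝ) a d * (1 : Matrix ι ι ℝ) b c) := by
  have h1 := pol4 (isSymm_one (n := ι) (α := ℝ)) (Pi.single a 1) (Pi.single b 1) (Pi.single c 1)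
    (Pi.single d 1)
  have h2 := Finset.sum_congr rfl fun j (_ : j ∈ Finset.univ) =>
    pol4 (hA j) (Pi.single a 1) (Pi.single b 1) (Pi.single c 1) (Pi.single d 1)
  simp only [single2] at h1 h2
  simp only [one_mulVec] at h1
  rw [← Finset.mul_sum] at h2
  simp only [Finset.sum_add_distrib, Finset.sum_sub_distrib, h] at h2 ⊢
  linarith

theorem tr4 {B G : Matrix ι ι ℝ} (hB : B.IsSymm) (hG : G.IsSymm) :
    (B * G).trace ^ 2 + 2 * (B * G * B * G).trace =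
      ∑ a, ∑ b, ∑ c, ∑ d, G a b * G c d * (B a b * B c d + B a c * B b d + B a d * B b c) := by
  have e1 : (B * G).trace ^ 2 = ∑ a, ∑ b, ∑ c, ∑ d, G a b * G c d * (B a b * B c d) := by
    simp only [trace, diag, mul_apply, sq, Finset.sum_mul, Finset.mul_sum]
    refine Finset.sum_congr rfl fun a _ => Finset.sum_congr rfl fun b _ =>
      Finset.sum_congr rfl fun c _ => Finset.sum_congr rfl fun d _ => ?_
    rw [hG.apply a b, hG.apply c d]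
    ring
  have e2 : (B * G * B * G).trace = ∑ a, ∑ b, ∑ c, ∑ d, G a b * G c d * (B a d * B b c) := by
    simp only [trace, diag, mul_apply, Finset.sum_mul]
    refine Finset.sum_congr rfl fun a _ => Finset.sum_congr rfl fun b _ =>
      Finset.sum_congr rfl fun c _ => Finset.sum_congr rfl fun d _ => ?_
    rw [hG.apply a b, hG.apply c d, hB.apply b c]
    ring
  have e3 : (B * G * B * G).trace = ∑ a, ∑ b, ∑ c, ∑ d, G a b * G c d * (B a c * B b d) := by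
    rw [e2]
    refine Finset.sum_congr rfl fun a _ => Finset.sum_congr rfl fun b _ => ?_
    rw [Finset.sum_comm]
    refine Finset.sum_congr rfl fun c _ => Finset.sum_congr rfl fun d _ => ?_
    rw [hG.apply c d]
  simp only [mul_add, Finset.sum_add_distrib]
  linarith

theorem pol3 {B : Matrix ι ι ℝ} (hB : B.IsSymm) (k x y z : ι → ℝ) :
    8 * ((k ⬝ᵥ x) * (y ⬝ᵥ B *ᵥ z) + (k ⬝ᵥ y) * (x ⬝ᵥ B *ᵥ z) + (k ⬝ᵥ z) * (x ⬝ᵥ B *ᵥ y)) =
    (k ⬝ᵥ (x + y + z)) * ((x + y + z) ⬝ᵥ B *ᵥ (x + y + z)) -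
    (k ⬝ᵥ (x + y - z)) * ((x + y - z) ⬝ᵥ B *ᵥ (x + y - z)) -
    (k ⬝ᵥ (x - y + z)) * ((x - y + z) ⬝ᵥ B *ᵥ (x - y + z)) +
    (k ⬝ᵥ (x - y - z)) * ((x - y - z) ⬝ᵥ B *ᵥ (x - y - z)) := by
  simp only [add_dotProduct, sub_dotProduct, mulVec_add, mulVec_sub, dotProduct_add, dotProduct_sub,
    symm hB y x, symm hB z x, symm hB z y]
  ring

theorem polc (C : ι → ι → ι → ℝ) (x y z : ι → ℝ) :
    c3 C (x + y + z) (x + y + z) (x + y + z) - c3 C (x + y - z) (x + y - z) (x + y - z) -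
      c3 C (x - y + z) (x - y + z) (x - y + z) + c3 C (x - y - z) (x - y - z) (x - y - z) =
    4 * (c3 C x y z + c3 C x z y + c3 C y x z + c3 C y z x + c3 C z x y + c3 C z y x) := by
  simp only [c3, ← Finset.sum_add_distrib, ← Finset.sum_sub_distrib, Finset.mul_sum, Pi.add_apply,
    Pi.sub_apply]
  refine Finset.sum_congr rfl fun a _ => Finset.sum_congr rfl fun b _ =>
    Finset.sum_congr rfl fun c _ => ?_
  ring

theorem c3_single (C : ι → ι → ι → ℝ) (i a b : ι) :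
    c3 C (Pi.single i 1 : ι → ℝ) (Pi.single a 1) (Pi.single b 1) = C i a b := by
  simp [c3, Pi.single_apply]

theorem ent3 (hA : ∀ j, (A j).IsSymm) {C : ι → ι → ι → ℝ} (hC : Sym3 C)
    (h : ∀ x : ι → ℝ, ∑ j, (l j ⬝ᵥ x) * (x ⬝ᵥ A j *ᵥ x) = c3 C x x x) (i a b : ι) :
    ∑ j, (l j i * A j a b + l j a * A j i b + l j b * A j i a) = 3 * C i a b := by
  have h1 := polc C (Pi.single i 1) (Pi.single a 1) (Pi.single b 1)
  have h2 := Finset.sum_congr rfl fun j (_ : j ∈ Finset.univ) =>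
    pol3 (hA j) (l j) (Pi.single i 1) (Pi.single a 1) (Pi.single b 1)
  simp only [c3_single] at h1
  rw [← Finset.mul_sum] at h2
  simp only [single2, dotProduct_single, mul_one] at h2
  simp only [Finset.sum_add_distrib, Finset.sum_sub_distrib, h] at h2 ⊢
  have := hC.2 i b a
  have := hC.1 a i b
  have := hC.2 a b i
  have := hC.1 b i a
  have := hC.1 b a i
  linarith

theorem op_le {q : Matrix ι ι ℝ} (hq : q.IsSymm) {M : ℝ} (hM : 0 < M)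
    (h : ∀ x : ι → ℝ, |x ⬝ᵥ q *ᵥ x| ≤ M * (x ⬝ᵥ x)) (y : ι → ℝ) :
    (q *ᵥ y) ⬝ᵥ (q *ᵥ y) ≤ M ^ 2 * (y ⬝ᵥ y) := by
  have h1 := (abs_le.1 (h (q *ᵥ y + M • y))).2
  have h2 := (abs_le.1 (h (q *ᵥ y - M • y))).1
  simp only [add_dotProduct, sub_dotProduct, mulVec_add, mulVec_sub, dotProduct_add, dotProduct_sub,
    mulVec_smul, smul_dotProduct, dotProduct_smul, smul_eq_mul, symm hq y (q *ᵥ y)] at h1 h2
  refine le_of_mul_le_mul_left ?_ hM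
  linarith

end PolarAux

open PolarAux

theorem polar4 (hA : ∀ j, (A j).IsSymm)
    (h : ∀ x : ι → ℝ, ∑ j, (x ⬝ᵥ A j *ᵥ x) ^ 2 = 30 * (x ⬝ᵥ x) ^ 2) {G : Matrix ι ι ℝ}
    (hG : G.IsSymm) : ∑ j, ((A j * G).trace ^ 2 + 2 * (A j * G * A j * G).trace) =
      30 * (G.trace ^ 2 + 2 * (G * G).trace) := by
  have h1 := tr4 (isSymm_one (n := ι) (α := ℝ)) hG
  simp only [Matrix.one_mul, Matrix.mul_one] at h1
  rw [h1, Finset.sum_congr rfl fun j _ => tr4 (hA j) hG, Finset.sum_comm, Finset.mul_sum]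
  refine Finset.sum_congr rfl fun a _ => ?_
  rw [Finset.sum_comm, Finset.mul_sum]
  refine Finset.sum_congr rfl fun b _ => ?_
  rw [Finset.sum_comm, Finset.mul_sum]
  refine Finset.sum_congr rfl fun c _ => ?_
  rw [Finset.sum_comm, Finset.mul_sum]
  refine Finset.sum_congr rfl fun d _ => ?_
  rw [← Finset.mul_sum, ent4 hA h]
  ring

theorem frob_le (hA : ∀ j, (A j).IsSymm)
    (h : ∀ x : ι → ℝ, ∑ j, (x ⬝ᵥ A j *ᵥ x) ^ 2 = 30 * (x ⬝ᵥ x) ^ 2) :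
    ∑ j, ∑ a, ∑ b, A j a b ^ 2 ≤ 45 * (Fintype.card ι : ℝ) ^ 2 := by
  have h1 := polar4 hA h (isSymm_one (n := ι) (α := ℝ))
  simp only [Matrix.mul_one, trace_one, Finset.sum_add_distrib, ← Finset.mul_sum] at h1
  have h2 : ∑ j, (A j * A j).trace = ∑ j, ∑ a, ∑ b, A j a b ^ 2 := by
    simp only [trace, diag, mul_apply]
    refine Finset.sum_congr rfl fun j _ => Finset.sum_congr rfl fun a _ =>
      Finset.sum_congr rfl fun b _ => ?_
    rw [(hA j).apply a b, sq]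
  have h3 : 0 ≤ ∑ j, (A j).trace ^ 2 := Finset.sum_nonneg fun j _ => sq_nonneg _
  have h4 : (Fintype.card ι : ℝ) ≤ (Fintype.card ι : ℝ) ^ 2 := by
    exact_mod_cast Nat.le_self_pow two_ne_zero _
  linarith

theorem gram_le (hA : ∀ j, (A j).IsSymm)
    (h : ∀ x : ι → ℝ, ∑ j, (x ⬝ᵥ A j *ᵥ x) ^ 2 = 30 * (x ⬝ᵥ x) ^ 2) (E : ι → ι → ℝ) :
    ∑ j, (∑ a, ∑ b, A j a b * E a b) ^ 2 ≤ 30 * Fintype.card ι * ∑ a, ∑ b, E a b ^ 2 := by
  obtain ⟨u, hu⟩ : ∃ u : Fin m → ℝ, u = fun j => ∑ a, ∑ b, A j a b * E a b := ⟨_, rfl⟩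
  obtain ⟨U, hU⟩ : ∃ U, U = ∑ j, u j ^ 2 := ⟨_, rfl⟩
  obtain ⟨q, hq⟩ : ∃ q : Matrix ι ι ℝ, q = ∑ j, u j • A j := ⟨_, rfl⟩
  have e0 : ∑ j, (∑ a, ∑ b, A j a b * E a b) ^ 2 = U := by rw [hU, hu]
  rw [e0]
  rcases le_or_gt U 0 with hU0 | hU0
  · exact hU0.trans (by positivity)
  have hqa : ∀ a b, q a b = ∑ j, u j * A j a b := fun a b => by
    simp only [hq, Matrix.sum_apply, Matrix.smul_apply, smul_eq_mul]
  have hqs : q.IsSymm := IsSymm.ext fun a b => by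
    rw [hqa, hqa]
    exact Finset.sum_congr rfl fun j _ => by rw [(hA j).apply a b]
  have e1 : U = ∑ p : ι × ι, q p.1 p.2 * E p.1 p.2 := by
    simp only [hqa, Finset.sum_mul]
    rw [Finset.sum_comm, hU]
    refine Finset.sum_congr rfl fun j _ => ?_
    simp only [mul_assoc, ← Finset.mul_sum, Fintype.sum_prod_type]
    rw [sq, hu]
  have hM : 0 < √(30 * U) := by positivity
  have hM2 : √(30 * U) ^ 2 = 30 * U := Real.sq_sqrt (by positivity)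
  have hx : ∀ x : ι → ℝ, |x ⬝ᵥ q *ᵥ x| ≤ √(30 * U) * (x ⬝ᵥ x) := fun x => by
    refine abs_le_of_sq_le_sq ?_
      (mul_nonneg hM.le (Finset.sum_nonneg fun i _ => mul_self_nonneg (x i)))
    have := Finset.sum_mul_sq_le_sq_mul_sq Finset.univ u fun j => x ⬝ᵥ A j *ᵥ x
    rw [h, ← hU] at this
    simp only [hq, sum_mulVec, dotProduct_sum, smul_mulVec, dotProduct_smul, smul_eq_mul]
    rw [mul_pow, hM2]
    linarith
  have e2 : ∑ p : ι × ι, q p.1 p.2 ^ 2 ≤ 30 * U * Fintype.card ι := by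
    rw [Fintype.sum_prod_type_right]
    refine (Finset.sum_le_card_nsmul _ _ (30 * U) fun b _ => ?_).trans (le_of_eq ?_)
    · have := op_le hqs hM hx (Pi.single b 1)
      rw [hM2] at this
      simpa [dotProduct, sq, Pi.single_apply] using this
    · rw [nsmul_eq_mul, Finset.card_univ, mul_comm]
  have e3 := Finset.sum_mul_sq_le_sq_mul_sq Finset.univ (fun p : ι × ι => q p.1 p.2)
    fun p => E p.1 p.2
  rw [← e1, Fintype.sum_prod_type (fun p : ι × ι => E p.1 p.2 ^ 2)] at e3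
  have e4 := mul_le_mul_of_nonneg_right e2 (show 0 ≤ ∑ a, ∑ b, E a b ^ 2 by positivity)
  refine le_of_mul_le_mul_left ?_ hU0
  linarith

theorem polar3 (hA : ∀ j, (A j).IsSymm) {C Γ : ι → ι → ι → ℝ} (hC : Sym3 C) (hΓ : Sym3 Γ)
    (h : ∀ x : ι → ℝ, ∑ j, (l j ⬝ᵥ x) * (x ⬝ᵥ A j *ᵥ x) = c3 C x x x) :
    ∑ i, ∑ j, l j i * ∑ a, ∑ b, A j a b * Γ i a b = ∑ i, ∑ a, ∑ b, C i a b * Γ i a b := by
  have e1 : ∑ i, ∑ j, l j i * ∑ a, ∑ b, A j a b * Γ i a b =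
      ∑ i, ∑ a, ∑ b, (∑ j, l j i * A j a b) * Γ i a b := by
    refine Finset.sum_congr rfl fun i _ => ?_
    simp only [Finset.mul_sum, Finset.sum_mul, mul_assoc]
    rw [Finset.sum_comm]
    exact Finset.sum_congr rfl fun a _ => Finset.sum_comm
  have e2 : ∑ i, ∑ a, ∑ b, (∑ j, l j a * A j i b) * Γ i a b =
      ∑ i, ∑ a, ∑ b, (∑ j, l j i * A j a b) * Γ i a b := by
    rw [Finset.sum_comm]
    refine Finset.sum_congr rfl fun i _ => Finset.sum_congr rfl fun a _ =>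
      Finset.sum_congr rfl fun b _ => ?_
    rw [hΓ.1 a i b]
  have e3 : ∑ i, ∑ a, ∑ b, (∑ j, l j b * A j i a) * Γ i a b =
      ∑ i, ∑ a, ∑ b, (∑ j, l j a * A j i b) * Γ i a b := by
    refine Finset.sum_congr rfl fun i _ => ?_
    rw [Finset.sum_comm]
    refine Finset.sum_congr rfl fun a _ => Finset.sum_congr rfl fun b _ => ?_
    rw [hΓ.2 i b a]
  have e4 : ∑ i, ∑ a, ∑ b, (∑ j, (l j i * A j a b + l j a * A j i b + l j b * A j i a)) * Γ i a b =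
      3 * ∑ i, ∑ a, ∑ b, C i a b * Γ i a b := by
    simp only [ent3 hA hC h, Finset.mul_sum, mul_assoc]
  simp only [Finset.sum_add_distrib, add_mul] at e4
  linarith

theorem polar2 (h : ∀ x : ι → ℝ, ∑ j, (l j ⬝ᵥ x) ^ 2 = 6 * (x ⬝ᵥ x)) :
    ∑ i, ∑ j, l j i ^ 2 = 6 * Fintype.card ι := by
  have : ∀ i, ∑ j, l j i ^ 2 = 6 := fun i => by simpa using h (Pi.single i 1)
  simp [this, mul_comm]


end Crest.Agent.R237
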