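import Crest.Agent.R237.Defs

/-!
# Row 237: formal Taylor expansion at a generic point
-/

set_option autoImplicit false
set_option linter.unusedSectionVars false

noncomputable section

namespace Crest.Agent.R237

open MvPolynomial Matrix

namespace TaylorAux

theorem lift {A L B : Type} [CommRing A] [CommRing L] [CommRing B] [Algebra A L]
    [Algebra.FormallySmooth A L] (φ : A →+* B) (ψ : L →+* B) (I : Ideal B) (hI : IsNilpotent I)
    (h : ∀ a, Ideal.Quotient.mk I (ψ (algebraMap A L a)) = Ideal.Quotient.mk I (φ a)) :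
    ∃ Ψ : L →+* B, ∀ a, Ψ (algebraMap A L a) = φ a := by
  let _ : Algebra A B := φ.toAlgebra
  obtain ⟨f, -⟩ := Algebra.FormallySmooth.exists_lift (R := A) I hI
    { (Ideal.Quotient.mk I).comp ψ with commutes' := h }
  exact ⟨f, f.commutes⟩

open scoped IntermediateField.algebraAdjoinAdjoin in
theorem smooth {k L J : Type} [Field k] [Field L] [Algebra k L] [CharZero k] {b : J → L}
    (hb : IsTranscendenceBasis k b) :
    Algebra.FormallySmooth (Algebra.adjoin k (Set.range b)) L := by
  have h1 : Algebra.FormallySmooth (Algebra.adjoin k (Set.range b))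
      (IntermediateField.adjoin k (Set.range b)) := .of_isLocalization (nonZeroDivisors _)
  have h2 := hb.isAlgebraic_field
  have h3 : CharZero (IntermediateField.adjoin k (Set.range b)) :=
    algebraRat.charZero _
  have h4 : Algebra.FormallyEtale (IntermediateField.adjoin k (Set.range b)) L :=
    Algebra.FormallyEtale.of_isSeparable _ L
  exact .comp _ (IntermediateField.adjoin k (Set.range b)) _

theorem infinite {s : Set ℝ} (hs : s.Finite) {J : Type} {b : J → ℝ}
    (hb : IsTranscendenceBasis (IntermediateField.adjoin ℚ s) b) : Infinite J := by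
  by_contra hJ
  have : Finite J := not_infinite_iff_finite.1 hJ
  have h1 : Cardinal.mk (IntermediateField.adjoin ℚ s) ≤ Cardinal.aleph0 :=
    (IntermediateField.cardinalMk_adjoin_le ℚ s).trans
      (sup_le (sup_le Cardinal.mk_le_aleph0 hs.lt_aleph0.le) le_rfl)
  have h2 := hb.isAlgebraic_field
  have h3 := (Algebra.IsAlgebraic.cardinalMk_le_max
    (IntermediateField.adjoin (IntermediateField.adjoin ℚ s) (Set.range b)) ℝ).trans
    (max_le ((IntermediateField.cardinalMk_adjoin_le _ _).trans
      (sup_le (sup_le h1 (Set.finite_range b).lt_aleph0.le) le_rfl)) le_rfl)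
  rw [Cardinal.mk_real] at h3
  exact absurd h3 Cardinal.aleph0_lt_continuum.not_ge

end TaylorAux

theorem exists_taylor (ι : Type) [Fintype ι] {s : Set ℝ} (hs : s.Finite) (N : ℕ) :
    ∃ (a : ι → ℝ) (Ψ : ℝ →+* MvPolynomial ι ℝ ⧸ idealOfVars ι ℝ ^ N),
      (∀ c ∈ s, Ψ c = Ideal.Quotient.mk _ (C c)) ∧
        ∀ i, Ψ (a i) = Ideal.Quotient.mk _ (C (a i) + X i) := by
  classical
  obtain ⟨J, b, hb⟩ := exists_isTranscendenceBasis' (IntermediateField.adjoin ℚ s) ℝ
  have := TaylorAux.infinite hs hb
  obtain ⟨e⟩ : Nonempty (ι ↪ J) := by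
    obtain ⟨f, hf⟩ := exists_injective_nat ι
    exact ⟨⟨fun i => Infinite.natEmbedding J (f i), (Infinite.natEmbedding J).injective.comp hf⟩⟩
  have := TaylorAux.smooth hb
  set k := IntermediateField.adjoin ℚ s
  set π := Ideal.Quotient.mk (idealOfVars ι ℝ ^ N)
  let φ₀ : MvPolynomial J k →+* MvPolynomial ι ℝ :=
    eval₂Hom (C.comp (algebraMap k ℝ)) fun j => C (b j) + ∑ i with e i = j, X i
  let ε := hb.1.aevalEquiv
  have hε : ∀ p, algebraMap (Algebra.adjoin k (Set.range b)) ℝ (ε p) = aeval b p := fun p =>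
    hb.1.algebraMap_aevalEquiv p
  have hφ : ∀ p, C (aeval b p) - φ₀ p ∈ idealOfVars ι ℝ := by
    intro p
    rw [← Ideal.Quotient.eq]
    induction p using MvPolynomial.induction_on with
    | C c => simp [φ₀]
    | add p q hp hq => simp only [map_add, hp, hq]
    | mul_X p j hp =>
      simp only [map_mul, hp]
      congr 1
      rw [Ideal.Quotient.eq]
      simp only [φ₀, aeval_X, eval₂Hom_X', sub_add_cancel_left, neg_mem_iff]
      exact Ideal.sum_mem _ fun i _ => Ideal.subset_span ⟨i, rfl⟩
  obtain ⟨Ψ, hΨ⟩ := TaylorAux.lift (π.comp (φ₀.comp ε.symm.toRingEquiv.toRingHom)) (π.comp C)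
    ((idealOfVars ι ℝ).map π) ⟨N, by rw [← Ideal.map_pow, Ideal.map_quotient_self]; rfl⟩ fun a => by
      obtain ⟨p, rfl⟩ := ε.surjective a
      rw [Ideal.Quotient.eq, hε]
      have := Ideal.mem_map_of_mem π (hφ p)
      rw [map_sub] at this
      change π (C (aeval b p)) - π (φ₀ (ε.symm (ε p))) ∈ _
      rwa [ε.symm_apply_apply]
  have hΨ' : ∀ p, Ψ (aeval b p) = π (φ₀ p) := fun p => by
    rw [← hε, hΨ]
    simp
  refine ⟨fun i => b (e i), Ψ, fun c hc => ?_, fun i => ?_⟩
  · simpa [φ₀] using hΨ' (C ⟨c, IntermediateField.subset_adjoin ℚ s hc⟩)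
  · have := hΨ' (X (e i))
    simp only [φ₀, aeval_X, eval₂Hom_X'] at this
    rwa [Finset.sum_eq_single_of_mem i (by simp) fun j hj hne =>
      absurd (e.injective (Finset.mem_filter.1 hj).2) hne] at this


end Crest.Agent.R237
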